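import Vale.Agent.P049.TS.Shell.Bridge
import Vale.Agent.P049.TS.Alg.Rel

/-!
The fibres of the vertex map `vertF`.
-/

namespace Vale.Agent.P049.TS

open Finset Matrix

theorem vertF_fib {n d : ℕ} (v : Fin n) :
    (Finset.univ.filter fun i : Fin (n * d) => vertF n d i = v).card = d := by
  have h : (Finset.univ.filter fun i : Fin (n * d) => vertF n d i = v) =
      (Finset.univ : Finset (Fin d)).map
        ⟨fun j => finProdFinEquiv (v, j), fun j j' h => by
          have := finProdFinEquiv.injective h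
          exact (Prod.ext_iff.1 this).2⟩ := by
    ext i
    rw [Finset.mem_filter, Finset.mem_map]
    constructor
    · rintro ⟨_, h⟩
      refine ⟨(finProdFinEquiv.symm i).2, Finset.mem_univ _, ?_⟩
      change finProdFinEquiv (v, (finProdFinEquiv.symm i).2) = i
      have h1 : (finProdFinEquiv.symm i).1 = v := by
        rw [← h]
        rfl
      rw [← h1]
      exact finProdFinEquiv.apply_symm_apply i
    · rintro ⟨j, _, rfl⟩
      refine ⟨Finset.mem_univ _, ?_⟩
      have h1 : (finProdFinEquiv.symm (finProdFinEquiv (v, j))).1 = v := by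
        rw [Equiv.symm_apply_apply]
      exact h1
  rw [h, Finset.card_map, Finset.card_univ, Fintype.card_fin]

/-- **Final criterion** for the algorithm. -/
theorem Reach.isRamanujan_vertF {n d : ℕ} (hd : 3 ≤ d) (hn : 0 < n) {k : ℕ}
    {s : RSt (Fin (n * d))} (h : Reach (vertF n d) (start (vertF n d) d) k s)
    (hk : 2 * k < n * d) (hp : (s.Zp ^ 2).trace ≤ 2) (hm : (s.Zm ^ 2).trace ≤ 2)
    (Gr : SimpleGraph (Fin n)) [DecidableRel Gr.Adj] (hreg : Gr.IsRegularOfDegree d)
    (hsub : ∀ e ∈ s.E, Gr.Adj (vertF n d e.1) (vertF n d e.2)) : IsRamanujanUpTo d 0 Gr := by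
  have : Nonempty (Fin n) := ⟨⟨0, hn⟩⟩
  have hcard := h.base.2.2.2
  rw [Fintype.card_fin] at hcard
  exact h.isRamanujan_of_trace hd vertF_fib (by omega) hp hm Gr hreg hsub

end Vale.Agent.P049.TS
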