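import Vale.Agent.P049.TS.Shell.Bridge
import Vale.Agent.P049.TS.Mat.Spectral
import Vale.Agent.P049.TS.Init.Run

/-!
Sign facts: consequences of `Y_e ≥ -m` (up to the all-ones direction) at reachable states.
-/

set_option linter.unusedSectionVars false

namespace Vale.Agent.P049.TS

open Matrix Finset

variable {ι : Type*} [Fintype ι] [DecidableEq ι] {V : Type*} [Fintype V] [DecidableEq V]

/-- `Z = e Y` is symmetric, supported on `F × F`, has row sums one on `F`, and
`Y + m - ((e + m)/N) 1 1ᵀ ≥ 0` on `ℝ^F`. -/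
structure Sg (F : Finset ι) (Z : Matrix ι ι ℝ) (m e : ℝ) : Prop where
  symm : Z.IsSymm
  supp : ∀ i j, i ∉ F ∨ j ∉ F → Z i j = 0
  row : RowOne F Z
  card : 0 < F.card
  lo : ∀ v : ι → ℝ, (e + m) * (∑ i ∈ F, v i) ^ 2 / F.card ≤
    e * (v ⬝ᵥ (Z *ᵥ v)) + m * ∑ i ∈ F, v i ^ 2

theorem Reach.sg [Nonempty V] {vx : ι → V} {d : ℕ} (hd : 3 ≤ d)
    (hfib : ∀ v, (Finset.univ.filter fun i => vx i = v).card = d) {k : ℕ} {s : RSt ι}
    (h : Reach vx (start vx d) k s) (hN : 0 < s.F.card) :
    Sg s.F s.Zp (√((d : ℝ) - 1))⁻¹ 1 ∧ Sg s.F s.Zm (√((d : ℝ) - 1))⁻¹ (-1) := by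
  obtain ⟨hm, hm1, hmd⟩ := mu_facts hd
  obtain ⟨h1, h2, h3, h4, h5⟩ := h.inv hd hfib hN
  obtain ⟨b1, b2, b3, b4⟩ := h.base
  refine ⟨⟨b1, fun i j hij => (b3 i j hij).1, ?_, hN, ?_⟩,
    ⟨b2, fun i j hij => (b3 i j hij).2, ?_, hN, ?_⟩⟩
  · intro i hi; exact h4.row i (by rw [h1]; exact hi)
  · intro v
    have := h4.psd hm hm1 (Or.inl rfl) (by rw [h1]; exact hN) v
    rw [h1] at this; exact this
  · intro i hi; exact h5.row i (by rw [h1]; exact hi)
  · intro v
    have := h5.psd hm hm1 (Or.inr rfl) (by rw [h1]; exact hN) v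
    rw [h1] at this; exact this

variable {F : Finset ι} {Z A B : Matrix ι ι ℝ} {m e : ℝ}

theorem Sg.pow_symm (h : Sg F Z m e) (k : ℕ) : (Z ^ k).IsSymm := by
  rw [Matrix.IsSymm, Matrix.transpose_pow, h.symm.eq]

/-- sums over `F` of the columns of powers -/
theorem Sg.col_sum (h : Sg F Z m e) (k : ℕ) {c : ι} (hc : c ∈ F) :
    ∑ i ∈ F, (Z ^ k) i c = 1 := by
  rcases k with _ | k
  · simp [Matrix.one_apply, hc]
  · have h1 := h.row.sum_pow h.supp k hc
    rw [← h1]
    rw [Finset.sum_subset (Finset.subset_univ F) fun i _ hi => pow_supp h.supp k i c (Or.inl hi)]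
    exact Finset.sum_congr rfl fun i _ => (h.pow_symm (k + 1)).apply c i

theorem Sg.col_sq (h : Sg F Z m e) (k : ℕ) {c : ι} (hc : c ∈ F) :
    ∑ i ∈ F, (Z ^ k) i c ^ 2 = (Z ^ (2 * k)) c c := by
  rcases k with _ | k
  · simp [Matrix.one_apply, hc]
  · rw [two_mul, pow_add Z (k + 1) (k + 1), Matrix.mul_apply]
    rw [Finset.sum_subset (Finset.subset_univ F) fun i _ hi => by
      rw [pow_supp h.supp k i c (Or.inl hi)]; ring]
    exact Finset.sum_congr rfl fun i _ => by
      rw [(h.pow_symm (k + 1)).apply i c, sq]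

theorem Sg.col_quad (h : Sg F Z m e) (k : ℕ) (c : ι) :
    (fun i => (Z ^ k) i c) ⬝ᵥ (Z *ᵥ fun i => (Z ^ k) i c) = (Z ^ (2 * k + 1)) c c := by
  have e1 : (Z ^ (2 * k + 1)) = Z ^ k * (Z * Z ^ k) := by
    rw [← pow_succ', ← pow_add]; congr 1; omega
  rw [e1, Matrix.mul_apply]
  simp only [dotProduct, Matrix.mulVec, Matrix.mul_apply]
  exact Finset.sum_congr rfl fun i _ => by rw [(h.pow_symm k).apply i c]

/-- diagonal entries of odd powers -/
theorem Sg.diag (h : Sg F Z m e) (k : ℕ) {c : ι} (hc : c ∈ F) :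
    -(m * (Z ^ (2 * k)) c c) + (e + m) / F.card ≤ e * (Z ^ (2 * k + 1)) c c := by
  have h1 := h.lo fun i => (Z ^ k) i c
  rw [h.col_sum k hc, h.col_sq k hc, h.col_quad k c] at h1
  have h2 : (e + m) * 1 ^ 2 / (F.card : ℝ) = (e + m) / F.card := by ring
  linarith

theorem Sg.diag_zero (h : Sg F Z m e) {c : ι} (hc : c ∈ F) :
    -m + (e + m) / F.card ≤ e * Z c c := by
  have := h.diag 0 hc
  simpa using this

/-- traces of odd powers -/
theorem Sg.trace_odd (h : Sg F Z m e) (k : ℕ) :
    -(m * (Z ^ (2 * (k + 1))).trace) + (e + m) ≤ e * (Z ^ (2 * (k + 1) + 1)).trace := by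
  have hN : (0 : ℝ) < F.card := by exact_mod_cast h.card
  have h1 : ∑ c ∈ F, (-(m * (Z ^ (2 * (k + 1))) c c) + (e + m) / F.card) ≤
      ∑ c ∈ F, e * (Z ^ (2 * (k + 1) + 1)) c c := Finset.sum_le_sum fun c hc => h.diag (k + 1) hc
  rw [Finset.sum_add_distrib, Finset.sum_neg_distrib, ← Finset.mul_sum, ← Finset.mul_sum,
    Finset.sum_const, nsmul_eq_mul] at h1
  have e1 : ∑ c ∈ F, (Z ^ (2 * (k + 1))) c c = (Z ^ (2 * (k + 1))).trace := by
    simp only [Matrix.trace, Matrix.diag]
    exact Finset.sum_subset (Finset.subset_univ F) fun i _ hi =>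
      pow_supp h.supp (2 * k + 1) i i (Or.inl hi)
  have e2 : ∑ c ∈ F, (Z ^ (2 * (k + 1) + 1)) c c = (Z ^ (2 * (k + 1) + 1)).trace := by
    simp only [Matrix.trace, Matrix.diag]
    exact Finset.sum_subset (Finset.subset_univ F) fun i _ hi =>
      pow_supp h.supp (2 * (k + 1)) i i (Or.inl hi)
  rw [e1, e2] at h1
  have e3 : (F.card : ℝ) * ((e + m) / F.card) = e + m := by field_simp
  linarith

theorem Sg.trace_one (h : Sg F Z m e) : -(m * F.card) + (e + m) ≤ e * Z.trace := by
  have hN : (0 : ℝ) < F.card := by exact_mod_cast h.card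
  have h1 : ∑ c ∈ F, (-m + (e + m) / F.card) ≤ ∑ c ∈ F, e * Z c c :=
    Finset.sum_le_sum fun c hc => h.diag_zero hc
  rw [← Finset.mul_sum, Finset.sum_const, nsmul_eq_mul] at h1
  have e1 : ∑ c ∈ F, Z c c = Z.trace := by
    simp only [Matrix.trace, Matrix.diag]
    exact Finset.sum_subset (Finset.subset_univ F) fun i _ hi => h.supp i i (Or.inl hi)
  rw [e1] at h1
  have e3 : (F.card : ℝ) * (-m + (e + m) / F.card) = -(m * F.card) + (e + m) := by
    field_simp
  linarith

/-- conjugation by an arbitrary matrix -/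
theorem Sg.conj (h : Sg F Z m e) (M : Matrix ι ι ℝ) :
    (e + m) / F.card * ∑ c, (∑ i ∈ F, M i c) ^ 2 ≤
      e * (Mᵀ * Z * M).trace + m * ∑ c, ∑ i ∈ F, M i c ^ 2 := by
  have h1 : ∑ c, (e + m) * (∑ i ∈ F, M i c) ^ 2 / F.card ≤
      ∑ c, (e * ((fun i => M i c) ⬝ᵥ (Z *ᵥ fun i => M i c)) + m * ∑ i ∈ F, M i c ^ 2) :=
    Finset.sum_le_sum fun c _ => h.lo fun i => M i c
  rw [Finset.sum_add_distrib, ← Finset.mul_sum, ← Finset.mul_sum] at h1
  have e1 : ∑ c, ((fun i => M i c) ⬝ᵥ (Z *ᵥ fun i => M i c)) = (Mᵀ * Z * M).trace := by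
    simp only [Matrix.trace, Matrix.diag, Matrix.mul_assoc]
    apply Finset.sum_congr rfl
    intro c _
    rw [Matrix.mul_apply]
    simp only [dotProduct, Matrix.mulVec, Matrix.mul_apply, Matrix.transpose_apply]
  rw [e1] at h1
  rw [Finset.mul_sum]
  refine le_trans (le_of_eq (Finset.sum_congr rfl fun c _ => ?_)) h1
  ring

/-- entries: `(Y_ab - δ)² ≤ (Y_aa + m - δ)(Y_bb + m - δ)`, `δ = (e + m)/N` -/
theorem Sg.entry_sq_le (h : Sg F Z m e) {a b : ι} (ha : a ∈ F) (hb : b ∈ F) (hab : a ≠ b) :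
    (e * Z a b - (e + m) / F.card) ^ 2 ≤
      (e * Z a a + m - (e + m) / F.card) * (e * Z b b + m - (e + m) / F.card) := by
  set δ := (e + m) / F.card with hδ
  set p := e * Z a a + m - δ with hp
  set q := e * Z b b + m - δ with hq
  set r := e * Z a b - δ with hr
  have key : ∀ x y : ℝ, 0 ≤ p * x ^ 2 + 2 * r * (x * y) + q * y ^ 2 := by
    intro x y
    have h1 := h.lo (fun i => (if i = a then x else 0) + (if i = b then y else 0))
    have e1 : ∑ i ∈ F, ((if i = a then x else 0) + (if i = b then y else 0)) = x + y := by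
      simp [Finset.sum_add_distrib, ha, hb]
    have e2 : ∑ i ∈ F, ((if i = a then x else 0) + (if i = b then y else 0)) ^ 2 =
        x ^ 2 + y ^ 2 := by
      have : ∀ i, ((if i = a then x else 0) + (if i = b then y else 0)) ^ 2 =
          (if i = a then x ^ 2 else 0) + (if i = b then y ^ 2 else 0) := by
        intro i
        by_cases k1 : i = a
        · rw [if_pos k1, if_pos k1, if_neg (fun k2 => hab (k1.symm.trans k2)),
            if_neg (fun k2 => hab (k1.symm.trans k2))]; ring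
        · rw [if_neg k1, if_neg k1]
          by_cases k2 : i = b
          · rw [if_pos k2, if_pos k2]; ring
          · rw [if_neg k2, if_neg k2]; ring
      simp [this, Finset.sum_add_distrib, ha, hb]
    have e3 : (fun i => (if i = a then x else 0) + (if i = b then y else 0)) ⬝ᵥ
        (Z *ᵥ fun i => (if i = a then x else 0) + (if i = b then y else 0)) =
        Z a a * x ^ 2 + 2 * Z a b * (x * y) + Z b b * y ^ 2 := by
      have hs : Z b a = Z a b := h.symm.apply a b
      simp only [dotProduct, Matrix.mulVec, mul_add, mul_ite, mul_zero, Finset.sum_add_distrib,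
        Finset.sum_ite_eq', Finset.mem_univ, if_true, add_mul, ite_mul, zero_mul]
      rw [hs]; ring
    rw [e1, e2, e3] at h1
    have e4 : (e + m) * (x + y) ^ 2 / (F.card : ℝ) = δ * (x + y) ^ 2 := by rw [hδ]; ring
    rw [e4] at h1
    rw [hp, hq, hr]
    linarith
  have hp0 : 0 ≤ p := by have := key 1 0; simpa using this
  have hq0 : 0 ≤ q := by have := key 0 1; simpa using this
  rcases hp0.lt_or_eq with hp1 | hp1
  · have := key (-r) p
    have h2 : p * (-r) ^ 2 + 2 * r * (-r * p) + q * p ^ 2 = p * (p * q - r ^ 2) := by ring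
    rw [h2] at this
    have := (mul_nonneg_iff_of_pos_left hp1).1 this
    linarith
  · rw [← hp1, zero_mul]
    rcases eq_or_ne r 0 with h0 | h0
    · rw [h0]; norm_num
    · exfalso
      have := key (-(q + 1) / (2 * r)) 1
      rw [← hp1] at this
      have h2 : 0 * (-(q + 1) / (2 * r)) ^ 2 + 2 * r * (-(q + 1) / (2 * r) * 1) + q * 1 ^ 2 =
          -1 := by field_simp; ring
      linarith

/-! ### Two matrices -/

/-- the diagonal indicator matrix of `F` -/
def dF (F : Finset ι) : Matrix ι ι ℝ := Matrix.diagonal fun i => if i ∈ F then 1 else 0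

/-- the all-ones matrix of `F` -/
def jF (F : Finset ι) : Matrix ι ι ℝ := Matrix.of fun i j => if i ∈ F ∧ j ∈ F then 1 else 0

theorem dF_quad (F : Finset ι) (v : ι → ℝ) : v ⬝ᵥ (dF F *ᵥ v) = ∑ i ∈ F, v i ^ 2 := by
  simp only [dF, dotProduct, Matrix.mulVec_diagonal, ite_mul, one_mul, zero_mul, mul_ite,
    mul_zero, ← Finset.sum_filter]
  have : Finset.univ.filter (· ∈ F) = F := by ext i; simp
  rw [this]
  exact Finset.sum_congr rfl fun i _ => by ring

theorem jF_quad (F : Finset ι) (v : ι → ℝ) : v ⬝ᵥ (jF F *ᵥ v) = (∑ i ∈ F, v i) ^ 2 := by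
  rw [quad_eq_sum]
  have : ∀ i j, v i * jF F i j * v j = (if i ∈ F then v i else 0) * (if j ∈ F then v j else 0) := by
    intro i j
    by_cases hi : i ∈ F <;> by_cases hj : j ∈ F <;> simp [jF, hi, hj]
  simp only [this, ← Finset.mul_sum, ← Finset.sum_mul]
  have h2 : ∑ i, (if i ∈ F then v i else 0) = ∑ i ∈ F, v i := by
    rw [← Finset.sum_filter]
    congr 1
    ext i; simp
  rw [h2, sq]

theorem trace_mul_dF {F : Finset ι} {A : Matrix ι ι ℝ} (hA : ∀ i j, i ∉ F ∨ j ∉ F → A i j = 0) :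
    (A * dF F).trace = A.trace := by
  simp only [Matrix.trace, Matrix.diag, dF, Matrix.mul_diagonal]
  apply Finset.sum_congr rfl
  intro i _
  by_cases hi : i ∈ F
  · rw [if_pos hi, mul_one]
  · rw [if_neg hi, hA i i (Or.inl hi), zero_mul]

theorem trace_mul_jF {F : Finset ι} {A : Matrix ι ι ℝ} (hA : ∀ i j, i ∉ F ∨ j ∉ F → A i j = 0)
    (hr : RowOne F A) : (A * jF F).trace = F.card := by
  have : ∀ i, (A * jF F) i i = if i ∈ F then 1 else 0 := by
    intro i
    rw [Matrix.mul_apply]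
    by_cases hi : i ∈ F
    · rw [if_pos hi, ← hr i hi]
      apply Finset.sum_congr rfl
      intro j _
      by_cases hj : j ∈ F
      · simp [jF, hi, hj]
      · rw [hA i j (Or.inr hj), zero_mul]
    · rw [if_neg hi]
      exact Finset.sum_eq_zero fun j _ => by rw [hA i j (Or.inl hi), zero_mul]
  simp [Matrix.trace, this]

theorem dF_mul_dF (F : Finset ι) : (dF F * dF F).trace = F.card := by
  rw [dF, Matrix.diagonal_mul_diagonal, Matrix.trace_diagonal]
  simp

theorem dF_mul_jF (F : Finset ι) : (dF F * jF F).trace = F.card := by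
  simp only [Matrix.trace, Matrix.diag, dF, Matrix.diagonal_mul]
  have : ∀ i, (if i ∈ F then (1 : ℝ) else 0) * jF F i i = if i ∈ F then 1 else 0 := by
    intro i
    by_cases hi : i ∈ F <;> simp [jF, hi]
  simp [this]

/-- `tr (Z_+ Z_-) ≤ m² N + m (tr Z_+ - tr Z_-) + 1 - m²` -/
theorem Sg.trace_mul_le (hA : Sg F A m 1) (hB : Sg F B m (-1)) :
    (A * B).trace ≤ m ^ 2 * F.card + m * (A.trace - B.trace) + (1 - m ^ 2) := by
  have hN : (0 : ℝ) < F.card := by exact_mod_cast hA.card
  set N : ℝ := (F.card : ℝ) with hNd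
  have h1 : Mat.LoB (A + m • dF F - ((1 + m) / N) • jF F) 0 := by
    intro v
    rw [Matrix.sub_mulVec, Matrix.add_mulVec, Matrix.smul_mulVec, Matrix.smul_mulVec,
      dotProduct_sub, dotProduct_add, dotProduct_smul, dotProduct_smul, dF_quad, jF_quad]
    have := hA.lo v
    rw [← hNd] at this
    simp only [smul_eq_mul, zero_mul, add_zero]
    have e1 : (1 + m) * (∑ i ∈ F, v i) ^ 2 / N = (1 + m) / N * (∑ i ∈ F, v i) ^ 2 := by ring
    linarith
  have h2 : Mat.LoB (-B + m • dF F + ((1 - m) / N) • jF F) 0 := by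
    intro v
    rw [Matrix.add_mulVec, Matrix.add_mulVec, Matrix.neg_mulVec, Matrix.smul_mulVec,
      Matrix.smul_mulVec, dotProduct_add, dotProduct_add, dotProduct_neg, dotProduct_smul,
      dotProduct_smul, dF_quad, jF_quad]
    have := hB.lo v
    rw [← hNd] at this
    simp only [smul_eq_mul, zero_mul, add_zero]
    have e1 : (-1 + m) * (∑ i ∈ F, v i) ^ 2 / N = -((1 - m) / N * (∑ i ∈ F, v i) ^ 2) := by ring
    linarith
  have hs : (A + m • dF F - ((1 + m) / N) • jF F).IsSymm := by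
    have e1 : (dF F : Matrix ι ι ℝ).IsSymm := by
      rw [dF]; exact Matrix.isSymm_diagonal _
    have e2 : (jF F : Matrix ι ι ℝ).IsSymm := by
      ext i j
      simp only [jF, Matrix.transpose_apply, Matrix.of_apply, and_comm]
    rw [Matrix.IsSymm, Matrix.transpose_sub, Matrix.transpose_add, Matrix.transpose_smul,
      Matrix.transpose_smul, hA.symm.eq, e1.eq, e2.eq]
  have h3 := Mat.trace_mul_nonneg_of_LoB hs h1 h2
  have a1 : (A * dF F).trace = A.trace := trace_mul_dF hA.supp
  have a2 : (A * jF F).trace = N := trace_mul_jF hA.supp hA.row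
  have a3 : (dF F * B).trace = B.trace := by
    rw [Matrix.trace_mul_comm]; exact trace_mul_dF hB.supp
  have a4 : (jF F * B).trace = N := by
    rw [Matrix.trace_mul_comm]; exact trace_mul_jF hB.supp hB.row
  have a5 : (jF F * dF F).trace = N := by
    rw [Matrix.trace_mul_comm]; exact dF_mul_jF F
  have a6 : (jF F * jF F).trace = N ^ 2 := by
    have : ∀ i, (jF F * jF F) i i = if i ∈ F then N else 0 := by
      intro i
      rw [Matrix.mul_apply]
      by_cases hi : i ∈ F
      · simp [jF, hi, hNd]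
      · simp [jF, hi]
    simp only [Matrix.trace, Matrix.diag, this, ← Finset.sum_filter, Finset.sum_const,
      nsmul_eq_mul]
    have h4 : Finset.univ.filter (· ∈ F) = F := by ext i; simp
    rw [h4, ← hNd]; ring
  have hexp : ((A + m • dF F - ((1 + m) / N) • jF F) *
      (-B + m • dF F + ((1 - m) / N) • jF F)).trace =
      -(A * B).trace + m * (A.trace - B.trace) + m ^ 2 * N + (1 - m) +
        (m * (1 - m)) + (1 + m) - (1 + m) * m - (1 + m) * (1 - m) := by
    simp only [Matrix.sub_mul, Matrix.add_mul, Matrix.mul_add, Matrix.mul_neg, Matrix.smul_mul,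
      Matrix.mul_smul, Matrix.trace_sub, Matrix.trace_add, Matrix.trace_neg, Matrix.trace_smul,
      smul_eq_mul, a1, a2, a3, a4, a5, a6, dF_mul_dF, dF_mul_jF, ← hNd]
    field_simp
    ring
  rw [hexp] at h3
  linarith

/-- `tr (Z_+ B²) ≥ -m tr B² + (1 + m)` for a symmetric `B` supported on `F` with row sums one -/
theorem Sg.trace_mul_sq (hA : Sg F A m e) (hB : B.IsSymm) (hBs : ∀ i j, i ∉ F ∨ j ∉ F → B i j = 0)
    (hBr : RowOne F B) : -(m * (B ^ 2).trace) + (e + m) ≤ e * (A * B ^ 2).trace := by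
  have hN : (0 : ℝ) < F.card := by exact_mod_cast hA.card
  have h1 := hA.conj B
  have e1 : (Bᵀ * A * B).trace = (A * B ^ 2).trace := by
    rw [hB.eq, Matrix.trace_mul_comm, ← Matrix.mul_assoc, ← sq, Matrix.trace_mul_comm]
  have e2 : ∑ c, (∑ i ∈ F, B i c) ^ 2 = F.card := by
    have : ∀ c, (∑ i ∈ F, B i c) ^ 2 = if c ∈ F then 1 else 0 := by
      intro c
      rw [Finset.sum_subset (Finset.subset_univ F) fun i _ hi => hBs i c (Or.inl hi)]
      by_cases hc : c ∈ F
      · rw [if_pos hc]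
        have : ∑ i, B i c = 1 := by
          rw [← hBr c hc]
          exact Finset.sum_congr rfl fun i _ => hB.apply c i
        rw [this]; norm_num
      · rw [if_neg hc, Finset.sum_eq_zero fun i _ => hBs i c (Or.inr hc)]; norm_num
    simp [this]
  have e3 : ∑ c, ∑ i ∈ F, B i c ^ 2 = (B ^ 2).trace := by
    simp only [Matrix.trace, Matrix.diag, sq, Matrix.mul_apply]
    apply Finset.sum_congr rfl
    intro c _
    rw [Finset.sum_subset (Finset.subset_univ F) fun i _ hi => by
      rw [hBs i c (Or.inl hi)]; ring]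
    exact Finset.sum_congr rfl fun i _ => by rw [hB.apply i c]
  rw [e1, e2, e3] at h1
  have e4 : (e + m) / (F.card : ℝ) * F.card = e + m := by field_simp
  linarith

/-- `tr (Z_+ Z_-²) ≥ -m tr Z_-² + (1 + m)` -/
theorem Sg.trace_mul_sq_pm (hA : Sg F A m 1) (hB : Sg F B m (-1)) :
    -(m * (B ^ 2).trace) + (1 + m) ≤ (A * B ^ 2).trace := by
  have := hA.trace_mul_sq hB.symm hB.supp hB.row
  rwa [one_mul] at this

/-- `tr (Z_- Z_+²) ≤ m tr Z_+² + (1 - m)` -/
theorem Sg.trace_mul_sq_mp (hA : Sg F A m 1) (hB : Sg F B m (-1)) :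
    (B * A ^ 2).trace ≤ m * (A ^ 2).trace + (1 - m) := by
  have := hB.trace_mul_sq hA.symm hA.supp hA.row
  linarith

/-- `e tr (A³ B²) ≥ -m tr (A² B²) + (e + m)` -/
theorem Sg.trace_cube_mul_sq (hA : Sg F A m e) (hB : B.IsSymm)
    (hBs : ∀ i j, i ∉ F ∨ j ∉ F → B i j = 0) (hBr : RowOne F B) :
    -(m * (A ^ 2 * B ^ 2).trace) + (e + m) ≤ e * (A ^ 3 * B ^ 2).trace := by
  have hN : (0 : ℝ) < F.card := by exact_mod_cast hA.card
  have h1 := hA.conj (A * B)
  have e1 : ((A * B)ᵀ * A * (A * B)).trace = (A ^ 3 * B ^ 2).trace := by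
    rw [Matrix.transpose_mul, hB.eq, hA.symm.eq]
    rw [show B * A * A * (A * B) = B * (A * A * (A * B)) by simp only [Matrix.mul_assoc],
      Matrix.trace_mul_comm]
    congr 1
    simp only [pow_succ, pow_zero, Matrix.one_mul, Matrix.mul_assoc]
  have hABs : ∀ i c, i ∉ F ∨ c ∉ F → (A * B) i c = 0 := by
    intro i c hic
    rw [Matrix.mul_apply]
    apply Finset.sum_eq_zero
    intro k _
    rcases hic with h | h
    · rw [hA.supp i k (Or.inl h), zero_mul]
    · rw [hBs k c (Or.inr h), mul_zero]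
  have e2 : ∑ c, (∑ i ∈ F, (A * B) i c) ^ 2 = F.card := by
    have : ∀ c, (∑ i ∈ F, (A * B) i c) ^ 2 = if c ∈ F then 1 else 0 := by
      intro c
      rw [Finset.sum_subset (Finset.subset_univ F) fun i _ hi => hABs i c (Or.inl hi)]
      by_cases hc : c ∈ F
      · rw [if_pos hc]
        have : ∑ i, (A * B) i c = 1 := by
          simp only [Matrix.mul_apply]
          rw [Finset.sum_comm]
          have h2 : ∀ k, ∑ i, A i k * B k c = B k c := by
            intro k
            rw [← Finset.sum_mul]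
            by_cases hk : k ∈ F
            · have : ∑ i, A i k = 1 := by
                rw [← hA.row k hk]
                exact Finset.sum_congr rfl fun i _ => hA.symm.apply k i
              rw [this, one_mul]
            · rw [hBs k c (Or.inl hk), mul_zero]
          simp only [h2]
          rw [← hBr c hc]
          exact Finset.sum_congr rfl fun i _ => hB.apply c i
        rw [this]; norm_num
      · rw [if_neg hc, Finset.sum_eq_zero fun i _ => hABs i c (Or.inr hc)]; norm_num
    simp [this]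
  have e3 : ∑ c, ∑ i ∈ F, (A * B) i c ^ 2 = (A ^ 2 * B ^ 2).trace := by
    have e4 : (A ^ 2 * B ^ 2).trace = ((A * B)ᵀ * (A * B)).trace := by
      rw [Matrix.transpose_mul, hB.eq, hA.symm.eq]
      rw [show B * A * (A * B) = B * (A * (A * B)) by simp only [Matrix.mul_assoc],
        Matrix.trace_mul_comm B]
      congr 1
      simp only [pow_succ, pow_zero, Matrix.one_mul, Matrix.mul_assoc]
    rw [e4]
    simp only [Matrix.trace, Matrix.diag, Matrix.mul_apply (M := (A * B)ᵀ),
      Matrix.transpose_apply]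
    apply Finset.sum_congr rfl
    intro c _
    rw [Finset.sum_subset (Finset.subset_univ F) fun i _ hi => by
      rw [hABs i c (Or.inl hi)]; ring]
    exact Finset.sum_congr rfl fun i _ => by ring
  rw [e1, e2, e3] at h1
  have e4 : (e + m) / (F.card : ℝ) * F.card = e + m := by field_simp
  linarith

end Vale.Agent.P049.TS
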