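import Vale.Agent.P049.TS.Shell.Sign

/-!
Entry bounds and the bound for `Q₄ = ∑ Z_ab⁴`.
-/

set_option linter.unusedSectionVars false

namespace Vale.Agent.P049.TS

open Matrix Finset

variable {ι : Type*} [Fintype ι] [DecidableEq ι] {V : Type*} [Fintype V] [DecidableEq V]
variable {F : Finset ι} {Z A B : Matrix ι ι ℝ} {m e : ℝ}

/-- **Entry bound** `Z_ab² ≤ (m + 2/N + |Z_aa|) (m + 2/N + |Z_bb|)` for all `a, b`. -/
theorem Sg.entry_sq (h : Sg F Z m e) (hm : 0 < m) (hm1 : m < 1) (he : e = 1 ∨ e = -1)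
    (a b : ι) : Z a b ^ 2 ≤ (m + 2 / F.card + |Z a a|) * (m + 2 / F.card + |Z b b|) := by
  have hN : (0 : ℝ) < F.card := by exact_mod_cast h.card
  have hrhs : 0 ≤ (m + 2 / F.card + |Z a a|) * (m + 2 / F.card + |Z b b|) := by positivity
  by_cases ha : a ∈ F
  swap
  · rw [h.supp a b (Or.inl ha)]; simpa using hrhs
  by_cases hb : b ∈ F
  swap
  · rw [h.supp a b (Or.inr hb)]; simpa using hrhs
  by_cases hab : a = b
  · subst hab
    rw [← sq]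
    have h1 : |Z a a| ≤ m + 2 / F.card + |Z a a| := by
      have : 0 ≤ m + 2 / (F.card : ℝ) := by positivity
      linarith
    calc Z a a ^ 2 = |Z a a| ^ 2 := (sq_abs _).symm
      _ ≤ _ := pow_le_pow_left₀ (abs_nonneg _) h1 2
  have key := h.entry_sq_le ha hb hab
  set N : ℝ := (F.card : ℝ) with hNd
  set δ := (e + m) / N with hδ
  have he2 : |e| = 1 := by rcases he with h | h <;> rw [h] <;> norm_num
  -- bounds for `δ`
  have hδ1 : |δ| ≤ 2 / N ∧ -δ + |δ| ≤ 2 / N := by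
    rcases he with h1 | h1
    · have h2 : 0 ≤ δ := by rw [hδ, h1]; positivity
      rw [abs_of_nonneg h2]
      refine ⟨?_, ?_⟩
      · rw [hδ, h1]; gcongr; linarith
      · have : (0 : ℝ) ≤ 2 / N := by positivity
        linarith
    · have h2 : δ ≤ 0 := by
        rw [hδ, h1]
        exact div_nonpos_of_nonpos_of_nonneg (by linarith) hN.le
      rw [abs_of_nonpos h2]
      have h3 : -δ ≤ 1 / N := by
        rw [hδ, h1, ← neg_div]; gcongr; linarith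
      have h4 : (2 : ℝ) / N = 1 / N + 1 / N := by ring
      have h5 : (0 : ℝ) ≤ 1 / N := by positivity
      constructor <;> linarith
  set c := |δ| with hc
  have hc0 : 0 ≤ c := abs_nonneg _
  set P := e * Z a a + m - δ with hP
  set Q := e * Z b b + m - δ with hQ
  have hP1 : P + c ≤ m + 2 / N + |Z a a| := by
    have : e * Z a a ≤ |Z a a| := by
      calc e * Z a a ≤ |e * Z a a| := le_abs_self _
        _ = |Z a a| := by rw [abs_mul, he2, one_mul]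
    rw [hP]; linarith [hδ1.2]
  have hQ1 : Q + c ≤ m + 2 / N + |Z b b| := by
    have : e * Z b b ≤ |Z b b| := by
      calc e * Z b b ≤ |e * Z b b| := le_abs_self _
        _ = |Z b b| := by rw [abs_mul, he2, one_mul]
    rw [hQ]; linarith [hδ1.2]
  have hdz : -m + δ ≤ e * Z a a := h.diag_zero ha
  have hdz' : -m + δ ≤ e * Z b b := h.diag_zero hb
  have hP0 : 0 ≤ P := by rw [hP]; linarith
  have hQ0 : 0 ≤ Q := by rw [hQ]; linarith
  -- `|Z_ab| ≤ √(P Q) + c`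
  have h1 : |e * Z a b - δ| ≤ √(P * Q) := Real.abs_le_sqrt key
  have h2 : |Z a b| ≤ √(P * Q) + c := by
    have e1 : |Z a b| = |e * Z a b| := by rw [abs_mul, he2, one_mul]
    have e2 : e * Z a b = (e * Z a b - δ) + δ := by ring
    rw [e1, e2]
    exact (abs_add_le _ _).trans (by rw [hc]; linarith)
  have h3 : √(P * Q) ^ 2 = P * Q := Real.sq_sqrt (mul_nonneg hP0 hQ0)
  have h4 : 2 * √(P * Q) ≤ P + Q := by
    have h5 : (2 * √(P * Q)) ^ 2 ≤ (P + Q) ^ 2 := by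
      rw [mul_pow, h3]; nlinarith [sq_nonneg (P - Q)]
    exact le_of_sq_le_sq' h5 (by linarith)
  calc Z a b ^ 2 = |Z a b| ^ 2 := (sq_abs _).symm
    _ ≤ (√(P * Q) + c) ^ 2 := pow_le_pow_left₀ (abs_nonneg _) h2 2
    _ = P * Q + c * (2 * √(P * Q)) + c ^ 2 := by rw [add_sq, h3]; ring
    _ ≤ P * Q + c * (P + Q) + c ^ 2 := by
        have := mul_le_mul_of_nonneg_left h4 hc0
        linarith
    _ = (P + c) * (Q + c) := by ring
    _ ≤ _ := mul_le_mul hP1 hQ1 (by positivity) (by positivity)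
where
  le_of_sq_le_sq' {x y : ℝ} (h : x ^ 2 ≤ y ^ 2) (hy : 0 ≤ y) : x ≤ y := abs_le_of_sq_le_sq' h hy |>.2

/-- entry bound with constants one -/
theorem Sg.entry_sq_one (h : Sg F Z m e) (hm : 0 < m) (hm1 : m + 2 / F.card ≤ 1)
    (he : e = 1 ∨ e = -1) (a b : ι) : Z a b ^ 2 ≤ (1 + |Z a a|) * (1 + |Z b b|) := by
  have hN : (0 : ℝ) < F.card := by exact_mod_cast h.card
  have h2 : (0 : ℝ) < 2 / F.card := by positivity
  refine (h.entry_sq hm (by linarith) he a b).trans ?_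
  gcongr

/-- `m = 1/√(d-1) ≤ 5/7` for `d ≥ 3` -/
theorem mu_le {d : ℕ} (hd : 3 ≤ d) : (√((d : ℝ) - 1))⁻¹ ≤ 5 / 7 := by
  have hd' : (3 : ℝ) ≤ d := by exact_mod_cast hd
  have h1 : (7 : ℝ) / 5 ≤ √((d : ℝ) - 1) := by
    apply Real.le_sqrt_of_sq_le
    norm_num
    linarith
  rw [show (5 : ℝ) / 7 = (7 / 5)⁻¹ by norm_num]
  exact inv_anti₀ (by norm_num) h1

theorem mu_add_le {d : ℕ} (hd : 3 ≤ d) {N : ℕ} (hN : 7 ≤ N) :
    (√((d : ℝ) - 1))⁻¹ + 2 / (N : ℝ) ≤ 1 := by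
  have h1 := mu_le hd
  have h2 : (2 : ℝ) / N ≤ 2 / 7 := by
    have : (7 : ℝ) ≤ N := by exact_mod_cast hN
    gcongr
  linarith

/-- `Q₄` with general diagonal: `∑ Z_ab⁴ ≤ M² T₂ + 2 M √(S V₂) + S max w`, `M = m + 2/N` -/
theorem Sg.quartic (h : Sg F Z m e) (hm : 0 < m) (hm1 : m < 1) (he : e = 1 ∨ e = -1)
    {W : ℝ} (hW : ∀ a, ∑ b, Z a b ^ 2 ≤ W) :
    ∑ a, ∑ b, Z a b ^ 4 ≤ (m + 2 / F.card) ^ 2 * ∑ a, ∑ b, Z a b ^ 2 +
      2 * (m + 2 / F.card) * √((∑ a, Z a a ^ 2) * ∑ a, (∑ b, Z a b ^ 2) ^ 2) +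
      W * ∑ a, Z a a ^ 2 := by
  have hN : (0 : ℝ) < F.card := by exact_mod_cast h.card
  set M := m + 2 / (F.card : ℝ) with hM
  have hM0 : 0 ≤ M := by positivity
  have h1 : ∀ a b, Z a b ^ 4 ≤ M ^ 2 * Z a b ^ 2 + M * (|Z a a| * Z a b ^ 2) +
      M * (|Z b b| * Z a b ^ 2) + (|Z a a| * |Z b b|) * Z a b ^ 2 := by
    intro a b
    have h2 := h.entry_sq hm hm1 he a b
    have h3 := mul_le_mul_of_nonneg_right h2 (sq_nonneg (Z a b))
    calc Z a b ^ 4 = Z a b ^ 2 * Z a b ^ 2 := by ring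
      _ ≤ _ := h3
      _ = _ := by ring
  have hsymm : ∀ a b, Z a b ^ 2 = Z b a ^ 2 := fun a b => by rw [h.symm.apply b a]
  have h2 : ∑ a, ∑ b, |Z a a| * Z a b ^ 2 = ∑ a, |Z a a| * ∑ b, Z a b ^ 2 := by
    simp only [Finset.mul_sum]
  have h3 : ∑ a, ∑ b, |Z b b| * Z a b ^ 2 = ∑ a, |Z a a| * ∑ b, Z a b ^ 2 := by
    rw [Finset.sum_comm]
    simp only [Finset.mul_sum]
    exact Finset.sum_congr rfl fun b _ => Finset.sum_congr rfl fun a _ => by rw [hsymm a b]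
  have h4 : ∑ a, |Z a a| * ∑ b, Z a b ^ 2 ≤
      √((∑ a, Z a a ^ 2) * ∑ a, (∑ b, Z a b ^ 2) ^ 2) := by
    apply Real.le_sqrt_of_sq_le
    have := Finset.sum_mul_sq_le_sq_mul_sq Finset.univ (fun a => |Z a a|)
      (fun a => ∑ b, Z a b ^ 2)
    simpa only [sq_abs] using this
  have h5 : ∑ a, ∑ b, (|Z a a| * |Z b b|) * Z a b ^ 2 ≤ W * ∑ a, Z a a ^ 2 := by
    have h6 : ∀ a b, (|Z a a| * |Z b b|) * Z a b ^ 2 ≤
        1 / 2 * (Z a a ^ 2 * Z a b ^ 2) + 1 / 2 * (Z b b ^ 2 * Z a b ^ 2) := by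
      intro a b
      have h7 : |Z a a| * |Z b b| ≤ 1 / 2 * Z a a ^ 2 + 1 / 2 * Z b b ^ 2 := by
        nlinarith [sq_nonneg (|Z a a| - |Z b b|), sq_abs (Z a a), sq_abs (Z b b)]
      have := mul_le_mul_of_nonneg_right h7 (sq_nonneg (Z a b))
      linarith
    have h8 : ∑ a, ∑ b, Z a a ^ 2 * Z a b ^ 2 ≤ W * ∑ a, Z a a ^ 2 := by
      rw [Finset.mul_sum]
      apply Finset.sum_le_sum
      intro a _
      rw [← Finset.mul_sum, mul_comm]
      exact mul_le_mul_of_nonneg_right (hW a) (sq_nonneg _)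
    have h9 : ∑ a, ∑ b, Z b b ^ 2 * Z a b ^ 2 ≤ W * ∑ a, Z a a ^ 2 := by
      rw [Finset.sum_comm]
      refine le_trans (le_of_eq ?_) h8
      exact Finset.sum_congr rfl fun b _ => Finset.sum_congr rfl fun a _ => by rw [hsymm a b]
    calc ∑ a, ∑ b, (|Z a a| * |Z b b|) * Z a b ^ 2 ≤
        ∑ a, ∑ b, (1 / 2 * (Z a a ^ 2 * Z a b ^ 2) + 1 / 2 * (Z b b ^ 2 * Z a b ^ 2)) :=
          Finset.sum_le_sum fun a _ => Finset.sum_le_sum fun b _ => h6 a b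
      _ = 1 / 2 * (∑ a, ∑ b, Z a a ^ 2 * Z a b ^ 2) +
          1 / 2 * ∑ a, ∑ b, Z b b ^ 2 * Z a b ^ 2 := by
          simp only [Finset.sum_add_distrib, ← Finset.mul_sum]
      _ ≤ _ := by linarith
  calc ∑ a, ∑ b, Z a b ^ 4 ≤ ∑ a, ∑ b, (M ^ 2 * Z a b ^ 2 + M * (|Z a a| * Z a b ^ 2) +
      M * (|Z b b| * Z a b ^ 2) + (|Z a a| * |Z b b|) * Z a b ^ 2) :=
        Finset.sum_le_sum fun a _ => Finset.sum_le_sum fun b _ => h1 a b
    _ = M ^ 2 * (∑ a, ∑ b, Z a b ^ 2) + M * (∑ a, ∑ b, |Z a a| * Z a b ^ 2) +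
        M * (∑ a, ∑ b, |Z b b| * Z a b ^ 2) + ∑ a, ∑ b, (|Z a a| * |Z b b|) * Z a b ^ 2 := by
        simp only [Finset.sum_add_distrib, ← Finset.mul_sum]
    _ ≤ _ := by
        rw [h2, h3]
        have := mul_le_mul_of_nonneg_left h4 hM0
        linarith

end Vale.Agent.P049.TS
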