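import Vale.Agent.P049.TS.Shell.Defs

/-!
The start of the stub process: the initial stub matrices, their powers and traces.
-/

set_option linter.unusedSectionVars false
set_option linter.unusedSimpArgs false
set_option linter.unusedVariables false

namespace Vale.Agent.P049.TS

open Matrix Finset

variable {ι : Type*} [Fintype ι] [DecidableEq ι] {V : Type*} [Fintype V] [DecidableEq V]

/-- combinations of the identity, the block matrix and the all-ones matrix -/
def S3 (vx : ι → V) (x y z : ℝ) : Matrix ι ι ℝ :=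
  Matrix.of fun i j => x * (if i = j then 1 else 0) + y * (if vx i = vx j then 1 else 0) + z

/-- the initial stub matrix, `ν = e m` -/
noncomputable def Zinit (vx : ι → V) (ν : ℝ) : Matrix ι ι ℝ :=
  S3 vx (-ν) ν (-(ν * ((1 - ν) / ((1 + ν ^ 2) * Fintype.card V))))

theorem Zinit_apply (vx : ι → V) (ν : ℝ) (i j : ι) : Zinit vx ν i j =
    ν * ((if vx i = vx j then 1 else 0) - (if i = j then 1 else 0) -
      (1 - ν) / ((1 + ν ^ 2) * Fintype.card V)) := by
  simp only [Zinit, S3, Matrix.of_apply]
  ring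

theorem S3_isSymm (vx : ι → V) (x y z : ℝ) : (S3 vx x y z).IsSymm := by
  ext i j
  simp only [S3, Matrix.transpose_apply, Matrix.of_apply, eq_comm]

variable {vx : ι → V} {d : ℕ}

theorem card_stubs (hfib : ∀ v, (Finset.univ.filter fun i => vx i = v).card = d) :
    Fintype.card ι = Fintype.card V * d := by
  have := Finset.card_eq_sum_card_fiberwise (f := vx) (s := (Finset.univ : Finset ι))
    (t := Finset.univ) (fun _ _ => Finset.mem_coe.2 (Finset.mem_univ _))
  rw [Finset.card_univ] at this
  rw [this]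
  simp [hfib]

theorem sum_block (hfib : ∀ v, (Finset.univ.filter fun i => vx i = v).card = d) (v : V) :
    ∑ i, (if vx i = v then (1 : ℝ) else 0) = d := by
  rw [← Finset.sum_filter, Finset.sum_const, hfib, nsmul_eq_mul, mul_one]

theorem S3_mul (hfib : ∀ v, (Finset.univ.filter fun i => vx i = v).card = d)
    (x y z x' y' z' : ℝ) : S3 vx x y z * S3 vx x' y' z' =
      S3 vx (x * x') (x * y' + y * x' + d * (y * y'))
        (x * z' + z * x' + d * (y * z' + z * y') + Fintype.card ι * (z * z')) := by
  ext i j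
  rw [Matrix.mul_apply]
  simp only [S3, Matrix.of_apply]
  have hc : ∀ v, ∑ i, (if v = vx i then (1 : ℝ) else 0) = d := by
    intro v
    rw [← sum_block hfib v]
    exact Finset.sum_congr rfl fun i _ => by simp only [eq_comm]
  have h1 : ∑ k, (if vx i = vx k then (1 : ℝ) else 0) * (if vx k = vx j then 1 else 0) =
      d * (if vx i = vx j then 1 else 0) := by
    by_cases h : vx i = vx j
    · rw [if_pos h, mul_one, ← sum_block hfib (vx j)]
      apply Finset.sum_congr rfl
      intro k _
      rw [h]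
      by_cases h2 : vx k = vx j
      · rw [if_pos h2, if_pos h2.symm]; ring
      · rw [if_neg h2]; ring
    · rw [if_neg h, mul_zero]
      apply Finset.sum_eq_zero
      intro k _
      by_cases h2 : vx k = vx j
      · rw [if_neg (fun h3 => h (h3.trans h2))]; ring
      · rw [if_neg h2]; ring
  have h2 : ∀ k, (x * (if i = k then (1 : ℝ) else 0) + y * (if vx i = vx k then 1 else 0) + z) *
      (x' * (if k = j then 1 else 0) + y' * (if vx k = vx j then 1 else 0) + z') =
      (if i = k then x * (x' * (if k = j then 1 else 0) + y' * (if vx k = vx j then 1 else 0) + z')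
        else 0) +
      (if k = j then x' * (y * (if vx i = vx k then 1 else 0) + z) else 0) +
      y * y' * ((if vx i = vx k then (1 : ℝ) else 0) * (if vx k = vx j then 1 else 0)) +
      y * z' * (if vx i = vx k then 1 else 0) + z * y' * (if vx k = vx j then 1 else 0) +
      z * z' := by
    intro k
    split_ifs <;> ring
  simp only [h2, Finset.sum_add_distrib, ← Finset.mul_sum, h1, hc, sum_block hfib,
    Finset.sum_ite_eq, Finset.sum_ite_eq', Finset.mem_univ, if_true, Finset.sum_const,
    Finset.card_univ, nsmul_eq_mul]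
  ring

theorem S3_trace (x y z : ℝ) : (S3 vx x y z).trace = Fintype.card ι * (x + y + z) := by
  simp [Matrix.trace, S3, Finset.card_univ]
  ring

theorem S3_one : S3 vx 1 0 0 = (1 : Matrix ι ι ℝ) := by
  ext i j
  simp [S3, Matrix.one_apply]

/-- powers of the initial matrix -/
theorem Zinit_pow [Nonempty V] (hfib : ∀ v, (Finset.univ.filter fun i => vx i = v).card = d)
    {ν : ℝ} (hν : ν ^ 2 * ((d : ℝ) - 1) = 1) (k : ℕ) :
    Zinit vx ν ^ k = S3 vx ((-ν) ^ k) (((ν⁻¹) ^ k - (-ν) ^ k) / d)
      ((1 - (ν⁻¹) ^ k) / Fintype.card ι) := by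
  have hn : (0 : ℝ) < Fintype.card V := by exact_mod_cast Fintype.card_pos
  have hν0 : ν ≠ 0 := by
    intro h; rw [h] at hν; norm_num at hν
  have hd1 : (d : ℝ) = (1 + ν ^ 2) / ν ^ 2 := by
    field_simp; linarith
  have hd0 : (0 : ℝ) < d := by rw [hd1]; positivity
  have hcard : (Fintype.card ι : ℝ) = Fintype.card V * d := by
    exact_mod_cast card_stubs hfib
  induction k with
  | zero => rw [pow_zero, ← S3_one (vx := vx)]; simp
  | succ k ih =>
    rw [pow_succ, ih, Zinit, S3_mul hfib, hcard]
    set n := (Fintype.card V : ℝ)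
    set q := (ν⁻¹) ^ k with hq
    have hq1 : (ν⁻¹) ^ (k + 1) = q * ν⁻¹ := by rw [pow_succ]
    have hp1 : (-ν) ^ (k + 1) = (-ν) ^ k * (-ν) := pow_succ _ _
    rw [hq1, hp1]
    set p := (-ν) ^ k
    congr 1
    · rw [hd1]
      field_simp
      ring
    · rw [hd1]
      field_simp
      ring

theorem Zinit_eq_pow_one [Nonempty V]
    (hfib : ∀ v, (Finset.univ.filter fun i => vx i = v).card = d)
    {ν : ℝ} (hν : ν ^ 2 * ((d : ℝ) - 1) = 1) : Zinit vx ν =
      S3 vx (-ν) ((ν⁻¹ + ν) / d) ((1 - ν⁻¹) / Fintype.card ι) := by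
  have := Zinit_pow hfib hν 1
  rw [pow_one, pow_one, pow_one] at this
  rw [this]; congr 2; ring

/-- traces of the powers of the initial matrix -/
theorem Zinit_trace_pow [Nonempty V]
    (hfib : ∀ v, (Finset.univ.filter fun i => vx i = v).card = d)
    {ν : ℝ} (hν : ν ^ 2 * ((d : ℝ) - 1) = 1) (k : ℕ) :
    (Zinit vx ν ^ k).trace = 1 + (Fintype.card V - 1) * (ν⁻¹) ^ k +
      Fintype.card V * (d - 1) * (-ν) ^ k := by
  have hn : (0 : ℝ) < Fintype.card V := by exact_mod_cast Fintype.card_pos
  have hν0 : ν ≠ 0 := by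
    intro h; rw [h] at hν; norm_num at hν
  have hd1 : (d : ℝ) = (1 + ν ^ 2) / ν ^ 2 := by
    field_simp; linarith
  have hd0 : (0 : ℝ) < d := by rw [hd1]; positivity
  have hcard : (Fintype.card ι : ℝ) = Fintype.card V * d := by
    exact_mod_cast card_stubs hfib
  rw [Zinit_pow hfib hν, S3_trace, hcard]
  field_simp
  ring

/-- cross traces of the initial matrices -/
theorem Zinit_trace_cross [Nonempty V]
    (hfib : ∀ v, (Finset.univ.filter fun i => vx i = v).card = d)
    {ν ν' : ℝ} (hν : ν ^ 2 * ((d : ℝ) - 1) = 1) (hν' : ν' ^ 2 * ((d : ℝ) - 1) = 1) (k l : ℕ) :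
    (Zinit vx ν ^ k * Zinit vx ν' ^ l).trace =
      1 + (Fintype.card V - 1) * ((ν⁻¹) ^ k * (ν'⁻¹) ^ l) +
      Fintype.card V * (d - 1) * ((-ν) ^ k * (-ν') ^ l) := by
  have hn : (0 : ℝ) < Fintype.card V := by exact_mod_cast Fintype.card_pos
  have hν0 : ν ≠ 0 := by
    intro h; rw [h] at hν; norm_num at hν
  have hd1 : (d : ℝ) = (1 + ν ^ 2) / ν ^ 2 := by
    field_simp; linarith
  have hd0 : (0 : ℝ) < d := by rw [hd1]; positivity
  have hcard : (Fintype.card ι : ℝ) = Fintype.card V * d := by
    exact_mod_cast card_stubs hfib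
  rw [Zinit_pow hfib hν, Zinit_pow hfib hν', S3_mul hfib, S3_trace, hcard]
  field_simp
  ring

theorem Zinit_pow_apply [Nonempty V]
    (hfib : ∀ v, (Finset.univ.filter fun i => vx i = v).card = d)
    {ν : ℝ} (hν : ν ^ 2 * ((d : ℝ) - 1) = 1) (k : ℕ) (i j : ι) :
    (Zinit vx ν ^ k) i j = (-ν) ^ k * (if i = j then 1 else 0) +
      ((ν⁻¹) ^ k - (-ν) ^ k) / d * (if vx i = vx j then 1 else 0) +
      (1 - (ν⁻¹) ^ k) / Fintype.card ι := by
  rw [Zinit_pow hfib hν, S3, Matrix.of_apply]

/-- the diagonal entries of the powers of the initial matrix are all equal -/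
theorem Zinit_pow_diag [Nonempty V]
    (hfib : ∀ v, (Finset.univ.filter fun i => vx i = v).card = d)
    {ν : ℝ} (hν : ν ^ 2 * ((d : ℝ) - 1) = 1) (k : ℕ) (i : ι) :
    (Zinit vx ν ^ k) i i = (Zinit vx ν ^ k).trace / Fintype.card ι := by
  have : Nonempty ι := ⟨i⟩
  have hn : (0 : ℝ) < Fintype.card ι := by exact_mod_cast Fintype.card_pos
  rw [Zinit_pow hfib hν, S3_trace, S3, Matrix.of_apply]
  rw [if_pos rfl, if_pos rfl]
  field_simp

theorem free_nil : free ([] : List (ι × ι)) = Finset.univ := by
  ext i; simp [free]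

/-- **Start**: the invariants hold for the empty graph. -/
theorem StubInv.nil [Nonempty V] (hfib : ∀ v, (Finset.univ.filter fun i => vx i = v).card = d)
    {m e c : ℝ} (hm : 0 < m) (hm1 : m < 1) (he : e = 1 ∨ e = -1)
    (hd : m ^ 2 * ((d : ℝ) - 1) = 1) (hc : c * Fintype.card V = e * m * d - 2) :
    StubInv vx m e c [] (Zinit vx (e * m)) := by
  have hn : (0 : ℝ) < Fintype.card V := by exact_mod_cast Fintype.card_pos
  have he2 : e * e = 1 := mul_self_eq_one_iff.2 he
  have hν2 : (e * m) ^ 2 = m ^ 2 := by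
    have : (e * m) ^ 2 = (e * e) * m ^ 2 := by ring
    rw [this, he2, one_mul]
  have hν : (e * m) ^ 2 * ((d : ℝ) - 1) = 1 := by rw [hν2, hd]
  have hd1 : (d : ℝ) = (1 + m ^ 2) / m ^ 2 := by
    field_simp; linarith
  have hd0 : (0 : ℝ) < d := by rw [hd1]; positivity
  have hcard : (Fintype.card ι : ℝ) = Fintype.card V * d := by
    exact_mod_cast card_stubs hfib
  have hk : 0 < 1 - m ^ 2 := by nlinarith
  have hsum : ∀ v : V → ℝ, ∑ i, v (vx i) = d * ∑ x, v x := by
    intro v
    rw [← Finset.sum_fiberwise (s := Finset.univ) (g := vx), Finset.mul_sum]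
    apply Finset.sum_congr rfl
    intro x _
    rw [Finset.sum_congr rfl (g := fun _ => v x)
      (fun i hi => by rw [(Finset.mem_filter.1 hi).2]), Finset.sum_const, hfib, nsmul_eq_mul]
  have hJ1 : ∀ v : V → ℝ, (Matrix.of fun _ _ : V => c) *ᵥ v = fun _ => c * ∑ x, v x := by
    intro v
    ext x
    simp only [Matrix.mulVec, dotProduct, Matrix.of_apply, ← Finset.mul_sum]
  refine ⟨S3_isSymm _ _ _ _, ?_, ?_, ?_, ?_, ?_⟩
  · intro i j hi
    rw [free_nil] at hi
    exact absurd (Finset.mem_univ i) hi
  · -- row sums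
    intro i _
    simp only [Zinit, S3, Matrix.of_apply, Finset.sum_add_distrib, ← Finset.mul_sum,
      Finset.sum_ite_eq, Finset.mem_univ, if_true, Finset.sum_const, Finset.card_univ,
      nsmul_eq_mul]
    have : ∑ j, (if vx i = vx j then (1 : ℝ) else 0) = d := by
      rw [← sum_block hfib (vx i)]
      exact Finset.sum_congr rfl fun j _ => by simp only [eq_comm]
    rw [this, hcard, hν2, hd1]
    rcases he with he | he
    · rw [he]; field_simp; ring
    · rw [he]; field_simp; ring
  · -- positivity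
    intro v hv hv0
    rw [free_nil, hsum] at hv
    have hv1 : ∑ x, v x = 0 := (mul_eq_zero.1 hv).resolve_left hd0.ne'
    rw [Kmat, Matrix.add_mulVec, dotProduct_add, Matrix.smul_mulVec, Matrix.one_mulVec,
      dotProduct_smul, hJ1, hv1, mul_zero]
    have hvv : 0 < v ⬝ᵥ v := by
      rcases (Finset.sum_nonneg fun i _ => mul_self_nonneg (v i) : 0 ≤ v ⬝ᵥ v).lt_or_eq with h | h
      · exact h
      · exact absurd (dotProduct_self_eq_zero.1 h.symm) hv0
    have : (v ⬝ᵥ fun _ => (0 : ℝ)) = 0 := by simp [dotProduct]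
    rw [this, add_zero, smul_eq_mul]
    exact mul_pos hk hvv
  · -- `K 1`
    intro v
    rw [free_nil, hsum, Kmat, Matrix.add_mulVec, dotProduct_add, Matrix.smul_mulVec,
      Matrix.one_mulVec, dotProduct_smul, hJ1]
    simp only [dotProduct, mul_one, smul_eq_mul, Finset.sum_const, Finset.card_univ, nsmul_eq_mul,
      ← Finset.sum_mul]
    rw [hc]
    have e1 : m ^ 2 * (d : ℝ) = 1 + m ^ 2 := by linarith
    linear_combination (∑ x, v x) * e1
  · -- the inverse
    set θ := (1 - e * m) / ((1 + (e * m) ^ 2) * Fintype.card V) with hθ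
    refine ⟨(1 - m ^ 2)⁻¹ • ((1 : Matrix V V ℝ) - Matrix.of fun _ _ => θ), ?_, ?_, ?_⟩
    · ext x y
      simp [Matrix.one_apply, eq_comm]
    · have hJJ : (Matrix.of fun _ _ : V => c) * (Matrix.of fun _ _ : V => θ) =
          Matrix.of fun _ _ : V => c * Fintype.card V * θ := by
        ext x y
        simp [Matrix.mul_apply]
        ring
      have key : c = θ * (1 - m ^ 2 + c * Fintype.card V) := by
        have h1 : c = (e * m * d - 2) / Fintype.card V := by
          rw [← hc]; field_simp
        rw [hc, h1, hθ, hν2, hd1]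
        rcases he with he | he
        · rw [he]; field_simp; ring
        · rw [he]; field_simp; ring
      rw [Kmat, Matrix.mul_smul, Matrix.add_mul, Matrix.mul_sub, Matrix.mul_sub, Matrix.mul_one,
        Matrix.mul_one, hJJ]
      ext x y
      simp only [Matrix.smul_apply, Matrix.add_apply, Matrix.sub_apply, Matrix.of_apply,
        Matrix.one_apply, smul_eq_mul, Matrix.smul_mul, Matrix.one_mul]
      have h2 : c - c * Fintype.card V * θ = (1 - m ^ 2) * θ := by
        linear_combination key
      rw [h2]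
      field_simp
      ring
    · intro i _ j _
      rw [Zinit_apply]
      simp only [Matrix.smul_apply, Matrix.sub_apply, Matrix.of_apply, Matrix.one_apply,
        smul_eq_mul, ← hθ]
      have h1 : m * (1 - m ^ 2) * ((1 - m ^ 2)⁻¹ * ((if vx i = vx j then 1 else 0) - θ)) =
          m * ((if vx i = vx j then 1 else 0) - θ) := by
        field_simp
      rw [h1]
      have h2 : e * (e * m * ((if vx i = vx j then 1 else 0) - (if i = j then 1 else 0) - θ)) =
          (e * e) * (m * ((if vx i = vx j then 1 else 0) - (if i = j then 1 else 0) - θ)) := by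
        ring
      rw [h2, he2]
      split_ifs <;> ring

end Vale.Agent.P049.TS
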