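import Vale.Agent.P049.TS.Shell.Spectral
import Vale.Agent.P049.TS.Shell.Start
import Vale.Agent.P049.TS.Alg.RSt

/-!
The structural invariants hold for all reachable states with a free stub; the final criterion.
-/

set_option linter.unusedSectionVars false
set_option linter.unusedSimpArgs false
set_option linter.unusedVariables false

namespace Vale.Agent.P049.TS

open Matrix Finset

variable {ι : Type*} [Fintype ι] [DecidableEq ι] {V : Type*} [Fintype V] [DecidableEq V]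

theorem Z₀_eq_Zinit [Nonempty V] {vx : ι → V} {d : ℕ}
    (hfib : ∀ v, (Finset.univ.filter fun i => vx i = v).card = d) {ν : ℝ}
    (hν : ν ^ 2 * ((d : ℝ) - 1) = 1) : Z₀ vx d ν = Zinit vx ν := by
  have hn : (0 : ℝ) < Fintype.card V := by exact_mod_cast Fintype.card_pos
  have hν0 : ν ≠ 0 := by
    intro h; rw [h] at hν; norm_num at hν
  have hd1 : (d : ℝ) = (1 + ν ^ 2) / ν ^ 2 := by
    field_simp; linarith
  have hcard : (Fintype.card ι : ℝ) = Fintype.card V * d := by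
    exact_mod_cast card_stubs hfib
  ext i j
  rw [Zinit_apply, Z₀, Matrix.of_apply, hcard, hd1]
  field_simp
  ring

/-- facts about `m = 1/√(d-1)` -/
theorem mu_facts {d : ℕ} (hd : 3 ≤ d) : 0 < (√((d : ℝ) - 1))⁻¹ ∧ (√((d : ℝ) - 1))⁻¹ < 1 ∧
    ((√((d : ℝ) - 1))⁻¹) ^ 2 * ((d : ℝ) - 1) = 1 := by
  have hd' : (3 : ℝ) ≤ d := by exact_mod_cast hd
  have hs0 : 0 < √((d : ℝ) - 1) := Real.sqrt_pos.2 (by linarith)
  have hs1 : 1 < √((d : ℝ) - 1) := by
    rw [Real.lt_sqrt (by norm_num)]; linarith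
  have hsq : √((d : ℝ) - 1) ^ 2 = d - 1 := Real.sq_sqrt (by linarith)
  refine ⟨by positivity, inv_lt_one_of_one_lt₀ hs1, ?_⟩
  rw [inv_pow, hsq]
  exact inv_mul_cancel₀ (by linarith)

/-- All invariants of a reachable state with a free stub. -/
theorem Reach.inv [Nonempty V] {vx : ι → V} {d : ℕ} (hd : 3 ≤ d)
    (hfib : ∀ v, (Finset.univ.filter fun i => vx i = v).card = d) {k : ℕ} {s : RSt ι}
    (h : Reach vx (start vx d) k s) (hN : 0 < s.F.card) :
    free s.E = s.F ∧ Joins s.E ∧ (s.E.map fun p => s(vx p.1, vx p.2)).Nodup ∧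
      StubInv vx (√((d : ℝ) - 1))⁻¹ 1 (((√((d : ℝ) - 1))⁻¹ * d - 2) / Fintype.card V) s.E s.Zp ∧
      StubInv vx (√((d : ℝ) - 1))⁻¹ (-1) ((-(√((d : ℝ) - 1))⁻¹ * d - 2) / Fintype.card V)
        s.E s.Zm := by
  obtain ⟨hm, hm1, hmd⟩ := mu_facts hd
  have hn : (0 : ℝ) < Fintype.card V := by exact_mod_cast Fintype.card_pos
  induction h with
  | zero =>
    refine ⟨free_nil, ?_, ?_, ?_, ?_⟩
    · intro p J' hp
      simp [start] at hp
    · simp [start]
    · have := StubInv.nil (e := 1) (c := ((√((d : ℝ) - 1))⁻¹ * d - 2) / Fintype.card V)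
        hfib hm hm1 (Or.inl rfl) hmd (by field_simp)
      rw [one_mul] at this
      change StubInv vx _ 1 _ [] (Z₀ vx d (√((d : ℝ) - 1))⁻¹)
      rw [Z₀_eq_Zinit hfib hmd]
      exact this
    · have := StubInv.nil (e := -1) (c := (-(√((d : ℝ) - 1))⁻¹ * d - 2) / Fintype.card V)
        hfib hm hm1 (Or.inr rfl) hmd (by field_simp)
      rw [neg_one_mul] at this
      change StubInv vx _ (-1) _ [] (Z₀ vx d (-(√((d : ℝ) - 1))⁻¹))
      rw [Z₀_eq_Zinit hfib (by rw [neg_sq]; exact hmd)]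
      exact this
  | @succ k s a b c h hc hadm ih =>
    have hab := hadm.ne
    have hcard : (s.join a b).F.card + 2 = s.F.card := by
      simp only [RSt.join]
      rw [Finset.card_erase_of_mem (Finset.mem_erase.2 ⟨hab.symm, hadm.memB⟩),
        Finset.card_erase_of_mem hadm.memA]
      have : 2 ≤ s.F.card := by
        have h5 := Finset.card_le_card (show ({a, b} : Finset ι) ⊆ s.F by
          intro x hx
          rw [Finset.mem_insert, Finset.mem_singleton] at hx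
          rcases hx with rfl | rfl
          · exact hadm.memA
          · exact hadm.memB)
        rwa [Finset.card_pair hab] at h5
      omega
    obtain ⟨h1, h2, h3, h4, h5⟩ := ih (by omega)
    have hfree : free ((a, b) :: s.E) = (s.F.erase a).erase b := by
      ext i
      rw [free_cons, h1, Finset.mem_erase, Finset.mem_erase]
      tauto
    refine ⟨hfree, ?_, ?_, ?_, ?_⟩
    · intro p J' hp
      change (p :: J') <:+ ((a, b) :: s.E) at hp
      rw [List.suffix_cons_iff] at hp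
      rcases hp with hp | hp
      · rw [List.cons.injEq] at hp
        obtain ⟨rfl, rfl⟩ := hp
        rw [h1]
        exact ⟨hab, hadm.memA, hadm.memB⟩
      · exact h2 p J' hp
    · change (((a, b) :: s.E).map fun p => s(vx p.1, vx p.2)).Nodup
      rw [List.map_cons, List.nodup_cons]
      refine ⟨?_, h3⟩
      intro hmem
      rw [List.mem_map] at hmem
      obtain ⟨e, he, hee⟩ := hmem
      exact hadm.nadj e he hee
    · exact h4.cons hm hm1 (Or.inl rfl) (by rw [h1]; exact hadm.memA)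
        (by rw [h1]; exact hadm.memB) hadm.vne (lt_of_lt_of_le hc hadm.alp)
        (by rw [h1]; omega)
    · exact h5.cons hm hm1 (Or.inr rfl) (by rw [h1]; exact hadm.memA)
        (by rw [h1]; exact hadm.memB) hadm.vne (lt_of_lt_of_le hc hadm.alm)
        (by rw [h1]; omega)

/-- **Termination for reachable states.** -/
theorem Reach.isRamanujan [Nonempty V] {vx : ι → V} {d : ℕ} (hd : 3 ≤ d)
    (hfib : ∀ v, (Finset.univ.filter fun i => vx i = v).card = d) {k : ℕ} {s : RSt ι}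
    (h : Reach vx (start vx d) k s) (hN : 0 < s.F.card)
    (hp : ∀ v : ι → ℝ, ∑ i ∈ s.F, v i = 0 → v ⬝ᵥ (s.Zp *ᵥ v) ≤ ∑ i ∈ s.F, v i ^ 2)
    (hm : ∀ v : ι → ℝ, ∑ i ∈ s.F, v i = 0 → -(v ⬝ᵥ (s.Zm *ᵥ v)) ≤ ∑ i ∈ s.F, v i ^ 2)
    (Gr : SimpleGraph V) [DecidableRel Gr.Adj] (hreg : Gr.IsRegularOfDegree d)
    (hsub : ∀ p ∈ s.E, Gr.Adj (vx p.1) (vx p.2)) : IsRamanujanUpTo d 0 Gr := by
  have hn : (0 : ℝ) < Fintype.card V := by exact_mod_cast Fintype.card_pos
  obtain ⟨h1, h2, h3, h4, h5⟩ := h.inv hd hfib hN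
  exact isRamanujan_of_inv hd (by field_simp) (by field_simp) h4 h5
    (by rw [h1]; exact hp) (by rw [h1]; exact hm) (by rw [h1]; exact hN) hfib h2 Gr hreg hsub h3

/-- a symmetric matrix supported on `F` with `Z 1_F = 1_F` and `tr Z² ≤ 2` is bounded by one
on the vectors of sum zero -/
theorem abs_quad_le_of_trace {F : Finset ι} {Z : Matrix ι ι ℝ} (hZ : Z.IsSymm)
    (h0 : ∀ i j, i ∉ F → Z i j = 0) (hrow : ∀ i ∈ F, ∑ j, Z i j = 1)
    (ht : (Z ^ 2).trace ≤ 2) (v : ι → ℝ) (hv : ∑ i ∈ F, v i = 0) :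
    |v ⬝ᵥ (Z *ᵥ v)| ≤ ∑ i ∈ F, v i ^ 2 := by
  rcases F.eq_empty_or_nonempty with hF | hF
  · have hz : Z = 0 := by
      ext i j
      exact h0 i j (by rw [hF]; simp)
    rw [hz, Matrix.zero_mulVec, dotProduct_zero, abs_zero, hF]
    simp
  have hN : (0 : ℝ) < F.card := by exact_mod_cast hF.card_pos
  set N : ℝ := (F.card : ℝ) with hNd
  have h0' : ∀ i j, j ∉ F → Z i j = 0 := fun i j hj => by rw [← hZ.apply i j]; exact h0 j i hj
  have hrow' : ∀ i ∈ F, ∑ j ∈ F, Z i j = 1 := by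
    intro i hi
    rw [← hrow i hi]
    exact Finset.sum_subset (Finset.subset_univ F) fun j _ hj => h0' i j hj
  -- restrict all sums to `F`
  have e1 : v ⬝ᵥ (Z *ᵥ v) = ∑ i ∈ F, ∑ j ∈ F, (v i * v j) * (Z i j - 1 / N) := by
    rw [quad_eq_sum]
    have a1 : ∑ i, ∑ j, v i * Z i j * v j = ∑ i ∈ F, ∑ j ∈ F, v i * v j * Z i j := by
      rw [← Finset.sum_subset (Finset.subset_univ F)]
      · apply Finset.sum_congr rfl
        intro i _
        rw [← Finset.sum_subset (Finset.subset_univ F)]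
        · exact Finset.sum_congr rfl fun j _ => by ring
        · intro j _ hj; rw [h0' i j hj]; ring
      · intro i _ hi
        exact Finset.sum_eq_zero fun j _ => by rw [h0 i j hi]; ring
    have a2 : ∑ i ∈ F, ∑ j ∈ F, v i * v j * (1 / N) = 0 := by
      have : ∀ i ∈ F, ∑ j ∈ F, v i * v j * (1 / N) = 0 := by
        intro i _
        rw [← Finset.sum_mul, ← Finset.mul_sum, hv]; ring
      exact Finset.sum_eq_zero this
    rw [a1]
    simp only [mul_sub, Finset.sum_sub_distrib]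
    rw [a2, sub_zero]
  have e2 : ∑ i ∈ F, ∑ j ∈ F, (Z i j - 1 / N) ^ 2 = (Z ^ 2).trace - 1 := by
    have a1 : (Z ^ 2).trace = ∑ i ∈ F, ∑ j ∈ F, Z i j ^ 2 := by
      simp only [Matrix.trace, Matrix.diag, sq, Matrix.mul_apply]
      rw [← Finset.sum_subset (Finset.subset_univ F)]
      · apply Finset.sum_congr rfl
        intro i _
        rw [← Finset.sum_subset (Finset.subset_univ F)]
        · exact Finset.sum_congr rfl fun j _ => by rw [hZ.apply i j]
        · intro j _ hj; rw [h0' i j hj]; ring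
      · intro i _ hi
        exact Finset.sum_eq_zero fun j _ => by rw [h0 i j hi]; ring
    have a2 : ∀ i ∈ F, ∑ j ∈ F, (Z i j - 1 / N) ^ 2 = ∑ j ∈ F, Z i j ^ 2 - 1 / N := by
      intro i hi
      have : ∀ j, (Z i j - 1 / N) ^ 2 = Z i j ^ 2 - 2 / N * Z i j + 1 / N ^ 2 := by
        intro j; ring
      simp only [this, Finset.sum_add_distrib, Finset.sum_sub_distrib, ← Finset.mul_sum,
        hrow' i hi, Finset.sum_const, nsmul_eq_mul, ← hNd]
      field_simp
      ring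
    rw [Finset.sum_congr rfl a2, Finset.sum_sub_distrib, Finset.sum_const, nsmul_eq_mul, ← hNd,
      ← a1]
    field_simp
  have e3 : ∑ i ∈ F, ∑ j ∈ F, (v i * v j) ^ 2 = (∑ i ∈ F, v i ^ 2) ^ 2 := by
    rw [sq (∑ i ∈ F, v i ^ 2), Finset.sum_mul_sum]
    exact Finset.sum_congr rfl fun i _ => Finset.sum_congr rfl fun j _ => by ring
  have hcs : (∑ p ∈ F ×ˢ F, (v p.1 * v p.2) * (Z p.1 p.2 - 1 / N)) ^ 2 ≤
      (∑ p ∈ F ×ˢ F, (v p.1 * v p.2) ^ 2) * ∑ p ∈ F ×ˢ F, (Z p.1 p.2 - 1 / N) ^ 2 :=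
    Finset.sum_mul_sq_le_sq_mul_sq _ _ _
  simp only [Finset.sum_product] at hcs
  rw [← e1, e3, e2] at hcs
  have hS : 0 ≤ ∑ i ∈ F, v i ^ 2 := Finset.sum_nonneg fun i _ => sq_nonneg _
  rw [abs_le]
  have hle : (v ⬝ᵥ (Z *ᵥ v)) ^ 2 ≤ (∑ i ∈ F, v i ^ 2) ^ 2 := by
    refine hcs.trans ?_
    have : (∑ i ∈ F, v i ^ 2) ^ 2 * ((Z ^ 2).trace - 1) ≤ (∑ i ∈ F, v i ^ 2) ^ 2 * 1 :=
      mul_le_mul_of_nonneg_left (by linarith) (sq_nonneg _)
    linarith
  exact ⟨by nlinarith [abs_le_of_sq_le_sq' hle hS], (abs_le_of_sq_le_sq' hle hS).2⟩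

/-- **Final criterion**: `tr Z_±² ≤ 2` at a reachable state with a free stub. -/
theorem Reach.isRamanujan_of_trace [Nonempty V] {vx : ι → V} {d : ℕ} (hd : 3 ≤ d)
    (hfib : ∀ v, (Finset.univ.filter fun i => vx i = v).card = d) {k : ℕ} {s : RSt ι}
    (h : Reach vx (start vx d) k s) (hN : 0 < s.F.card)
    (hp : (s.Zp ^ 2).trace ≤ 2) (hm : (s.Zm ^ 2).trace ≤ 2)
    (Gr : SimpleGraph V) [DecidableRel Gr.Adj] (hreg : Gr.IsRegularOfDegree d)
    (hsub : ∀ p ∈ s.E, Gr.Adj (vx p.1) (vx p.2)) : IsRamanujanUpTo d 0 Gr := by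
  obtain ⟨h1, h2, h3, h4, h5⟩ := h.inv hd hfib hN
  refine h.isRamanujan hd hfib hN (fun v hv => ?_) (fun v hv => ?_) Gr hreg hsub
  · exact (abs_le.1 (abs_quad_le_of_trace h4.symm (by rw [← h1]; exact h4.zero)
      (by rw [← h1]; exact h4.row) hp v hv)).2
  · have := (abs_le.1 (abs_quad_le_of_trace h5.symm (by rw [← h1]; exact h5.zero)
      (by rw [← h1]; exact h5.row) hm v hv)).1
    linarith

end Vale.Agent.P049.TS
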