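import Vale.Agent.P049.TS.Shell.Join4

/-!
The stub process: the matrices `K_ε(H)` of a partial graph `H`, the stub matrices `Z_ε`, and the
preservation of all structural invariants by a join with `al > 0`.

`ι` = stubs, `V` = vertices, `vx : ι → V` = the vertex of a stub, `0 < m < 1` (`m = 1/√(d-1)`),
`e = ±1` the sign, `c` = the coefficient of the all-ones matrix. With `c = (e m d - 2) / n` one has
`K_e 1 = (e m - m²) f`, where `f` counts the free stubs of a vertex, and all row sums of `Z_e` on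
the free stubs are `1`.
-/

set_option linter.unusedSectionVars false
set_option linter.unusedSimpArgs false
set_option linter.unusedVariables false

namespace Vale.Agent.P049.TS

open Matrix Finset

variable {ι : Type*} [Fintype ι] [DecidableEq ι] {V : Type*} [Fintype V] [DecidableEq V]

/-- the contribution of an edge `u w` to `K` -/
def eK (m e : ℝ) (u w : V) : Matrix V V ℝ :=
  Matrix.of fun x y => m ^ 2 * ((if x = u ∧ y = u then 1 else 0) + (if x = w ∧ y = w then 1 else 0))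
    - e * m * ((if x = u ∧ y = w then 1 else 0) + (if x = w ∧ y = u then 1 else 0))

/-- `K_e(H) = (1 - m²) I + c J + m² D_H - e m A_H`, where `H` is given by the list of joins -/
def Kmat (vx : ι → V) (m e c : ℝ) : List (ι × ι) → Matrix V V ℝ
  | [] => (1 - m ^ 2) • (1 : Matrix V V ℝ) + Matrix.of fun _ _ => c
  | p :: J => Kmat vx m e c J + eK m e (vx p.1) (vx p.2)

/-- the free stubs -/
def free (J : List (ι × ι)) : Finset ι :=
  Finset.univ.filter fun i => ∀ p ∈ J, i ≠ p.1 ∧ i ≠ p.2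

/-- the structural invariants of the process -/
structure StubInv (vx : ι → V) (m e c : ℝ) (J : List (ι × ι)) (Z : Matrix ι ι ℝ) : Prop where
  symm : Z.IsSymm
  zero : ∀ i j, i ∉ free J → Z i j = 0
  row : ∀ i ∈ free J, ∑ j, Z i j = 1
  pos : ∀ v : V → ℝ, ∑ i ∈ free J, v (vx i) = 0 → v ≠ 0 → 0 < v ⬝ᵥ (Kmat vx m e c J *ᵥ v)
  one : ∀ v : V → ℝ, v ⬝ᵥ (Kmat vx m e c J *ᵥ fun _ => 1) =
    (e * m - m ^ 2) * ∑ i ∈ free J, v (vx i)
  inv : ∃ G : Matrix V V ℝ, G.IsSymm ∧ Kmat vx m e c J * G = 1 ∧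
    ∀ i ∈ free J, ∀ j ∈ free J,
      e * Z i j = m * (1 - m ^ 2) * G (vx i) (vx j) - if i = j then m else 0

theorem eK_isSymm (m e : ℝ) (u w : V) : (eK m e u w).IsSymm := by
  ext x y
  simp only [eK, Matrix.transpose_apply, Matrix.of_apply]
  have h1 : (y = u ∧ x = u) = (x = u ∧ y = u) := by simp [and_comm]
  have h2 : (y = w ∧ x = w) = (x = w ∧ y = w) := by simp [and_comm]
  have h3 : (y = u ∧ x = w) = (x = w ∧ y = u) := by simp [and_comm]
  have h4 : (y = w ∧ x = u) = (x = u ∧ y = w) := by simp [and_comm]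
  simp only [h1, h2, h3, h4]
  ring

theorem Kmat_isSymm (vx : ι → V) (m e c : ℝ) (J : List (ι × ι)) :
    (Kmat vx m e c J).IsSymm := by
  induction J with
  | nil =>
    ext x y
    simp only [Kmat, Matrix.transpose_apply, Matrix.add_apply, Matrix.smul_apply, Matrix.of_apply,
      Matrix.one_apply, eq_comm]
  | cons p J ih => exact ih.add (eK_isSymm m e _ _)

theorem quad_symm {K : Matrix V V ℝ} (hK : K.IsSymm) (v w : V → ℝ) :
    v ⬝ᵥ (K *ᵥ w) = w ⬝ᵥ (K *ᵥ v) := by
  rw [Matrix.dotProduct_mulVec, ← Matrix.mulVec_transpose, hK.eq, dotProduct_comm]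

/-- a rank two perturbation keeping positive definiteness on a hyperplane -/
theorem pos_add_sub {K : Matrix V V ℝ} (hK : K.IsSymm) (φ : V → ℝ)
    (hpos : ∀ v : V → ℝ, φ ⬝ᵥ v = 0 → v ≠ 0 → 0 < v ⬝ᵥ (K *ᵥ v))
    (x y g h : V → ℝ) (hg : φ ⬝ᵥ g = 0) (hh : φ ⬝ᵥ h = 0)
    (hKg : ∀ v : V → ℝ, φ ⬝ᵥ v = 0 → v ⬝ᵥ (K *ᵥ g) = y ⬝ᵥ v)
    (hKh : ∀ v : V → ℝ, φ ⬝ᵥ v = 0 → v ⬝ᵥ (K *ᵥ h) = x ⬝ᵥ v)
    (a b : ℝ) (ha : 0 ≤ a) (hb : 0 ≤ b)
    (hc : 0 < (1 + a * (x ⬝ᵥ h)) * (1 - b * (y ⬝ᵥ g)) + a * b * (x ⬝ᵥ g) ^ 2) :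
    ∀ v : V → ℝ, φ ⬝ᵥ v = 0 → v ≠ 0 →
      0 < v ⬝ᵥ (K *ᵥ v) + a * (x ⬝ᵥ v) ^ 2 - b * (y ⬝ᵥ v) ^ 2 := by
  intro v hv hv0
  have hnn : ∀ v : V → ℝ, φ ⬝ᵥ v = 0 → 0 ≤ v ⬝ᵥ (K *ᵥ v) := by
    intro v hv
    by_cases h0 : v = 0
    · subst h0; simp
    · exact (hpos v hv h0).le
  have hxh : 0 ≤ x ⬝ᵥ h := by
    have := hnn h hh
    rw [hKh h hh] at this
    exact this
  have hyh : y ⬝ᵥ h = x ⬝ᵥ g := by
    rw [← hKg h hh, ← hKh g hg, quad_symm hK]
  set α := 1 + a * (x ⬝ᵥ h) with hα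
  have hα0 : 0 < α := by rw [hα]; have := mul_nonneg ha hxh; linarith
  set β := x ⬝ᵥ g with hβ
  set wv := g - (a * β / α) • h with hwv
  have hφw : φ ⬝ᵥ wv = 0 := by
    rw [hwv, dotProduct_sub, dotProduct_smul, hg, hh]; simp
  have hKw : ∀ v : V → ℝ, φ ⬝ᵥ v = 0 → v ⬝ᵥ (K *ᵥ wv) = y ⬝ᵥ v - (a * β / α) * (x ⬝ᵥ v) := by
    intro v hv
    rw [hwv, Matrix.mulVec_sub, Matrix.mulVec_smul, dotProduct_sub, dotProduct_smul, hKg v hv,
      hKh v hv, smul_eq_mul]
  have hxw : x ⬝ᵥ wv = β / α := by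
    rw [hwv, dotProduct_sub, dotProduct_smul, ← hβ, smul_eq_mul]
    have h1 : a * (x ⬝ᵥ h) = α - 1 := by rw [hα]; ring
    have h2 : a * β / α * (x ⬝ᵥ h) = β / α * (a * (x ⬝ᵥ h)) := by ring
    rw [h2, h1]
    field_simp
    ring
  have hyw : y ⬝ᵥ wv = y ⬝ᵥ g - a * β ^ 2 / α := by
    rw [hwv, dotProduct_sub, dotProduct_smul, hyh, smul_eq_mul]
    field_simp
  set s := b * (y ⬝ᵥ v) with hs
  have hφv1 : φ ⬝ᵥ (v - s • wv) = 0 := by
    rw [dotProduct_sub, dotProduct_smul, hv, hφw]; simp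
  have hq : (v - s • wv) ⬝ᵥ (K *ᵥ (v - s • wv)) =
      v ⬝ᵥ (K *ᵥ v) - 2 * s * (y ⬝ᵥ v - (a * β / α) * (x ⬝ᵥ v)) +
        s ^ 2 * (y ⬝ᵥ wv - (a * β / α) * (x ⬝ᵥ wv)) := by
    rw [Matrix.mulVec_sub, Matrix.mulVec_smul, dotProduct_sub, sub_dotProduct, sub_dotProduct,
      smul_dotProduct, smul_dotProduct, dotProduct_smul, dotProduct_smul, quad_symm hK wv v,
      hKw v hv, hKw wv hφw]
    simp only [smul_eq_mul]
    ring
  have hx1 : x ⬝ᵥ (v - s • wv) = x ⬝ᵥ v - s * (β / α) := by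
    rw [dotProduct_sub, dotProduct_smul, hxw, smul_eq_mul]
  have hid : v ⬝ᵥ (K *ᵥ v) + a * (x ⬝ᵥ v) ^ 2 - b * (y ⬝ᵥ v) ^ 2 =
      ((v - s • wv) ⬝ᵥ (K *ᵥ (v - s • wv)) + a * (x ⬝ᵥ (v - s • wv)) ^ 2) +
        b * (y ⬝ᵥ v) ^ 2 * (1 - b * (y ⬝ᵥ wv)) := by
    rw [hq, hx1, hxw, hs]
    ring
  have h1 : 0 < 1 - b * (y ⬝ᵥ wv) := by
    have : α * (1 - b * (y ⬝ᵥ wv)) = α * (1 - b * (y ⬝ᵥ g)) + a * b * β ^ 2 := by
      rw [hyw]; field_simp; ring
    have h2 : 0 < α * (1 - b * (y ⬝ᵥ wv)) := by rw [this]; exact hc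
    exact (pos_iff_pos_of_mul_pos h2).1 hα0
  rcases eq_or_ne (b * (y ⬝ᵥ v) ^ 2) 0 with h0 | h0
  · have := hpos v hv hv0
    have h3 := mul_nonneg ha (sq_nonneg (x ⬝ᵥ v))
    linarith
  · have h4 : 0 < b * (y ⬝ᵥ v) ^ 2 := lt_of_le_of_ne (by positivity) (Ne.symm h0)
    rw [hid]
    have h5 := hnn (v - s • wv) hφv1
    have h6 := mul_pos h4 h1
    have h7 := mul_nonneg ha (sq_nonneg (x ⬝ᵥ (v - s • wv)))
    linarith

/-- the quadratic form of an edge -/
theorem eK_quad (m e : ℝ) (u w : V) (v : V → ℝ) :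
    v ⬝ᵥ (eK m e u w *ᵥ v) = m ^ 2 * (v u ^ 2 + v w ^ 2) - 2 * (e * m) * (v u * v w) := by
  have h : ∀ (p q : V), ∑ x, v x * ∑ y, (if x = p ∧ y = q then (1 : ℝ) else 0) * v y = v p * v q := by
    intro p q
    have : ∀ x, v x * ∑ y, (if x = p ∧ y = q then (1 : ℝ) else 0) * v y =
        if x = p then v p * v q else 0 := by
      intro x
      by_cases hx : x = p
      · subst hx; simp
      · simp [hx]
    simp only [this, Finset.sum_ite_eq', Finset.mem_univ, if_true]
  have h' : ∀ x y, eK m e u w x y * v y =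
      m ^ 2 * ((if x = u ∧ y = u then (1 : ℝ) else 0) * v y) +
      m ^ 2 * ((if x = w ∧ y = w then (1 : ℝ) else 0) * v y) -
      e * m * ((if x = u ∧ y = w then (1 : ℝ) else 0) * v y) -
      e * m * ((if x = w ∧ y = u then (1 : ℝ) else 0) * v y) := by
    intro x y
    simp only [eK, Matrix.of_apply]
    ring
  simp only [dotProduct, Matrix.mulVec, h', Finset.sum_sub_distrib, Finset.sum_add_distrib,
    ← Finset.mul_sum, mul_sub, mul_add, mul_left_comm (v _), h]
  ring

theorem eK_mul_apply (m e : ℝ) (u w : V) (M : Matrix V V ℝ) (x y : V) :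
    (eK m e u w * M) x y =
      m ^ 2 * ((if x = u then M u y else 0) + (if x = w then M w y else 0)) -
      e * m * ((if x = u then M w y else 0) + (if x = w then M u y else 0)) := by
  have h : ∀ (p q : V), ∑ z, (if x = p ∧ z = q then (1 : ℝ) else 0) * M z y =
      if x = p then M q y else 0 := by
    intro p q
    by_cases hx : x = p
    · subst hx; simp
    · simp [hx]
  have h' : ∀ z, eK m e u w x z * M z y =
      m ^ 2 * ((if x = u ∧ z = u then (1 : ℝ) else 0) * M z y) +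
      m ^ 2 * ((if x = w ∧ z = w then (1 : ℝ) else 0) * M z y) -
      e * m * ((if x = u ∧ z = w then (1 : ℝ) else 0) * M z y) -
      e * m * ((if x = w ∧ z = u then (1 : ℝ) else 0) * M z y) := by
    intro z
    simp only [eK, Matrix.of_apply]
    ring
  rw [Matrix.mul_apply]
  simp only [h', Finset.sum_sub_distrib, Finset.sum_add_distrib, ← Finset.mul_sum, h]
  ring

theorem free_cons (a b : ι) (J : List (ι × ι)) (i : ι) :
    i ∈ free ((a, b) :: J) ↔ i ∈ free J ∧ i ≠ a ∧ i ≠ b := by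
  simp only [free, Finset.mem_filter, Finset.mem_univ, true_and, List.mem_cons, forall_eq_or_imp]
  tauto

/-- `al` in terms of the inverse matrix -/
def alG (m e p q r : ℝ) : ℝ :=
  1 - 2 * e * m * (1 - m ^ 2) * q + (m * (1 - m ^ 2)) ^ 2 * q ^ 2 -
      (m * (1 - m ^ 2) * p - m) * (m * (1 - m ^ 2) * r - m)

theorem det_plus {m p q r N : ℝ} (hm : 0 < m) (hm1 : m < 1) (hN : 2 < N) :
    (1 + (m ^ 2 + m) / 2 * (p - 2 * q + r)) *
      (1 - (m - m ^ 2) * N / (2 * (N - 2)) * (p + 2 * q + r - 4 * (m - m ^ 2)⁻¹ * N⁻¹)) +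
      (m ^ 2 + m) / 2 * ((m - m ^ 2) * N / (2 * (N - 2))) * (p - r) ^ 2 =
    N / (N - 2) * (alG m 1 p q r / (1 - m ^ 2)) := by
  have h1 : (1 - m ^ 2) ≠ 0 := by nlinarith
  have h2 : N - 2 ≠ 0 := by linarith
  have h3 : N ≠ 0 := by linarith
  have h4 : m - m ^ 2 ≠ 0 := by
    have : m - m ^ 2 = m * (1 - m) := by ring
    rw [this]; exact mul_ne_zero hm.ne' (by linarith)
  have h5 : 1 - m ≠ 0 := by linarith
  unfold alG
  field_simp
  ring

theorem det_minus {m p q r N : ℝ} (hm : 0 < m) (hm1 : m < 1) (hN : 2 < N) :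
    (1 + (m + m ^ 2) * N / (2 * (N - 2)) * (p + 2 * q + r - 4 * (-(m + m ^ 2))⁻¹ * N⁻¹)) *
      (1 - (m - m ^ 2) / 2 * (p - 2 * q + r)) +
      (m + m ^ 2) * N / (2 * (N - 2)) * ((m - m ^ 2) / 2) * (p - r) ^ 2 =
    N / (N - 2) * (alG m (-1) p q r / (1 - m ^ 2)) := by
  have h1 : (1 - m ^ 2) ≠ 0 := by nlinarith
  have h2 : N - 2 ≠ 0 := by linarith
  have h3 : N ≠ 0 := by linarith
  have h4 : m + m ^ 2 ≠ 0 := by positivity
  unfold alG
  field_simp
  ring

/-- positivity on the hyperplane is preserved by an edge with `alG > 0` -/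
theorem posH_step {K G : Matrix V V ℝ} (hK : K.IsSymm) (hGs : G.IsSymm) (hKG : K * G = 1)
    {m e : ℝ} (hm : 0 < m) (hm1 : m < 1) (he : e = 1 ∨ e = -1) (φ : V → ℝ) {N : ℝ} (hN2 : 2 < N)
    (hφ1 : φ ⬝ᵥ (fun _ : V => (1 : ℝ)) = N) (hKone : K *ᵥ (fun _ => 1) = (e * m - m ^ 2) • φ)
    (hpos : ∀ v : V → ℝ, φ ⬝ᵥ v = 0 → v ≠ 0 → 0 < v ⬝ᵥ (K *ᵥ v)) (u w : V)
    (hal : 0 < alG m e (G u u) (G u w) (G w w)) (v' : V → ℝ) (hv' : φ ⬝ᵥ v' = v' u + v' w)
    (hv0' : v' ≠ 0) : 0 < v' ⬝ᵥ ((K + eK m e u w) *ᵥ v') := by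
  have hGw : G w u = G u w := hGs.apply u w
  have hNp : 0 < N - 2 := by linarith
  have hN0 : 0 < N := by linarith
  set γ := e * m - m ^ 2 with hγ
  have hγ0 : γ ≠ 0 := by
    rcases he with h | h
    · rw [hγ, h]; nlinarith
    · rw [hγ, h]; nlinarith
  have hφG : ∀ z : V → ℝ, φ ⬝ᵥ (G *ᵥ z) = γ⁻¹ * ∑ v, z v := by
    intro z
    have e1 : γ * (φ ⬝ᵥ (G *ᵥ z)) = ∑ v, z v := by
      rw [← smul_eq_mul, ← smul_dotProduct, ← hKone, dotProduct_comm,
        quad_symm hK, Matrix.mulVec_mulVec, hKG, Matrix.one_mulVec]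
      simp [dotProduct]
    rw [← e1]; field_simp
  set y1 : V → ℝ := Pi.single u (1 : ℝ) - Pi.single w (1 : ℝ) with hy1
  set y2 : V → ℝ := Pi.single u (1 : ℝ) + Pi.single w (1 : ℝ) with hy2
  set g₁ := G *ᵥ y1 with hg1
  set g₂ := G *ᵥ y2 - (2 * γ⁻¹ * N⁻¹) • (fun _ : V => (1 : ℝ)) with hg2
  have s1 : φ ⬝ᵥ g₁ = 0 := by
    rw [hg1, hφG]
    simp [hy1, Finset.sum_sub_distrib]
  have s2 : φ ⬝ᵥ g₂ = 0 := by
    rw [hg2, dotProduct_sub, dotProduct_smul, hφ1, hφG]
    simp only [hy2, Pi.add_apply, Finset.sum_add_distrib, Finset.sum_pi_single', Finset.mem_univ,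
      if_true, smul_eq_mul]
    field_simp
    ring
  have k1 : ∀ v : V → ℝ, φ ⬝ᵥ v = 0 → v ⬝ᵥ (K *ᵥ g₁) = y1 ⬝ᵥ v := by
    intro v _
    rw [hg1, Matrix.mulVec_mulVec, hKG, Matrix.one_mulVec, dotProduct_comm]
  have k2 : ∀ v : V → ℝ, φ ⬝ᵥ v = 0 → v ⬝ᵥ (K *ᵥ g₂) = y2 ⬝ᵥ v := by
    intro v hv
    rw [hg2, Matrix.mulVec_sub, Matrix.mulVec_smul, dotProduct_sub, dotProduct_smul, hKone,
      dotProduct_smul, dotProduct_comm v φ, hv, Matrix.mulVec_mulVec, hKG, Matrix.one_mulVec,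
      dotProduct_comm]
    simp
  have y1v : ∀ v : V → ℝ, y1 ⬝ᵥ v = v u - v w := by
    intro v
    rw [hy1, sub_dotProduct, single_dotProduct, single_dotProduct]; simp
  have y2v : ∀ v : V → ℝ, y2 ⬝ᵥ v = v u + v w := by
    intro v
    rw [hy2, add_dotProduct, single_dotProduct, single_dotProduct]; simp
  have g1v : ∀ z, g₁ z = G z u - G z w := by
    intro z
    rw [hg1, hy1, Matrix.mulVec_sub, Matrix.mulVec_single_one, Matrix.mulVec_single_one]
    simp
  have g2v : ∀ z, g₂ z = G z u + G z w - 2 * γ⁻¹ * N⁻¹ := by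
    intro z
    rw [hg2, hy2, Matrix.mulVec_add, Matrix.mulVec_single_one, Matrix.mulVec_single_one]
    simp
  have y11 : y1 ⬝ᵥ g₁ = G u u - 2 * G u w + G w w := by
    rw [y1v, g1v, g1v, hGw]; ring
  have y22 : y2 ⬝ᵥ g₂ = G u u + 2 * G u w + G w w - 4 * γ⁻¹ * N⁻¹ := by
    rw [y2v, g2v, g2v, hGw]; ring
  have y21 : y2 ⬝ᵥ g₁ = G u u - G w w := by
    rw [y2v, g1v, g1v, hGw]; ring
  have y12 : y1 ⬝ᵥ g₂ = G u u - G w w := by
    rw [y1v, g2v, g2v, hGw]; ring
  set a0 := (v' u + v' w) / N with ha0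
  have ha0N : a0 * N = v' u + v' w := by rw [ha0]; field_simp
  set v₀ : V → ℝ := v' - a0 • (fun _ : V => (1 : ℝ)) with hv₀
  have hφv0 : φ ⬝ᵥ v₀ = 0 := by
    rw [hv₀, dotProduct_sub, dotProduct_smul, hφ1, hv', smul_eq_mul, ha0N, sub_self]
  have hv00 : v₀ ≠ 0 := by
    intro h
    have h1 : ∀ z, v' z = a0 := by
      intro z
      have := congrFun h z
      simp only [hv₀, Pi.sub_apply, Pi.smul_apply, smul_eq_mul, mul_one, Pi.zero_apply] at this
      linarith
    rw [h1, h1] at ha0N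
    have h3 : a0 * (N - 2) = 0 := by linarith
    have h4 : a0 = 0 := (mul_eq_zero.1 h3).resolve_right hNp.ne'
    apply hv0'
    ext z
    rw [h1, h4]; rfl
  have hexp : v' ⬝ᵥ ((K + eK m e u w) *ᵥ v') =
      v₀ ⬝ᵥ (K *ᵥ v₀) + (m ^ 2 + e * m) / 2 * (v₀ u - v₀ w) ^ 2 -
        γ * N / (2 * (N - 2)) * (v₀ u + v₀ w) ^ 2 := by
    have hv'e : v' = v₀ + a0 • (fun _ : V => (1 : ℝ)) := by rw [hv₀]; simp
    have c1 : v' ⬝ᵥ (K *ᵥ v') = v₀ ⬝ᵥ (K *ᵥ v₀) + a0 ^ 2 * (γ * N) := by
      rw [hv'e, Matrix.mulVec_add, Matrix.mulVec_smul, hKone, add_dotProduct, dotProduct_add,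
        dotProduct_add, smul_dotProduct, smul_dotProduct, dotProduct_smul, dotProduct_smul,
        dotProduct_smul, dotProduct_smul, quad_symm hK (fun _ => 1) v₀,
        hKone, dotProduct_smul, dotProduct_comm v₀ φ, hφv0, dotProduct_comm (fun _ => 1) φ, hφ1]
      simp only [smul_eq_mul]
      ring
    have c2 : v' u = v₀ u + a0 := by rw [hv₀]; simp
    have c3 : v' w = v₀ w + a0 := by rw [hv₀]; simp
    have c5 : v₀ u + v₀ w = a0 * (N - 2) := by
      rw [c2, c3] at ha0N; linarith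
    have c6 : v₀ w = a0 * (N - 2) - v₀ u := by linarith
    rw [Matrix.add_mulVec, dotProduct_add, c1, eK_quad, c2, c3, c6, hγ]
    field_simp
    ring
  rw [hexp]
  have hk : 0 < 1 - m ^ 2 := by nlinarith
  have hR : 0 < N / (N - 2) * (alG m e (G u u) (G u w) (G w w) / (1 - m ^ 2)) := by positivity
  clear_value v₀ a0 g₁ g₂
  rcases he with h1 | h1
  · have hγp : 0 < γ := by rw [hγ, h1]; nlinarith
    have key := pos_add_sub hK φ hpos y1 y2 g₂ g₁ s2 s1 k2 k1 ((m ^ 2 + e * m) / 2)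
      (γ * N / (2 * (N - 2))) (by rw [h1]; positivity) (by positivity) (by
        rw [y11, y22, y12]
        have := det_plus (p := G u u) (q := G u w) (r := G w w) hm hm1 hN2
        rw [hγ]
        rw [h1] at hR ⊢
        rw [one_mul, this]
        exact hR) v₀ hφv0 hv00
    rw [y1v, y2v] at key
    exact key
  · have hγp : γ < 0 := by rw [hγ, h1]; nlinarith
    have hγe : γ = -(m + m ^ 2) := by rw [hγ, h1]; ring
    have key := pos_add_sub hK φ hpos y2 y1 g₁ g₂ s1 s2 k1 k2 ((m + m ^ 2) * N / (2 * (N - 2)))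
      ((m - m ^ 2) / 2) (by positivity) (by nlinarith) (by
        rw [y11, y22, y21]
        have := det_minus (p := G u u) (q := G u w) (r := G w w) hm hm1 hN2
        rw [hγe]
        rw [h1] at hR
        rw [this]
        exact hR) v₀ hφv0 hv00
    rw [y1v, y2v] at key
    have e1 : (m ^ 2 + e * m) / 2 = -((m - m ^ 2) / 2) := by rw [h1]; ring
    have e2 : γ * N / (2 * (N - 2)) = -((m + m ^ 2) * N / (2 * (N - 2))) := by rw [hγe]; ring
    rw [e1, e2]
    linarith

/-- the updated inverse -/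
theorem inv_step {K G : Matrix V V ℝ} (hGs : G.IsSymm) (hKG : K * G = 1)
    {m e : ℝ} (he : e = 1 ∨ e = -1) {u w : V} (huw : u ≠ w) {za zab zb al : ℝ}
    (h1 : za = e * (m * (1 - m ^ 2) * G u u - m)) (h2 : zb = e * (m * (1 - m ^ 2) * G w w - m))
    (h3 : zab = e * (m * (1 - m ^ 2) * G u w)) (hal : al = alG m e (G u u) (G u w) (G w w))
    (hal0 : al ≠ 0) :
    (K + eK m e u w) * (Matrix.of fun x y => G x y + e * (m * (1 - m ^ 2)) * al⁻¹ *
      (zb * (G x u * G u y) + (1 - zab) * (G x u * G w y + G x w * G u y) +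
        za * (G x w * G w y))) = 1 := by
  have hGw : G w u = G u w := hGs.apply u w
  have hKGxy : ∀ x y, ∑ z, K x z * G z y = if x = y then 1 else 0 := by
    intro x y
    rw [← Matrix.mul_apply, hKG, Matrix.one_apply]
  set k0 := e * (m * (1 - m ^ 2)) * al⁻¹ with hk0
  have hcal : k0 * al = e * (m * (1 - m ^ 2)) := by
    rw [hk0]; field_simp
  clear_value k0
  have e1 : ∀ x y, (K * Matrix.of fun x y => G x y + k0 *
      (zb * (G x u * G u y) + (1 - zab) * (G x u * G w y + G x w * G u y) +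
      za * (G x w * G w y))) x y = (if x = y then 1 else 0) + k0 *
      (zb * ((if x = u then 1 else 0) * G u y) +
        (1 - zab) * ((if x = u then 1 else 0) * G w y + (if x = w then 1 else 0) * G u y) +
      za * ((if x = w then 1 else 0) * G w y)) := by
    intro x y
    rw [Matrix.mul_apply]
    simp only [Matrix.of_apply]
    have : ∀ z, K x z * (G z y + k0 *
      (zb * (G z u * G u y) + (1 - zab) * (G z u * G w y + G z w * G u y) +
      za * (G z w * G w y))) = K x z * G z y +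
        k0 * (zb * G u y + (1 - zab) * G w y) * (K x z * G z u) +
        k0 * ((1 - zab) * G u y + za * G w y) * (K x z * G z w) := by
      intro z; ring
    simp only [this, Finset.sum_add_distrib, ← Finset.mul_sum, hKGxy]
    ring
  ext x y
  rw [Matrix.add_mul, Matrix.add_apply, e1, eK_mul_apply, Matrix.one_apply]
  simp only [Matrix.of_apply]
  set p := G u u
  set q := G u w
  set r := G w w
  rw [hGw]
  have main1 : k0 * (zb * G u y + (1 - zab) * G w y) +
      m ^ 2 * (G u y + k0 * (zb * (p * G u y) +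
        (1 - zab) * (p * G w y + q * G u y) + za * (q * G w y))) -
      e * m * (G w y + k0 * (zb * (q * G u y) +
        (1 - zab) * (q * G w y + r * G u y) + za * (r * G w y))) = 0 := by
    have e2 : al * (k0 * (zb * G u y + (1 - zab) * G w y) +
      m ^ 2 * (G u y + k0 * (zb * (p * G u y) +
        (1 - zab) * (p * G w y + q * G u y) + za * (q * G w y))) -
      e * m * (G w y + k0 * (zb * (q * G u y) +
        (1 - zab) * (q * G w y + r * G u y) + za * (r * G w y)))) = 0 := by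
      have e3 : al * (k0 * (zb * G u y + (1 - zab) * G w y) +
      m ^ 2 * (G u y + k0 * (zb * (p * G u y) +
        (1 - zab) * (p * G w y + q * G u y) + za * (q * G w y))) -
      e * m * (G w y + k0 * (zb * (q * G u y) +
        (1 - zab) * (q * G w y + r * G u y) + za * (r * G w y)))) =
        (k0 * al) * (zb * G u y + (1 - zab) * G w y) +
      m ^ 2 * (al * G u y + (k0 * al) * (zb * (p * G u y) +
        (1 - zab) * (p * G w y + q * G u y) + za * (q * G w y))) -
      e * m * (al * G w y + (k0 * al) * (zb * (q * G u y) +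
        (1 - zab) * (q * G w y + r * G u y) + za * (r * G w y))) := by ring
      rw [e3, hcal, hal, h1, h2, h3, alG]
      rcases he with he | he
      · rw [he]; ring
      · rw [he]; ring
    exact (mul_eq_zero.1 e2).resolve_left hal0
  have main2 : k0 * ((1 - zab) * G u y + za * G w y) +
      m ^ 2 * (G w y + k0 * (zb * (q * G u y) +
        (1 - zab) * (q * G w y + r * G u y) + za * (r * G w y))) -
      e * m * (G u y + k0 * (zb * (p * G u y) +
        (1 - zab) * (p * G w y + q * G u y) + za * (q * G w y))) = 0 := by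
    have e2 : al * (k0 * ((1 - zab) * G u y + za * G w y) +
      m ^ 2 * (G w y + k0 * (zb * (q * G u y) +
        (1 - zab) * (q * G w y + r * G u y) + za * (r * G w y))) -
      e * m * (G u y + k0 * (zb * (p * G u y) +
        (1 - zab) * (p * G w y + q * G u y) + za * (q * G w y)))) = 0 := by
      have e3 : al * (k0 * ((1 - zab) * G u y + za * G w y) +
      m ^ 2 * (G w y + k0 * (zb * (q * G u y) +
        (1 - zab) * (q * G w y + r * G u y) + za * (r * G w y))) -
      e * m * (G u y + k0 * (zb * (p * G u y) +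
        (1 - zab) * (p * G w y + q * G u y) + za * (q * G w y)))) =
        (k0 * al) * ((1 - zab) * G u y + za * G w y) +
      m ^ 2 * (al * G w y + (k0 * al) * (zb * (q * G u y) +
        (1 - zab) * (q * G w y + r * G u y) + za * (r * G w y))) -
      e * m * (al * G u y + (k0 * al) * (zb * (p * G u y) +
        (1 - zab) * (p * G w y + q * G u y) + za * (q * G w y))) := by ring
      rw [e3, hcal, hal, h1, h2, h3, alG]
      rcases he with he | he
      · rw [he]; ring
      · rw [he]; ring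
    exact (mul_eq_zero.1 e2).resolve_left hal0
  by_cases hxu : x = u
  · subst hxu
    simp only [if_true, huw, if_false, one_mul, zero_mul, mul_zero, add_zero]
    linear_combination main1
  · by_cases hxw : x = w
    · subst hxw
      simp only [if_true, huw.symm, if_false, one_mul, zero_mul, mul_zero, add_zero, zero_add]
      linear_combination main2
    · simp only [hxu, hxw, if_false, zero_mul, mul_zero, add_zero, sub_zero]

variable {vx : ι → V} {m e c : ℝ} {J : List (ι × ι)} {Z : Matrix ι ι ℝ}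

theorem StubInv.zero' (hg : StubInv vx m e c J Z) (i j : ι) (hj : j ∉ free J) : Z i j = 0 := by
  rw [← hg.symm.apply i j]; exact hg.zero j i hj

/-- the number of free stubs at a vertex -/
def frv (vx : ι → V) (J : List (ι × ι)) : V → ℝ := fun x => ∑ i ∈ free J, if vx i = x then 1 else 0

theorem frv_dot (vx : ι → V) (J : List (ι × ι)) (v : V → ℝ) :
    frv vx J ⬝ᵥ v = ∑ i ∈ free J, v (vx i) := by
  simp only [frv, dotProduct, Finset.sum_mul]
  rw [Finset.sum_comm]
  apply Finset.sum_congr rfl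
  intro i _
  simp only [ite_mul, one_mul, zero_mul, Finset.sum_ite_eq, Finset.mem_univ, if_true]

theorem sum_free_cons {a b : ι} (hab' : a ≠ b) (ha : a ∈ free J) (hb : b ∈ free J) (f : ι → ℝ) :
    ∑ i ∈ free ((a, b) :: J), f i = ∑ i ∈ free J, f i - f a - f b := by
  have hf : free ((a, b) :: J) = ((free J).erase a).erase b := by
    ext i
    rw [free_cons, Finset.mem_erase, Finset.mem_erase]
    tauto
  have e1 := Finset.add_sum_erase (free J) f ha
  have e2 := Finset.add_sum_erase ((free J).erase a) f (Finset.mem_erase.2 ⟨hab'.symm, hb⟩)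
  rw [hf]; linarith

theorem StubInv.Kone (hg : StubInv vx m e c J Z) :
    Kmat vx m e c J *ᵥ (fun _ => 1) = (e * m - m ^ 2) • frv vx J := by
  ext x
  have h1 := hg.one (Pi.single x 1)
  rw [single_dotProduct, one_mul, ← frv_dot, dotProduct_single, mul_one] at h1
  rw [h1]; rfl

theorem eK_mulVec_one (m e : ℝ) (u w : V) (v : V → ℝ) :
    v ⬝ᵥ (eK m e u w *ᵥ fun _ => 1) = (m ^ 2 - e * m) * (v u + v w) := by
  have : (eK m e u w *ᵥ fun _ => (1 : ℝ)) =
      (m ^ 2 - e * m) • (Pi.single u (1 : ℝ) + Pi.single w (1 : ℝ)) := by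
    ext x
    have h1 : ∀ p q : V, ∑ y, (if x = p ∧ y = q then (1 : ℝ) else 0) = if x = p then 1 else 0 := by
      intro p q
      by_cases hx : x = p
      · simp [hx]
      · simp [hx]
    simp only [Matrix.mulVec, dotProduct, eK, Matrix.of_apply, mul_one,
      Finset.sum_sub_distrib, Finset.sum_add_distrib, ← Finset.mul_sum, h1, Pi.smul_apply,
      Pi.add_apply, Pi.single_apply, smul_eq_mul]
    ring
  rw [this, dotProduct_smul, dotProduct_add, dotProduct_single, dotProduct_single, smul_eq_mul]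
  ring

/-- **One join**: all structural invariants survive if `al > 0`. -/
theorem StubInv.cons (hm : 0 < m) (hm1 : m < 1) (he : e = 1 ∨ e = -1) (hg : StubInv vx m e c J Z)
    {a b : ι} (ha : a ∈ free J) (hb : b ∈ free J) (hab : vx a ≠ vx b) (hal : 0 < al Z a b)
    (hN : 2 < (free J).card) : StubInv vx m e c ((a, b) :: J) (upd Z a b) := by
  obtain ⟨G, hGs, hKG, hGZ⟩ := hg.inv
  have hab' : a ≠ b := fun h => hab (by rw [h])
  have hs : Z b a = Z a b := hg.symm.apply a b
  have he2 : e * e = 1 := mul_self_eq_one_iff.2 he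
  have conv : ∀ z x : ℝ, e * z = x → z = e * x := by
    intro z x h
    rw [← h, ← mul_assoc, he2, one_mul]
  have g1 : Z a a = e * (m * (1 - m ^ 2) * G (vx a) (vx a) - m) := by
    have := hGZ a ha a ha; rw [if_pos rfl] at this; exact conv _ _ this
  have g2 : Z b b = e * (m * (1 - m ^ 2) * G (vx b) (vx b) - m) := by
    have := hGZ b hb b hb; rw [if_pos rfl] at this; exact conv _ _ this
  have g3 : Z a b = e * (m * (1 - m ^ 2) * G (vx a) (vx b)) := by
    have := hGZ a ha b hb; rw [if_neg hab', sub_zero] at this; exact conv _ _ this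
  have halne : al Z a b ≠ 0 := hal.ne'
  have halG : al Z a b = alG m e (G (vx a) (vx a)) (G (vx a) (vx b)) (G (vx b) (vx b)) := by
    rw [al, g1, g2, g3, alG]
    rcases he with he | he
    · rw [he]; ring
    · rw [he]; ring
  have hφ1 : frv vx J ⬝ᵥ (fun _ : V => (1 : ℝ)) = (free J).card := by
    rw [frv_dot]; simp
  refine ⟨upd_isSymm hg.symm, ?_, ?_, ?_, ?_, ?_⟩
  · intro i j hi
    rw [free_cons] at hi
    simp only [upd, Matrix.of_apply]
    by_cases h : i = a ∨ i = b ∨ j = a ∨ j = b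
    · rw [if_pos h]
    · rw [if_neg h]
      push Not at h
      have hi' : i ∉ free J := fun h' => hi ⟨h', h.1, h.2.1⟩
      rw [hg.zero i j hi', hg.zero i a hi', hg.zero i b hi']
      ring
  · -- row sums
    intro i hi
    rw [free_cons] at hi
    rw [upd_rowsum hab' hg.symm halne i hi.2.1 hi.2.2, hg.row i hi.1, hg.row a ha, hg.row b hb]
    ring
  · -- positive definiteness on the hyperplane
    intro v' hv' hv0'
    have hsum := sum_free_cons hab' ha hb (fun i => v' (vx i))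
    rw [hv'] at hsum
    exact posH_step (Kmat_isSymm vx m e c J) hGs hKG hm hm1 he (frv vx J)
      (by exact_mod_cast hN) hφ1 hg.Kone
      (fun v hv hv0 => hg.pos v (by rw [← frv_dot]; exact hv) hv0) (vx a) (vx b)
      (by rw [← halG]; exact hal) v' (by rw [frv_dot]; linarith) hv0'
  · intro v
    rw [Kmat, Matrix.add_mulVec, dotProduct_add, hg.one, eK_mulVec_one, sum_free_cons hab' ha hb]
    ring
  · -- the inverse
    refine ⟨Matrix.of fun x y => G x y + e * (m * (1 - m ^ 2)) * (al Z a b)⁻¹ *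
      (Z b b * (G x (vx a) * G (vx a) y) +
        (1 - Z a b) * (G x (vx a) * G (vx b) y + G x (vx b) * G (vx a) y) +
        Z a a * (G x (vx b) * G (vx b) y)), ?_, ?_, ?_⟩
    · ext x y
      simp only [Matrix.transpose_apply, Matrix.of_apply]
      rw [hGs.apply x y, hGs.apply (vx a) y, hGs.apply (vx b) y, hGs.apply x (vx a),
        hGs.apply x (vx b)]
      ring
    · exact inv_step hGs hKG he hab g1 g2 g3 halG halne
    · intro i hi j hj
      rw [free_cons] at hi hj
      obtain ⟨hi, hia, hib⟩ := hi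
      obtain ⟨hj, hja, hjb⟩ := hj
      rw [upd_apply' hg.symm i j hia hib hja hjb]
      simp only [Matrix.of_apply]
      have q1 : Z a i = e * (m * (1 - m ^ 2) * G (vx i) (vx a)) := by
        have := hGZ a ha i hi
        rw [if_neg (Ne.symm hia), sub_zero] at this
        rw [hGs.apply (vx a) (vx i)]; exact conv _ _ this
      have q2 : Z b i = e * (m * (1 - m ^ 2) * G (vx i) (vx b)) := by
        have := hGZ b hb i hi
        rw [if_neg (Ne.symm hib), sub_zero] at this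
        rw [hGs.apply (vx b) (vx i)]; exact conv _ _ this
      have q3 : Z a j = e * (m * (1 - m ^ 2) * G (vx a) (vx j)) := by
        have := hGZ a ha j hj
        rw [if_neg (Ne.symm hja), sub_zero] at this
        exact conv _ _ this
      have q4 : Z b j = e * (m * (1 - m ^ 2) * G (vx b) (vx j)) := by
        have := hGZ b hb j hj
        rw [if_neg (Ne.symm hjb), sub_zero] at this
        exact conv _ _ this
      have q5 := hGZ i hi j hj
      rw [mul_add, mul_add, q5, ca, cb, q1, q2, q3, q4]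
      generalize Z b b = zb
      generalize Z a a = za
      generalize Z a b = zab
      rcases he with he | he
      · rw [he]; ring
      · rw [he]; ring

end Vale.Agent.P049.TS
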