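import Vale.Agent.P049.TS.Shell.Defs
import Vale.Agent.P049.GraphDefsT

/-!
Termination: if `Y_e ≤ 1` for both signs then every simple `d`-regular graph containing the partial
graph is Ramanujan.
-/

set_option linter.unusedSectionVars false
set_option linter.unusedSimpArgs false
set_option linter.unusedVariables false

namespace Vale.Agent.P049.TS

open Matrix Finset

variable {ι : Type*} [Fintype ι] [DecidableEq ι] {V : Type*} [Fintype V] [DecidableEq V]

variable {vx : ι → V} {m e c : ℝ} {J : List (ι × ι)} {Z : Matrix ι ι ℝ}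

theorem quad_eq_sum {κ : Type*} [Fintype κ] (M : Matrix κ κ ℝ) (v : κ → ℝ) :
    v ⬝ᵥ (M *ᵥ v) = ∑ i, ∑ j, v i * M i j * v j := by
  simp only [dotProduct, Matrix.mulVec, Finset.mul_sum, mul_assoc]

/-- the quadratic form of `Z` on the free stubs in terms of `G` -/
theorem quad_Z (hg : StubInv vx m e c J Z) {G : Matrix V V ℝ}
    (hGZ : ∀ i ∈ free J, ∀ j ∈ free J,
      e * Z i j = m * (1 - m ^ 2) * G (vx i) (vx j) - if i = j then m else 0) (v : ι → ℝ) :
    e * (v ⬝ᵥ (Z *ᵥ v)) = m * (1 - m ^ 2) *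
      ((fun x => ∑ i ∈ free J, if vx i = x then v i else 0) ⬝ᵥ
        (G *ᵥ fun x => ∑ i ∈ free J, if vx i = x then v i else 0)) -
      m * ∑ i ∈ free J, v i ^ 2 := by
  have h1 : v ⬝ᵥ (Z *ᵥ v) = ∑ i ∈ free J, ∑ j ∈ free J, v i * Z i j * v j := by
    rw [quad_eq_sum]
    rw [← Finset.sum_subset (Finset.subset_univ (free J))]
    · apply Finset.sum_congr rfl
      intro i _
      rw [← Finset.sum_subset (Finset.subset_univ (free J))]
      intro j _ hj
      rw [hg.zero' i j hj]; ring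
    · intro i _ hi
      rw [Finset.sum_eq_zero]
      intro j _
      rw [hg.zero i j hi]; ring
  have h2 : (fun x => ∑ i ∈ free J, if vx i = x then v i else 0) ⬝ᵥ
        (G *ᵥ fun x => ∑ i ∈ free J, if vx i = x then v i else 0) =
      ∑ i ∈ free J, ∑ j ∈ free J, v i * G (vx i) (vx j) * v j := by
    unfold dotProduct Matrix.mulVec dotProduct
    simp only [Finset.sum_mul]
    rw [Finset.sum_comm]
    apply Finset.sum_congr rfl
    intro i _
    simp only [ite_mul, zero_mul, Finset.sum_ite_eq, Finset.mem_univ, if_true]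
    rw [Finset.mul_sum]
    simp only [Finset.mul_sum]
    rw [Finset.sum_comm]
    apply Finset.sum_congr rfl
    intro j _
    simp only [mul_ite, mul_zero, Finset.sum_ite_eq, Finset.mem_univ, if_true]
    ring
  have h3 : ∑ i ∈ free J, v i ^ 2 = ∑ i ∈ free J, ∑ j ∈ free J, v i * (if i = j then 1 else 0) * v j := by
    apply Finset.sum_congr rfl
    intro i hi
    simp only [mul_ite, mul_one, mul_zero, ite_mul, zero_mul, Finset.sum_ite_eq, hi, if_true]
    ring
  rw [h1, h2, h3, Finset.mul_sum, Finset.mul_sum, Finset.mul_sum, ← Finset.sum_sub_distrib]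
  apply Finset.sum_congr rfl
  intro i hi
  rw [Finset.mul_sum, Finset.mul_sum, Finset.mul_sum, ← Finset.sum_sub_distrib]
  apply Finset.sum_congr rfl
  intro j hj
  have := hGZ i hi j hj
  have e1 : e * (v i * Z i j * v j) = v i * (e * Z i j) * v j := by ring
  rw [e1, this]
  split_ifs <;> ring

theorem gamma_ne (hm : 0 < m) (hm1 : m < 1) (he : e = 1 ∨ e = -1) : e * m - m ^ 2 ≠ 0 := by
  rcases he with h | h
  · rw [h]; nlinarith
  · rw [h]; nlinarith

theorem StubInv.frv_G (hm : 0 < m) (hm1 : m < 1) (he : e = 1 ∨ e = -1) (hg : StubInv vx m e c J Z)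
    {G : Matrix V V ℝ} (hKG : Kmat vx m e c J * G = 1) (z : V → ℝ) :
    ∑ i ∈ free J, (G *ᵥ z) (vx i) = (e * m - m ^ 2)⁻¹ * ∑ v, z v := by
  have hγ := gamma_ne hm hm1 he
  have e1 : (e * m - m ^ 2) * (frv vx J ⬝ᵥ (G *ᵥ z)) = ∑ v, z v := by
    rw [← smul_eq_mul, ← smul_dotProduct, ← hg.Kone, dotProduct_comm,
      quad_symm (Kmat_isSymm vx m e c J), Matrix.mulVec_mulVec, hKG, Matrix.one_mulVec]
    simp [dotProduct]
  rw [← frv_dot, ← e1, inv_mul_cancel_left₀ hγ]

/-- `Y_e ≥ -m` on the vectors of sum `0` on the free stubs -/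
theorem StubInv.psd0 (hm : 0 < m) (hm1 : m < 1) (he : e = 1 ∨ e = -1) (hg : StubInv vx m e c J Z)
    (v : ι → ℝ) (hv : ∑ i ∈ free J, v i = 0) :
    0 ≤ e * (v ⬝ᵥ (Z *ᵥ v)) + m * ∑ i ∈ free J, v i ^ 2 := by
  obtain ⟨G, hGs, hKG, hGZ⟩ := hg.inv
  have hk : 0 < 1 - m ^ 2 := by nlinarith
  rw [quad_Z hg hGZ]
  set u : V → ℝ := fun x => ∑ i ∈ free J, if vx i = x then v i else 0 with hu
  have hsu : ∑ x, u x = 0 := by
    simp only [hu]
    rw [Finset.sum_comm]
    simp only [Finset.sum_ite_eq, Finset.mem_univ, if_true]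
    exact hv
  have h1 : 0 ≤ u ⬝ᵥ (G *ᵥ u) := by
    have h2 : u ⬝ᵥ (G *ᵥ u) = (G *ᵥ u) ⬝ᵥ (Kmat vx m e c J *ᵥ (G *ᵥ u)) := by
      rw [Matrix.mulVec_mulVec, hKG, Matrix.one_mulVec, dotProduct_comm]
    rw [h2]
    by_cases h0 : G *ᵥ u = 0
    · rw [h0]; simp
    · refine (hg.pos _ ?_ h0).le
      rw [hg.frv_G hm hm1 he hKG, hsu, mul_zero]
  have := mul_nonneg (mul_nonneg hm.le hk.le) h1
  linarith

theorem StubInv.mulVec_one (hg : StubInv vx m e c J Z) (i : ι) :
    (Z *ᵥ fun j => if j ∈ free J then 1 else 0) i = if i ∈ free J then 1 else 0 := by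
  have h1 : (Z *ᵥ fun j => if j ∈ free J then (1 : ℝ) else 0) i = ∑ j, Z i j := by
    simp only [Matrix.mulVec, dotProduct]
    apply Finset.sum_congr rfl
    intro j _
    by_cases hj : j ∈ free J
    · rw [if_pos hj, mul_one]
    · rw [if_neg hj, hg.zero' i j hj, zero_mul]
  rw [h1]
  by_cases hi : i ∈ free J
  · rw [if_pos hi, hg.row i hi]
  · rw [if_neg hi]
    exact Finset.sum_eq_zero fun j _ => hg.zero i j hi

/-- `Y_e ≥ -m` in general -/
theorem StubInv.psd (hm : 0 < m) (hm1 : m < 1) (he : e = 1 ∨ e = -1) (hg : StubInv vx m e c J Z)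
    (hN : 0 < (free J).card) (v : ι → ℝ) :
    (e + m) * (∑ i ∈ free J, v i) ^ 2 / (free J).card ≤
      e * (v ⬝ᵥ (Z *ᵥ v)) + m * ∑ i ∈ free J, v i ^ 2 := by
  have hN' : (0 : ℝ) < (free J).card := by exact_mod_cast hN
  set N : ℝ := ((free J).card : ℝ) with hNdef
  set s := ∑ i ∈ free J, v i with hs
  set o : ι → ℝ := fun j => if j ∈ free J then 1 else 0 with ho
  have hZo : Z *ᵥ o = o := by
    ext i; exact hg.mulVec_one i
  have hoo : o ⬝ᵥ o = N := by
    simp [ho, dotProduct, hNdef]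
  have hvo : v ⬝ᵥ o = s := by
    simp only [ho, dotProduct, mul_ite, mul_one, mul_zero, ← Finset.sum_filter, hs]
    congr 1
    ext i; simp
  have hv0 : ∑ i ∈ free J, (v - (s / N) • o) i = 0 := by
    have : ∀ i ∈ free J, (v - (s / N) • o) i = v i - s / N := by
      intro i hi
      simp [ho, hi]
    rw [Finset.sum_congr rfl this, Finset.sum_sub_distrib, Finset.sum_const, nsmul_eq_mul,
      ← hNdef, ← hs]
    field_simp
    ring
  have h1 := hg.psd0 hm hm1 he _ hv0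
  have h2 : (v - (s / N) • o) ⬝ᵥ (Z *ᵥ (v - (s / N) • o)) = v ⬝ᵥ (Z *ᵥ v) - s ^ 2 / N := by
    rw [Matrix.mulVec_sub, Matrix.mulVec_smul, hZo, dotProduct_sub, sub_dotProduct,
      sub_dotProduct, smul_dotProduct, smul_dotProduct, dotProduct_smul, dotProduct_smul,
      quad_symm hg.symm o v, hZo, hoo, hvo]
    simp only [smul_eq_mul]
    field_simp
    ring
  have h3 : ∑ i ∈ free J, (v - (s / N) • o) i ^ 2 = ∑ i ∈ free J, v i ^ 2 - s ^ 2 / N := by
    have : ∀ i ∈ free J, (v - (s / N) • o) i ^ 2 = v i ^ 2 - 2 * (s / N) * v i + (s / N) ^ 2 := by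
      intro i hi
      simp only [ho, Pi.sub_apply, Pi.smul_apply, hi, if_true, smul_eq_mul]
      ring
    rw [Finset.sum_congr rfl this, Finset.sum_add_distrib, Finset.sum_sub_distrib,
      Finset.sum_const, nsmul_eq_mul, ← Finset.mul_sum, ← hNdef, ← hs]
    field_simp
    ring
  rw [h2, h3] at h1
  have h4 : (e + m) * s ^ 2 / N = e * (s ^ 2 / N) + m * (s ^ 2 / N) := by ring
  rw [h4]
  linarith

/-- `Y_e ≤ 1` gives `K_e ≥ m (1 - m) Sᵀ S` on `f^⊥`. -/
theorem StubInv.K_ge (hm : 0 < m) (hm1 : m < 1) (he : e = 1 ∨ e = -1) (hg : StubInv vx m e c J Z)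
    (hle : ∀ v : ι → ℝ, ∑ i ∈ free J, v i = 0 → e * (v ⬝ᵥ (Z *ᵥ v)) ≤ ∑ i ∈ free J, v i ^ 2)
    (x : V → ℝ) (hx : ∑ i ∈ free J, x (vx i) = 0) :
    m * (1 - m) * ∑ i ∈ free J, x (vx i) ^ 2 ≤ x ⬝ᵥ (Kmat vx m e c J *ᵥ x) := by
  obtain ⟨G, hGs, hKG, hGZ⟩ := hg.inv
  have hk : 0 < 1 - m := by linarith
  have hKs := Kmat_isSymm vx m e c J
  -- apply `hle` to `v = x ∘ vx`
  have h1 := hle (fun i => x (vx i)) hx
  rw [quad_Z hg hGZ] at h1
  set u : V → ℝ := fun y => ∑ i ∈ free J, if vx i = y then x (vx i) else 0 with hu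
  have hsu : ∑ y, u y = 0 := by
    simp only [hu]
    rw [Finset.sum_comm]
    simp only [Finset.sum_ite_eq, Finset.mem_univ, if_true]
    exact hx
  set S := ∑ i ∈ free J, x (vx i) ^ 2 with hS
  have h2 : m * (1 - m) * (u ⬝ᵥ (G *ᵥ u)) ≤ S := by
    have h3 : m * (1 - m) * (1 + m) * (u ⬝ᵥ (G *ᵥ u)) ≤ (1 + m) * S := by
      have : m * (1 - m) * (1 + m) = m * (1 - m ^ 2) := by ring
      rw [this]; linarith
    have h4 : (1 + m) * (m * (1 - m) * (u ⬝ᵥ (G *ᵥ u))) ≤ (1 + m) * S := by linarith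
    exact le_of_mul_le_mul_left h4 (by linarith)
  have hxu : x ⬝ᵥ u = S := by
    unfold dotProduct
    simp only [hu, Finset.mul_sum]
    rw [Finset.sum_comm]
    apply Finset.sum_congr rfl
    intro i _
    simp only [mul_ite, mul_zero, Finset.sum_ite_eq, Finset.mem_univ, if_true]
    ring
  -- nonnegativity of the form at `x - t G u`
  set t := m * (1 - m) with ht
  have ht0 : 0 < t := mul_pos hm hk
  have hKc : Kmat vx m e c J *ᵥ (G *ᵥ u) = u := by
    rw [Matrix.mulVec_mulVec, hKG, Matrix.one_mulVec]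
  have hnn : 0 ≤ (x - t • (G *ᵥ u)) ⬝ᵥ (Kmat vx m e c J *ᵥ (x - t • (G *ᵥ u))) := by
    by_cases h0 : x - t • (G *ᵥ u) = 0
    · rw [h0]; simp
    · refine (hg.pos _ ?_ h0).le
      simp only [Pi.sub_apply, Pi.smul_apply, Finset.sum_sub_distrib, smul_eq_mul,
        ← Finset.mul_sum]
      rw [hx, hg.frv_G hm hm1 he hKG, hsu]
      ring
  have hexp : (x - t • (G *ᵥ u)) ⬝ᵥ (Kmat vx m e c J *ᵥ (x - t • (G *ᵥ u))) =
      x ⬝ᵥ (Kmat vx m e c J *ᵥ x) - 2 * t * S + t ^ 2 * (u ⬝ᵥ (G *ᵥ u)) := by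
    rw [Matrix.mulVec_sub, Matrix.mulVec_smul, hKc, dotProduct_sub, sub_dotProduct,
      sub_dotProduct, smul_dotProduct, smul_dotProduct, dotProduct_smul, dotProduct_smul,
      quad_symm hKs (G *ᵥ u) x, hKc, hxu, dotProduct_comm (G *ᵥ u) u]
    simp only [smul_eq_mul]
    ring
  rw [hexp] at hnn
  have h5 := mul_le_mul_of_nonneg_left h2 ht0.le
  have : t ^ 2 * (u ⬝ᵥ (G *ᵥ u)) = t * (t * (u ⬝ᵥ (G *ᵥ u))) := by ring
  linarith

/-- the quadratic form of `K` -/
theorem Kmat_quad (vx : ι → V) (m e c : ℝ) (J : List (ι × ι)) (x : V → ℝ) :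
    x ⬝ᵥ (Kmat vx m e c J *ᵥ x) = (1 - m ^ 2) * ∑ v, x v ^ 2 + c * (∑ v, x v) ^ 2 +
      (J.map fun p => m ^ 2 * (x (vx p.1) ^ 2 + x (vx p.2) ^ 2) -
        2 * (e * m) * (x (vx p.1) * x (vx p.2))).sum := by
  induction J with
  | nil =>
    have h1 : x ⬝ᵥ ((Matrix.of fun _ _ : V => c) *ᵥ x) = c * (∑ v, x v) ^ 2 := by
      unfold dotProduct Matrix.mulVec dotProduct
      simp only [Matrix.of_apply, ← Finset.mul_sum, ← Finset.sum_mul]
      ring
    rw [Kmat, Matrix.add_mulVec, dotProduct_add, Matrix.smul_mulVec, Matrix.one_mulVec,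
      dotProduct_smul, h1]
    simp only [List.map_nil, List.sum_nil, add_zero, smul_eq_mul, dotProduct]
    congr 2
    exact Finset.sum_congr rfl fun v _ => (sq _).symm
  | cons p J ih =>
    rw [Kmat, Matrix.add_mulVec, dotProduct_add, ih, eK_quad, List.map_cons, List.sum_cons]
    ring

/-! ### Sums over stubs -/

/-- a list of joins in which every join uses two different stubs, free at that time -/
def Joins (J : List (ι × ι)) : Prop :=
  ∀ p J', (p :: J') <:+ J → p.1 ≠ p.2 ∧ p.1 ∈ free J' ∧ p.2 ∈ free J'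

theorem Joins.tail {p : ι × ι} (h : Joins (p :: J)) : Joins J :=
  fun q J' hq => h q J' (hq.trans (List.suffix_cons p J))

theorem Joins.sum_eq (h : Joins J) (f : ι → ℝ) :
    (J.map fun p => f p.1 + f p.2).sum + ∑ i ∈ free J, f i = ∑ i, f i := by
  induction J with
  | nil =>
    have : (free ([] : List (ι × ι))) = Finset.univ := by
      ext i; simp [free]
    rw [this]; simp
  | cons p J ih =>
    obtain ⟨hne, h1, h2⟩ := h p J List.suffix_rfl
    have hf : free (p :: J) = ((free J).erase p.1).erase p.2 := by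
      ext i
      obtain ⟨a, b⟩ := p
      rw [free_cons, Finset.mem_erase, Finset.mem_erase]
      tauto
    have e1 := Finset.add_sum_erase (free J) f h1
    have e2 := Finset.add_sum_erase ((free J).erase p.1) f
      (Finset.mem_erase.2 ⟨hne.symm, h2⟩)
    rw [List.map_cons, List.sum_cons, hf, ← ih h.tail]
    linarith

theorem Joins.card_free (h : Joins J) : (free J).card + 2 * J.length = Fintype.card ι := by
  have h1 := h.sum_eq (fun _ => (1 : ℝ))
  simp only [Finset.sum_const, nsmul_eq_mul, mul_one, List.map_const', List.sum_replicate,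
    Finset.card_univ] at h1
  have h2 : (((free J).card + 2 * J.length : ℕ) : ℝ) = (Fintype.card ι : ℝ) := by
    push_cast; linarith
  exact_mod_cast h2

/-- the sum over the edges of a regular graph -/
theorem sum_edges (e : ℝ) (d : ℕ) (Gr : SimpleGraph V) [DecidableRel Gr.Adj]
    (hreg : Gr.IsRegularOfDegree d) (x : V → ℝ) (Q : Sym2 V → ℝ)
    (hQ : ∀ u w, Q s(u, w) = x u ^ 2 + x w ^ 2 - 2 * e * (x u * x w)) :
    ∑ z ∈ Gr.edgeFinset, Q z = d * ∑ v, x v ^ 2 - e * (x ⬝ᵥ (Gr.adjMatrix ℝ *ᵥ x)) := by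
  have hd1 : ∑ dt : Gr.Dart, Q dt.edge = 2 * ∑ z ∈ Gr.edgeFinset, Q z := by
    rw [Finset.mul_sum]
    rw [← Finset.sum_fiberwise_of_maps_to (s := Finset.univ) (t := Gr.edgeFinset)
      (g := fun dt : Gr.Dart => dt.edge) (by intro dt _; simp)]
    apply Finset.sum_congr rfl
    intro z hz
    rw [Finset.sum_congr rfl (g := fun _ => Q z)
      (fun dt hdt => by rw [(Finset.mem_filter.1 hdt).2]), Finset.sum_const,
      Gr.dart_edge_fiber_card z (by simpa using hz), nsmul_eq_mul]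
    push_cast; ring
  have hd2 : ∑ dt : Gr.Dart, Q dt.edge =
      ∑ u, ∑ w, (if Gr.Adj u w then x u ^ 2 + x w ^ 2 - 2 * e * (x u * x w) else 0) := by
    rw [← Finset.sum_fiberwise (s := (Finset.univ : Finset Gr.Dart)) (g := fun dt => dt.fst)]
    apply Finset.sum_congr rfl
    intro u _
    have : (Finset.univ.filter fun dt : Gr.Dart => dt.fst = u) =
        (Finset.univ : Finset (Gr.neighborSet u)).map
          ⟨Gr.dartOfNeighborSet u, Gr.dartOfNeighborSet_injective u⟩ := by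
      ext dt
      rw [Finset.mem_filter, Finset.mem_map]
      constructor
      · rintro ⟨_, rfl⟩
        exact ⟨⟨dt.snd, dt.adj⟩, Finset.mem_univ _, by ext <;> rfl⟩
      · rintro ⟨z, _, rfl⟩
        exact ⟨Finset.mem_univ _, rfl⟩
    rw [this, Finset.sum_map, ← Finset.sum_filter]
    rw [Finset.sum_subtype (p := fun w => w ∈ Gr.neighborSet u)
      (Finset.univ.filter fun w => Gr.Adj u w)
      (fun w => by simp [SimpleGraph.mem_neighborSet])
      (fun w => x u ^ 2 + x w ^ 2 - 2 * e * (x u * x w))]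
    apply Finset.sum_congr rfl
    intro z _
    exact hQ u z
  have hd3 : ∑ u, ∑ w, (if Gr.Adj u w then x u ^ 2 + x w ^ 2 - 2 * e * (x u * x w) else 0) =
      2 * (d * ∑ v, x v ^ 2) - 2 * e * (x ⬝ᵥ (Gr.adjMatrix ℝ *ᵥ x)) := by
    have a1 : ∀ u, ∑ w, (if Gr.Adj u w then x u ^ 2 else 0) = d * x u ^ 2 := by
      intro u
      rw [← Finset.sum_filter, Finset.sum_const, nsmul_eq_mul]
      congr 2
      have := hreg u
      rw [← this, ← SimpleGraph.card_neighborFinset_eq_degree]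
      congr 1
      ext w; simp
    have a2 : ∑ u, ∑ w, (if Gr.Adj u w then x w ^ 2 else 0) = d * ∑ v, x v ^ 2 := by
      rw [Finset.sum_comm, Finset.mul_sum]
      apply Finset.sum_congr rfl
      intro u _
      rw [← a1 u]
      apply Finset.sum_congr rfl
      intro w _
      simp only [Gr.adj_comm]
    have a3 : ∑ u, ∑ w, (if Gr.Adj u w then x u * x w else 0) =
        x ⬝ᵥ (Gr.adjMatrix ℝ *ᵥ x) := by
      rw [quad_eq_sum]
      apply Finset.sum_congr rfl
      intro u _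
      apply Finset.sum_congr rfl
      intro w _
      rw [SimpleGraph.adjMatrix_apply]
      split_ifs <;> ring
    have a4 : ∀ u w, (if Gr.Adj u w then x u ^ 2 + x w ^ 2 - 2 * e * (x u * x w) else 0) =
        (if Gr.Adj u w then x u ^ 2 else 0) + (if Gr.Adj u w then x w ^ 2 else 0) -
        2 * e * (if Gr.Adj u w then x u * x w else 0) := by
      intro u w; split_ifs <;> ring
    simp only [a4, Finset.sum_sub_distrib, Finset.sum_add_distrib, ← Finset.mul_sum]
    rw [a2, a3, Finset.sum_congr rfl (fun u _ => a1 u), ← Finset.mul_sum]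
    ring
  linarith

/-- the main inequality: a regular simple graph containing the partial graph -/
theorem quad_le_of_graph0 (hm : 0 < m) (hm1 : m < 1) (he : e = 1 ∨ e = -1)
    (hg : StubInv vx m e c J Z)
    (hle : ∀ v : ι → ℝ, ∑ i ∈ free J, v i = 0 → e * (v ⬝ᵥ (Z *ᵥ v)) ≤ ∑ i ∈ free J, v i ^ 2)
    (d : ℕ) (hd : m ^ 2 * ((d : ℝ) - 1) = 1)
    (hfib : ∀ v, (Finset.univ.filter fun i => vx i = v).card = d)
    (hJ : Joins J) (Gr : SimpleGraph V) [DecidableRel Gr.Adj] (hreg : Gr.IsRegularOfDegree d)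
    (hsub : ∀ p ∈ J, Gr.Adj (vx p.1) (vx p.2))
    (hdist : (J.map fun p => s(vx p.1, vx p.2)).Nodup) (x : V → ℝ)
    (hx : ∑ i ∈ free J, x (vx i) = 0) :
    m * (e * (x ⬝ᵥ (Gr.adjMatrix ℝ *ᵥ x))) ≤ 2 * ∑ v, x v ^ 2 + c * (∑ v, x v) ^ 2 := by
  have he2 : e ^ 2 = 1 := by rw [sq]; exact mul_self_eq_one_iff.2 he
  have h1 := hg.K_ge hm hm1 he hle x hx
  rw [Kmat_quad] at h1
  -- the sum over all stubs
  have h2 : ∑ i, x (vx i) ^ 2 = d * ∑ v, x v ^ 2 := by
    rw [← Finset.sum_fiberwise (s := Finset.univ) (g := vx), Finset.mul_sum]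
    apply Finset.sum_congr rfl
    intro v _
    rw [Finset.sum_congr rfl (g := fun _ => x v ^ 2)
      (fun i hi => by rw [(Finset.mem_filter.1 hi).2]), Finset.sum_const, hfib, nsmul_eq_mul]
  have h3 := hJ.sum_eq (fun i => x (vx i) ^ 2)
  -- the graph side
  set Q : Sym2 V → ℝ := Sym2.lift ⟨fun u w => x u ^ 2 + x w ^ 2 - 2 * e * (x u * x w),
    fun u w => by ring⟩ with hQ
  have hQnn : ∀ z, 0 ≤ Q z := by
    intro z
    induction z using Sym2.ind with
    | _ u w =>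
      have : Q s(u, w) = (x u - e * x w) ^ 2 := by
        rw [hQ, Sym2.lift_mk]
        linear_combination (-(x w ^ 2)) * he2
      rw [this]; positivity
  have h4 := sum_edges e d Gr hreg x Q (fun u w => rfl)
  have h5 : (J.map fun p => x (vx p.1) ^ 2 + x (vx p.2) ^ 2 -
      2 * e * (x (vx p.1) * x (vx p.2))).sum ≤ ∑ z ∈ Gr.edgeFinset, Q z := by
    have b1 : (J.map fun p => x (vx p.1) ^ 2 + x (vx p.2) ^ 2 -
      2 * e * (x (vx p.1) * x (vx p.2))) = (J.map fun p => s(vx p.1, vx p.2)).map Q := by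
      rw [List.map_map]
      apply List.map_congr_left
      intro p _
      simp only [Function.comp, hQ, Sym2.lift_mk]
    rw [b1, ← List.sum_toFinset _ hdist]
    apply Finset.sum_le_sum_of_subset_of_nonneg
    · intro z hz
      rw [List.mem_toFinset, List.mem_map] at hz
      obtain ⟨p, hp, rfl⟩ := hz
      rw [SimpleGraph.mem_edgeFinset, SimpleGraph.mem_edgeSet]
      exact hsub p hp
    · intro z _ _; exact hQnn z
  -- combine
  have h6 : (J.map fun p => m ^ 2 * (x (vx p.1) ^ 2 + x (vx p.2) ^ 2) -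
        2 * (e * m) * (x (vx p.1) * x (vx p.2))).sum =
      m * (J.map fun p => x (vx p.1) ^ 2 + x (vx p.2) ^ 2 -
      2 * e * (x (vx p.1) * x (vx p.2))).sum -
      m * (1 - m) * (J.map fun p => x (vx p.1) ^ 2 + x (vx p.2) ^ 2).sum := by
    clear h1 hg hle hJ hsub hdist h3 h5 hx
    induction J with
    | nil => simp
    | cons p J ih =>
      simp only [List.map_cons, List.sum_cons]
      rw [ih]; ring
  rw [h6] at h1
  set E := e * (x ⬝ᵥ (Gr.adjMatrix ℝ *ᵥ x))
  set X := ∑ v, x v ^ 2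
  set C := c * (∑ v, x v) ^ 2
  set A1 := (J.map fun p => x (vx p.1) ^ 2 + x (vx p.2) ^ 2 -
      2 * e * (x (vx p.1) * x (vx p.2))).sum
  set A2 := (J.map fun p => x (vx p.1) ^ 2 + x (vx p.2) ^ 2).sum
  set F := ∑ i ∈ free J, x (vx i) ^ 2
  have h7 : A2 + F = d * X := by rw [← h2]; exact h3
  have h8 : m * (1 - m) * (d * X) ≤ (1 - m ^ 2) * X + C + m * (d * X - E) := by
    have : m * A1 ≤ m * (d * X - E) := mul_le_mul_of_nonneg_left (by linarith) hm.le
    have h9 : m * (1 - m) * (A2 + F) = m * (1 - m) * (d * X) := by rw [h7]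
    have h10 : m * (1 - m) * (A2 + F) = m * (1 - m) * A2 + m * (1 - m) * F := by ring
    linarith
  have e1 : m ^ 2 * (d : ℝ) = 1 + m ^ 2 := by linarith
  have e2 : m * (1 - m) * (d * X) = m * (d * X) - (m ^ 2 * d) * X := by ring
  rw [e2, e1] at h8
  linarith

theorem quad_le_of_graph (hm : 0 < m) (hm1 : m < 1) (he : e = 1 ∨ e = -1)
    (d : ℕ) (hc : c * Fintype.card V = e * m * d - 2) (hN : 0 < (free J).card)
    (hg : StubInv vx m e c J Z)
    (hle : ∀ v : ι → ℝ, ∑ i ∈ free J, v i = 0 → e * (v ⬝ᵥ (Z *ᵥ v)) ≤ ∑ i ∈ free J, v i ^ 2)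
    (hd : m ^ 2 * ((d : ℝ) - 1) = 1)
    (hfib : ∀ v, (Finset.univ.filter fun i => vx i = v).card = d)
    (hJ : Joins J) (Gr : SimpleGraph V) [DecidableRel Gr.Adj] (hreg : Gr.IsRegularOfDegree d)
    (hsub : ∀ p ∈ J, Gr.Adj (vx p.1) (vx p.2))
    (hdist : (J.map fun p => s(vx p.1, vx p.2)).Nodup) (x : V → ℝ) (hx : ∑ v, x v = 0) :
    e * (x ⬝ᵥ (Gr.adjMatrix ℝ *ᵥ x)) ≤ 2 / m * ∑ v, x v ^ 2 := by
  have hN' : (0 : ℝ) < (free J).card := by exact_mod_cast hN
  set t := -(∑ i ∈ free J, x (vx i)) / (free J).card with ht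
  set z : V → ℝ := x + t • (fun _ : V => (1 : ℝ)) with hz
  have hz0 : ∑ i ∈ free J, z (vx i) = 0 := by
    simp only [hz, Pi.add_apply, Pi.smul_apply, smul_eq_mul, mul_one, Finset.sum_add_distrib,
      Finset.sum_const, nsmul_eq_mul]
    rw [ht]; field_simp; ring
  have h1 := quad_le_of_graph0 hm hm1 he hg hle d hd hfib hJ Gr hreg hsub hdist z hz0
  set n : ℝ := (Fintype.card V : ℝ) with hn
  have hA1 : Gr.adjMatrix ℝ *ᵥ (fun _ : V => (1 : ℝ)) = (d : ℝ) • (fun _ : V => (1 : ℝ)) := by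
    ext v
    have := Gr.adjMatrix_mulVec_const_apply_of_regular (α := ℝ) (a := 1) hreg (v := v)
    simp only [Pi.smul_apply, smul_eq_mul]
    rw [← this]
    rfl
  have hx1 : x ⬝ᵥ (fun _ : V => (1 : ℝ)) = 0 := by simp [dotProduct, hx]
  have h11 : (fun _ : V => (1 : ℝ)) ⬝ᵥ (fun _ : V => (1 : ℝ)) = n := by simp [dotProduct, hn]
  have e1 : z ⬝ᵥ (Gr.adjMatrix ℝ *ᵥ z) = x ⬝ᵥ (Gr.adjMatrix ℝ *ᵥ x) + t ^ 2 * (d * n) := by
    rw [hz, Matrix.mulVec_add, Matrix.mulVec_smul, hA1, add_dotProduct, dotProduct_add,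
      dotProduct_add, smul_dotProduct, smul_dotProduct, dotProduct_smul, dotProduct_smul,
      dotProduct_smul, dotProduct_smul, quad_symm Gr.isSymm_adjMatrix (fun _ => 1) x,
      hA1, dotProduct_smul, hx1, h11]
    simp only [smul_eq_mul]
    ring
  have e2 : ∑ v, z v ^ 2 = ∑ v, x v ^ 2 + t ^ 2 * n := by
    have : ∀ v, z v ^ 2 = x v ^ 2 + 2 * t * x v + t ^ 2 := by
      intro v
      simp only [hz, Pi.add_apply, Pi.smul_apply, smul_eq_mul, mul_one]
      ring
    simp only [this, Finset.sum_add_distrib, ← Finset.mul_sum, hx, Finset.sum_const,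
      nsmul_eq_mul, Finset.card_univ, ← hn]
    ring
  have e3 : ∑ v, z v = t * n := by
    simp only [hz, Pi.add_apply, Pi.smul_apply, smul_eq_mul, mul_one, Finset.sum_add_distrib, hx,
      Finset.sum_const, nsmul_eq_mul, Finset.card_univ, ← hn]
    ring
  rw [e1, e2, e3] at h1
  have h2 : c * (t * n) ^ 2 = (c * n) * (t ^ 2 * n) := by ring
  rw [h2, hc] at h1
  rw [div_mul_eq_mul_div, le_div_iff₀ hm]
  linarith

end Vale.Agent.P049.TS
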