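import Mathlib

/-!
The exact algebra of one joining step of the stub process.

`Z` is a symmetric matrix indexed by the stubs (zero outside the free stubs); joining the free stubs
`a, b` replaces `Z` by `upd Z a b`.

Main facts (`P` = swap, `B = (P - Z₂)⁻¹`, `E` = the two unit columns, `V = Eᵀ Z`, `Q = 1 - E Eᵀ`):
* `upd Z = Zt Z * Q`, `Q * Zt Z = Zt Z` with `Zt Z = Z + (Z E - E P) B V`; hence the trace of any
  word in updated matrices is the trace of the same word in the `Zt`s (`trace_upd_mul` etc.);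
* `upd Z ^ 2 = Q + Rᵀ (Z² - 1) R`, `R = (1 + E B V) Q` (`upd_sq`);
* the increments of the traces of powers (`trace_upd`, `trace_upd_sq`, …).
-/

set_option linter.unusedSectionVars false

namespace Vale.Agent.P049.TS

open Matrix Finset

variable {ι : Type*} [Fintype ι] [DecidableEq ι]

/-- the swap of two indices -/
def Pm : Matrix (Fin 2) (Fin 2) ℝ := !![0, 1; 1, 0]

/-- the two unit columns `a, b` -/
def Em (a b : ι) : Matrix ι (Fin 2) ℝ := Matrix.of fun i k => if i = ![a, b] k then 1 else 0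

/-- the coordinate projection killing `a` and `b` -/
def Qm (a b : ι) : Matrix ι ι ℝ := 1 - Em a b * (Em a b)ᵀ

/-- the `2 × 2` block at `a, b` -/
def blk (M : Matrix ι ι ℝ) (a b : ι) : Matrix (Fin 2) (Fin 2) ℝ :=
  !![M a a, M a b; M b a, M b b]

/-- the denominator of a join -/
def al (Z : Matrix ι ι ℝ) (a b : ι) : ℝ := (1 - Z a b) ^ 2 - Z a a * Z b b

/-- `(P - Z₂)⁻¹` -/
noncomputable def Bm (Z : Matrix ι ι ℝ) (a b : ι) : Matrix (Fin 2) (Fin 2) ℝ :=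
  (al Z a b)⁻¹ • !![Z b b, 1 - Z a b; 1 - Z a b, Z a a]

/-- joining the stubs `a` and `b` -/
noncomputable def upd (Z : Matrix ι ι ℝ) (a b : ι) : Matrix ι ι ℝ :=
  Matrix.of fun i j => if i = a ∨ i = b ∨ j = a ∨ j = b then 0 else
    Z i j + (al Z a b)⁻¹ * (Z b b * (Z i a * Z a j) +
      (1 - Z a b) * (Z i a * Z b j + Z i b * Z a j) + Z a a * (Z i b * Z b j))

/-- `Z + (Z E - E P) B Eᵀ Z`, the untruncated form of the joined matrix -/
noncomputable def Zt (Z : Matrix ι ι ℝ) (a b : ι) : Matrix ι ι ℝ :=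
  Z + (Z * Em a b - Em a b * Pm) * Bm Z a b * ((Em a b)ᵀ * Z)

/-- `(1 + E B V) Q` -/
noncomputable def Rm (Z : Matrix ι ι ℝ) (a b : ι) : Matrix ι ι ℝ :=
  (1 + Em a b * Bm Z a b * ((Em a b)ᵀ * Z)) * Qm a b

/-- `N_j = B ((Z^{j+1})₂ - (Z^j)₂ P)` -/
noncomputable def Nm (Z : Matrix ι ι ℝ) (a b : ι) (j : ℕ) : Matrix (Fin 2) (Fin 2) ℝ :=
  Bm Z a b * (blk (Z ^ (j + 1)) a b - blk (Z ^ j) a b * Pm)

variable {Z : Matrix ι ι ℝ} {a b : ι}

theorem Em_mul_apply (M : Matrix (Fin 2) ι ℝ) (hab : a ≠ b) (i j : ι) :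
    (Em a b * M) i j = if i = a then M 0 j else if i = b then M 1 j else 0 := by
  simp only [Matrix.mul_apply, Em, Matrix.of_apply, Fin.sum_univ_two, Matrix.cons_val_zero,
    Matrix.cons_val_one]
  by_cases h1 : i = a
  · subst h1; simp [hab]
  · by_cases h2 : i = b
    · subst h2; simp [h1]
    · simp [h1, h2]

theorem EmT_mul_mul_Em (M : Matrix ι ι ℝ) (a b : ι) :
    (Em a b)ᵀ * M * Em a b = blk M a b := by
  have h : ∀ (x y : ι), ∑ j, (∑ k, (if k = x then (1 : ℝ) else 0) * M k j) *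
      (if j = y then 1 else 0) = M x y := by
    intro x y
    simp [Finset.sum_ite_eq', mul_ite, ite_mul]
  ext i j
  simp only [Matrix.mul_apply, Em, Matrix.transpose_apply, Matrix.of_apply, h]
  fin_cases i <;> fin_cases j <;> simp [blk]

theorem EmT_mul_Em (hab : a ≠ b) : (Em a b)ᵀ * Em a b = 1 := by
  have h := EmT_mul_mul_Em (1 : Matrix ι ι ℝ) a b
  rw [Matrix.mul_one] at h
  rw [h]
  ext i j
  fin_cases i <;> fin_cases j <;> simp [blk, hab, hab.symm]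

theorem Pm_mul_Pm : Pm * Pm = 1 := by
  ext i j
  fin_cases i <;> fin_cases j <;> simp [Pm, Matrix.mul_apply, Fin.sum_univ_two]

theorem Pm_transpose : Pmᵀ = Pm := by
  ext i j
  fin_cases i <;> fin_cases j <;> simp [Pm]

theorem Bm_mul (hZ : Z.IsSymm) (h : al Z a b ≠ 0) : Bm Z a b * (Pm - blk Z a b) = 1 := by
  have hs : Z b a = Z a b := hZ.apply a b
  ext i j
  fin_cases i <;> fin_cases j <;>
    simp [Bm, Pm, blk, Matrix.mul_apply, Fin.sum_univ_two, hs] <;> field_simp <;>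
      simp only [al] <;> ring

theorem mul_Bm (hZ : Z.IsSymm) (h : al Z a b ≠ 0) : (Pm - blk Z a b) * Bm Z a b = 1 := by
  have hs : Z b a = Z a b := hZ.apply a b
  ext i j
  fin_cases i <;> fin_cases j <;>
    simp [Bm, Pm, blk, Matrix.mul_apply, Fin.sum_univ_two, hs] <;> field_simp <;>
      simp only [al] <;> ring

theorem Bm_transpose : (Bm Z a b)ᵀ = Bm Z a b := by
  ext i j
  fin_cases i <;> fin_cases j <;> simp [Bm]

theorem Qm_mul_Qm (hab : a ≠ b) : Qm a b * Qm a b = Qm a b := by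
  have h := EmT_mul_Em hab
  unfold Qm
  rw [Matrix.sub_mul, Matrix.mul_sub, Matrix.mul_sub, Matrix.one_mul, Matrix.mul_one,
    Matrix.one_mul]
  have : Em a b * (Em a b)ᵀ * (Em a b * (Em a b)ᵀ) = Em a b * (Em a b)ᵀ := by
    rw [Matrix.mul_assoc, ← Matrix.mul_assoc (Em a b)ᵀ, h, Matrix.one_mul]
  rw [this]
  abel

theorem Qm_transpose : (Qm a b)ᵀ = Qm a b := by
  simp [Qm, Matrix.transpose_sub, Matrix.transpose_mul]

theorem Qm_apply (hab : a ≠ b) (i j : ι) :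
    Qm a b i j = if i = j ∧ i ≠ a ∧ i ≠ b then 1 else 0 := by
  unfold Qm
  rw [Matrix.sub_apply, Em_mul_apply _ hab, Matrix.one_apply]
  simp only [Matrix.transpose_apply, Em, Matrix.of_apply, Matrix.cons_val_zero,
    Matrix.cons_val_one]
  by_cases h1 : i = a
  · subst h1; by_cases h : i = j
    · subst h; simp
    · simp [h, Ne.symm h]
  · by_cases h2 : i = b
    · subst h2; by_cases h : i = j
      · subst h; simp [h1]
      · simp [h1, h, Ne.symm h]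
    · by_cases h : i = j
      · subst h; simp [h1, h2]
      · simp [h1, h2, h]

theorem Qm_eq (hab : a ≠ b) :
    Qm a b = Matrix.diagonal fun i => if i ≠ a ∧ i ≠ b then (1 : ℝ) else 0 := by
  ext i j
  rw [Qm_apply hab, Matrix.diagonal_apply]
  by_cases h : i = j <;> simp [h]

/-- `P B = 1 + Z₂ B` -/
theorem Pm_mul_Bm (hZ : Z.IsSymm) (h : al Z a b ≠ 0) :
    Pm * Bm Z a b = 1 + blk Z a b * Bm Z a b := by
  have := mul_Bm hZ h
  rw [Matrix.sub_mul] at this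
  rw [← this]; abel

/-- `B P = 1 + B Z₂` -/
theorem Bm_mul_Pm (hZ : Z.IsSymm) (h : al Z a b ≠ 0) :
    Bm Z a b * Pm = 1 + Bm Z a b * blk Z a b := by
  have := Bm_mul hZ h
  rw [Matrix.mul_sub] at this
  rw [← this]; abel

/-- `Q (Z + Vᵀ B V) = Zt` -/
theorem Qm_mul_full (hZ : Z.IsSymm) (h : al Z a b ≠ 0) :
    Qm a b * (Z + Z * Em a b * Bm Z a b * ((Em a b)ᵀ * Z)) = Zt Z a b := by
  have h1 := EmT_mul_mul_Em Z a b
  have h2 := Pm_mul_Bm hZ h
  unfold Qm Zt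
  have e1 : (Em a b)ᵀ * (Z + Z * Em a b * Bm Z a b * ((Em a b)ᵀ * Z)) =
      Pm * Bm Z a b * ((Em a b)ᵀ * Z) := by
    rw [h2, Matrix.mul_add, Matrix.add_mul, Matrix.one_mul, ← h1]
    simp only [Matrix.mul_assoc]
  rw [Matrix.sub_mul, Matrix.one_mul, Matrix.mul_assoc (Em a b), e1, Matrix.sub_mul, Matrix.sub_mul]
  simp only [Matrix.mul_assoc]
  abel

theorem Qm_mul_Zt (hab : a ≠ b) (hZ : Z.IsSymm) (h : al Z a b ≠ 0) :
    Qm a b * Zt Z a b = Zt Z a b := by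
  rw [← Qm_mul_full hZ h, ← Matrix.mul_assoc, Qm_mul_Qm hab]

theorem full_apply (i j : ι) :
    (Z + Z * Em a b * Bm Z a b * ((Em a b)ᵀ * Z)) i j =
      Z i j + (al Z a b)⁻¹ * (Z b b * (Z i a * Z a j) +
      (1 - Z a b) * (Z i a * Z b j + Z i b * Z a j) + Z a a * (Z i b * Z b j)) := by
  have h1 : ∀ i, ∀ k : Fin 2, (Z * Em a b) i k = Z i (![a, b] k) := by
    intro i k
    simp [Matrix.mul_apply, Em]
  have h2 : ∀ j, ∀ k : Fin 2, ((Em a b)ᵀ * Z) k j = Z (![a, b] k) j := by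
    intro j k
    simp [Matrix.mul_apply, Em]
  rw [Matrix.add_apply, Matrix.mul_apply]
  simp only [Fin.sum_univ_two, h2, Matrix.mul_apply (M := Z * Em a b), h1, Bm,
    Matrix.smul_apply, smul_eq_mul]
  simp
  ring

theorem upd_eq_Q (hab : a ≠ b) :
    upd Z a b = Qm a b * (Z + Z * Em a b * Bm Z a b * ((Em a b)ᵀ * Z)) * Qm a b := by
  ext i j
  rw [Qm_eq hab, Matrix.mul_diagonal, Matrix.diagonal_mul, full_apply]
  simp only [upd, Matrix.of_apply]
  by_cases h1 : i = a <;> by_cases h2 : i = b <;> by_cases h3 : j = a <;> by_cases h4 : j = b <;>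
    simp [h1, h2, h3, h4]

theorem upd_eq (hab : a ≠ b) (hZ : Z.IsSymm) (h : al Z a b ≠ 0) :
    upd Z a b = Zt Z a b * Qm a b := by
  rw [upd_eq_Q hab, Qm_mul_full hZ h]

theorem upd_isSymm (hZ : Z.IsSymm) : (upd Z a b).IsSymm := by
  ext i j
  simp only [Matrix.transpose_apply, upd, Matrix.of_apply]
  have h1 : ∀ x y, Z x y = Z y x := fun x y => hZ.apply y x
  by_cases h : i = a ∨ i = b ∨ j = a ∨ j = b
  · rw [if_pos h, if_pos (by tauto)]
  · rw [if_neg h, if_neg (by tauto), h1 j i, h1 j a, h1 j b, h1 a i, h1 b i]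
    ring

/-! ### Traces of words -/

theorem trace_upd (hab : a ≠ b) (hZ : Z.IsSymm) (h : al Z a b ≠ 0) :
    (upd Z a b).trace = (Zt Z a b).trace := by
  rw [upd_eq hab hZ h, Matrix.trace_mul_comm, Qm_mul_Zt hab hZ h]

theorem upd_mul_upd (hab : a ≠ b) {Z W : Matrix ι ι ℝ} (hZ : Z.IsSymm) (h : al Z a b ≠ 0)
    (hW : W.IsSymm) (h' : al W a b ≠ 0) :
    upd Z a b * upd W a b = Zt Z a b * Zt W a b * Qm a b := by
  rw [upd_eq hab hZ h, upd_eq hab hW h', Matrix.mul_assoc, ← Matrix.mul_assoc (Qm a b),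
    Qm_mul_Zt hab hW h', Matrix.mul_assoc]

theorem trace_upd_mul_upd (hab : a ≠ b) {Z W : Matrix ι ι ℝ} (hZ : Z.IsSymm) (h : al Z a b ≠ 0)
    (hW : W.IsSymm) (h' : al W a b ≠ 0) :
    (upd Z a b * upd W a b).trace = (Zt Z a b * Zt W a b).trace := by
  rw [upd_mul_upd hab hZ h hW h', Matrix.trace_mul_comm, ← Matrix.mul_assoc, Qm_mul_Zt hab hZ h]

theorem upd_pow (hab : a ≠ b) (hZ : Z.IsSymm) (h : al Z a b ≠ 0) (k : ℕ) :
    upd Z a b ^ (k + 1) = Zt Z a b ^ (k + 1) * Qm a b := by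
  induction k with
  | zero => simp [upd_eq hab hZ h]
  | succ k ih =>
    rw [pow_succ, ih, upd_eq hab hZ h, Matrix.mul_assoc, ← Matrix.mul_assoc (Qm a b),
      Qm_mul_Zt hab hZ h, ← Matrix.mul_assoc, ← pow_succ]

theorem Qm_mul_Zt_pow (hab : a ≠ b) (hZ : Z.IsSymm) (h : al Z a b ≠ 0) (k : ℕ) :
    Qm a b * Zt Z a b ^ (k + 1) = Zt Z a b ^ (k + 1) := by
  rw [pow_succ', ← Matrix.mul_assoc, Qm_mul_Zt hab hZ h]

theorem trace_upd_pow (hab : a ≠ b) (hZ : Z.IsSymm) (h : al Z a b ≠ 0) (k : ℕ) :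
    (upd Z a b ^ (k + 1)).trace = (Zt Z a b ^ (k + 1)).trace := by
  rw [upd_pow hab hZ h, Matrix.trace_mul_comm, Qm_mul_Zt_pow hab hZ h]

/-- the trace of a product of powers of two updated matrices -/
theorem trace_upd_pow_mul (hab : a ≠ b) {Z W : Matrix ι ι ℝ} (hZ : Z.IsSymm) (h : al Z a b ≠ 0)
    (hW : W.IsSymm) (h' : al W a b ≠ 0) (k l : ℕ) :
    (upd Z a b ^ (k + 1) * upd W a b ^ (l + 1)).trace =
      (Zt Z a b ^ (k + 1) * Zt W a b ^ (l + 1)).trace := by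
  rw [upd_pow hab hZ h, upd_pow hab hW h', Matrix.mul_assoc, ← Matrix.mul_assoc (Qm a b),
    Qm_mul_Zt_pow hab hW h', ← Matrix.mul_assoc, Matrix.trace_mul_comm, ← Matrix.mul_assoc,
    Qm_mul_Zt_pow hab hZ h]

/-! ### Traces of powers -/

/-- `V Z^j L = (Z^{j+2})₂ - (Z^{j+1})₂ P` -/
theorem V_mul_L (j : ℕ) :
    (Em a b)ᵀ * Z * Z ^ j * (Z * Em a b - Em a b * Pm) =
      blk (Z ^ (j + 2)) a b - blk (Z ^ (j + 1)) a b * Pm := by
  rw [← EmT_mul_mul_Em, ← EmT_mul_mul_Em, Matrix.mul_sub]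
  have e1 : Z ^ (j + 2) = Z * Z ^ j * Z := by
    rw [← pow_succ', ← pow_succ]
  have e2 : Z ^ (j + 1) = Z * Z ^ j := by rw [← pow_succ']
  rw [e1, e2]
  simp only [Matrix.mul_assoc]

theorem BVL (j : ℕ) :
    Bm Z a b * ((Em a b)ᵀ * Z) * Z ^ j * (Z * Em a b - Em a b * Pm) = Nm Z a b (j + 1) := by
  unfold Nm
  rw [Matrix.mul_assoc (Bm Z a b), Matrix.mul_assoc (Bm Z a b), V_mul_L]

/-- `N₁ = P + B (Z² - 1)₂` -/
theorem Nm_one (hab : a ≠ b) (hZ : Z.IsSymm) (h : al Z a b ≠ 0) :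
    Nm Z a b 1 = Pm + Bm Z a b * blk (Z ^ 2 - 1) a b := by
  have e : blk (Z ^ 2) a b = 1 + blk (Z ^ 2 - 1) a b := by
    ext i j
    fin_cases i <;> fin_cases j <;> simp [blk, hab, hab.symm]
  have h2 := Bm_mul hZ h
  have h3 : Bm Z a b * (1 - blk Z a b * Pm) = Pm := by
    have : (1 : Matrix (Fin 2) (Fin 2) ℝ) - blk Z a b * Pm = (Pm - blk Z a b) * Pm := by
      rw [Matrix.sub_mul, Pm_mul_Pm]
    rw [this, ← Matrix.mul_assoc, h2, Matrix.one_mul]
  unfold Nm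
  rw [pow_one, e]
  have : Bm Z a b * (1 + blk (Z ^ 2 - 1) a b - blk Z a b * Pm) =
      Bm Z a b * (1 - blk Z a b * Pm) + Bm Z a b * blk (Z ^ 2 - 1) a b := by
    rw [← Matrix.mul_add]; congr 1; abel
  rw [this, h3]

/-- `tr (Z^j L B V) = tr N_{j+1}` -/
theorem trace_word1 (j : ℕ) :
    (Z ^ j * ((Z * Em a b - Em a b * Pm) * Bm Z a b * ((Em a b)ᵀ * Z))).trace =
      (Nm Z a b (j + 1)).trace := by
  rw [← BVL (Z := Z) (a := a) (b := b) j]
  set L := Z * Em a b - Em a b * Pm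
  set B := Bm Z a b
  set V := (Em a b)ᵀ * Z
  have e1 : Z ^ j * (L * B * V) = (Z ^ j * L) * (B * V) := by simp only [Matrix.mul_assoc]
  rw [e1, Matrix.trace_mul_comm]
  simp only [Matrix.mul_assoc]

theorem trace_word2 (i j : ℕ) :
    (Z ^ i * ((Z * Em a b - Em a b * Pm) * Bm Z a b * ((Em a b)ᵀ * Z)) *
      (Z ^ j * ((Z * Em a b - Em a b * Pm) * Bm Z a b * ((Em a b)ᵀ * Z)))).trace =
      (Nm Z a b (i + 1) * Nm Z a b (j + 1)).trace := by
  rw [← BVL (Z := Z) (a := a) (b := b) i, ← BVL (Z := Z) (a := a) (b := b) j]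
  set L := Z * Em a b - Em a b * Pm
  set B := Bm Z a b
  set V := (Em a b)ᵀ * Z
  have e1 : Z ^ i * (L * B * V) * (Z ^ j * (L * B * V)) =
      (Z ^ i * L) * (B * V * Z ^ j * L * (B * V)) := by simp only [Matrix.mul_assoc]
  rw [e1, Matrix.trace_mul_comm, ← Matrix.trace_mul_comm]
  rw [Matrix.trace_mul_comm, Matrix.trace_mul_comm (B * V * Z ^ i * L)]
  simp only [Matrix.mul_assoc]

theorem trace_word3 (i j k : ℕ) :
    (Z ^ i * ((Z * Em a b - Em a b * Pm) * Bm Z a b * ((Em a b)ᵀ * Z)) *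
      (Z ^ j * ((Z * Em a b - Em a b * Pm) * Bm Z a b * ((Em a b)ᵀ * Z))) *
      (Z ^ k * ((Z * Em a b - Em a b * Pm) * Bm Z a b * ((Em a b)ᵀ * Z)))).trace =
      (Nm Z a b (i + 1) * Nm Z a b (j + 1) * Nm Z a b (k + 1)).trace := by
  rw [← BVL (Z := Z) (a := a) (b := b) i, ← BVL (Z := Z) (a := a) (b := b) j,
    ← BVL (Z := Z) (a := a) (b := b) k]
  set L := Z * Em a b - Em a b * Pm
  set B := Bm Z a b
  set V := (Em a b)ᵀ * Z
  have e1 : Z ^ i * (L * B * V) * (Z ^ j * (L * B * V)) * (Z ^ k * (L * B * V)) =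
      (Z ^ i * L * (B * V * Z ^ j * L) * (B * V * Z ^ k * L)) * (B * V) := by
    simp only [Matrix.mul_assoc]
  rw [e1, Matrix.trace_mul_comm]
  simp only [Matrix.mul_assoc]

theorem trace_word4 (i j k l : ℕ) :
    (Z ^ i * ((Z * Em a b - Em a b * Pm) * Bm Z a b * ((Em a b)ᵀ * Z)) *
      (Z ^ j * ((Z * Em a b - Em a b * Pm) * Bm Z a b * ((Em a b)ᵀ * Z))) *
      (Z ^ k * ((Z * Em a b - Em a b * Pm) * Bm Z a b * ((Em a b)ᵀ * Z))) *
      (Z ^ l * ((Z * Em a b - Em a b * Pm) * Bm Z a b * ((Em a b)ᵀ * Z)))).trace =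
      (Nm Z a b (i + 1) * Nm Z a b (j + 1) * Nm Z a b (k + 1) * Nm Z a b (l + 1)).trace := by
  rw [← BVL (Z := Z) (a := a) (b := b) i, ← BVL (Z := Z) (a := a) (b := b) j,
    ← BVL (Z := Z) (a := a) (b := b) k, ← BVL (Z := Z) (a := a) (b := b) l]
  set L := Z * Em a b - Em a b * Pm
  set B := Bm Z a b
  set V := (Em a b)ᵀ * Z
  have e1 : Z ^ i * (L * B * V) * (Z ^ j * (L * B * V)) * (Z ^ k * (L * B * V)) *
      (Z ^ l * (L * B * V)) =
      (Z ^ i * L * (B * V * Z ^ j * L) * (B * V * Z ^ k * L) * (B * V * Z ^ l * L)) * (B * V) := by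
    simp only [Matrix.mul_assoc]
  rw [e1, Matrix.trace_mul_comm]
  simp only [Matrix.mul_assoc]

/-- increment of `tr Z` -/
theorem trace_upd_eq (hab : a ≠ b) (hZ : Z.IsSymm) (h : al Z a b ≠ 0) :
    (upd Z a b).trace = Z.trace + (Nm Z a b 1).trace := by
  rw [trace_upd hab hZ h, Zt, Matrix.trace_add, ← trace_word1 (Z := Z) (a := a) (b := b) 0,
    pow_zero, Matrix.one_mul]

/-- increment of `tr Z²` -/
theorem trace_upd_sq_eq (hab : a ≠ b) (hZ : Z.IsSymm) (h : al Z a b ≠ 0) :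
    (upd Z a b ^ 2).trace =
      (Z ^ 2).trace + 2 * (Nm Z a b 2).trace + (Nm Z a b 1 ^ 2).trace := by
  have h1 := trace_word1 (Z := Z) (a := a) (b := b) 1
  have h2 := trace_word2 (Z := Z) (a := a) (b := b) 0 0
  rw [trace_upd_pow hab hZ h 1, Zt]
  set W := (Z * Em a b - Em a b * Pm) * Bm Z a b * ((Em a b)ᵀ * Z)
  simp only [pow_zero, Matrix.one_mul, zero_add, pow_one] at h1 h2
  rw [one_add_one_eq_two] at h1
  have e : (Z + W) ^ 2 = Z ^ 2 + Z * W + W * Z + W * W := by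
    rw [sq, sq, Matrix.add_mul, Matrix.mul_add, Matrix.mul_add]; abel
  rw [show (1 + 1 : ℕ) = 2 from rfl, e, Matrix.trace_add, Matrix.trace_add, Matrix.trace_add,
    Matrix.trace_mul_comm W Z, h1, h2, sq (Nm Z a b 1)]
  ring

/-- increment of `tr Z³` -/
theorem trace_upd_cube_eq (hab : a ≠ b) (hZ : Z.IsSymm) (h : al Z a b ≠ 0) :
    (upd Z a b ^ 3).trace =
      (Z ^ 3).trace + 3 * (Nm Z a b 3).trace + 3 * (Nm Z a b 1 * Nm Z a b 2).trace +
        (Nm Z a b 1 ^ 3).trace := by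
  have h1 := trace_word1 (Z := Z) (a := a) (b := b) 2
  have h2 := trace_word2 (Z := Z) (a := a) (b := b) 0 1
  have h3 := trace_word3 (Z := Z) (a := a) (b := b) 0 0 0
  rw [trace_upd_pow hab hZ h 2, Zt]
  set W := (Z * Em a b - Em a b * Pm) * Bm Z a b * ((Em a b)ᵀ * Z)
  simp only [pow_zero, Matrix.one_mul, zero_add, pow_one] at h1 h2 h3
  simp only [Nat.reduceAdd] at h1 h2 h3 ⊢
  have e : (Z + W) ^ 3 = Z ^ 3 + (Z ^ 2 * W + Z * W * Z + W * Z ^ 2) +
      (W * (Z * W) + W * W * Z + Z * W * W) + W * W * W := by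
    simp only [pow_succ, pow_zero, one_mul, add_mul, mul_add, mul_assoc]; abel
  have t1 : (Z * W * Z).trace = (Z ^ 2 * W).trace := by
    rw [Matrix.trace_mul_comm, ← Matrix.mul_assoc, sq]
  have t2 : (W * Z ^ 2).trace = (Z ^ 2 * W).trace := Matrix.trace_mul_comm _ _
  have t3 : (W * W * Z).trace = (W * (Z * W)).trace := by
    rw [Matrix.mul_assoc, Matrix.trace_mul_comm, Matrix.mul_assoc, Matrix.trace_mul_comm,
      Matrix.mul_assoc, Matrix.trace_mul_comm, ← Matrix.mul_assoc, Matrix.trace_mul_comm]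
  have t4 : (Z * W * W).trace = (W * (Z * W)).trace := Matrix.trace_mul_comm _ _
  rw [e]
  simp only [Matrix.trace_add]
  rw [t1, t2, t3, t4, h1, h2, h3]
  simp only [pow_succ, pow_zero, one_mul]
  ring

end Vale.Agent.P049.TS
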