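import Vale.Agent.P049.TS.Shell.Join

/-!
Exact one-step algebra, part 2: congruence forms, rows and entries of the square of the updated
matrix, the all-ones vector.
-/

set_option linter.unusedSectionVars false

namespace Vale.Agent.P049.TS

open Matrix Finset

variable {ι : Type*} [Fintype ι] [DecidableEq ι]

/-- first component of `B V e_i` -/
noncomputable def ca (Z : Matrix ι ι ℝ) (a b i : ι) : ℝ :=
  (al Z a b)⁻¹ * (Z b b * Z a i + (1 - Z a b) * Z b i)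

/-- second component of `B V e_i` -/
noncomputable def cb (Z : Matrix ι ι ℝ) (a b i : ι) : ℝ :=
  (al Z a b)⁻¹ * ((1 - Z a b) * Z a i + Z a a * Z b i)

variable {Z W : Matrix ι ι ℝ} {a b : ι}

theorem Qm_mul_Em (hab : a ≠ b) : Qm a b * Em a b = 0 := by
  unfold Qm
  rw [Matrix.sub_mul, Matrix.mul_assoc, EmT_mul_Em hab, Matrix.one_mul, Matrix.mul_one, sub_self]

theorem EmT_mul_Qm (hab : a ≠ b) : (Em a b)ᵀ * Qm a b = 0 := by
  have h := congrArg Matrix.transpose (Qm_mul_Em hab)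
  rwa [Matrix.transpose_mul, Qm_transpose, Matrix.transpose_zero] at h

/-- `R = 1 + E B Lᵀ` -/
theorem Rm_eq (hZ : Z.IsSymm) (h : al Z a b ≠ 0) :
    Rm Z a b = 1 + Em a b * Bm Z a b * ((Em a b)ᵀ * Z - Pm * (Em a b)ᵀ) := by
  unfold Rm Qm
  have h1 := Bm_mul_Pm hZ h
  have h2 := EmT_mul_mul_Em Z a b
  have e1 : Em a b * Bm Z a b * (Pm * (Em a b)ᵀ) =
      Em a b * (Em a b)ᵀ + Em a b * Bm Z a b * ((Em a b)ᵀ * Z) * (Em a b * (Em a b)ᵀ) := by
    rw [Matrix.mul_assoc (Em a b), ← Matrix.mul_assoc (Bm Z a b), h1, Matrix.add_mul,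
      Matrix.mul_add, Matrix.one_mul, ← h2]
    simp only [Matrix.mul_assoc]
  rw [Matrix.mul_sub, Matrix.mul_sub, e1, Matrix.mul_one, Matrix.add_mul, Matrix.one_mul]
  abel

theorem Rm_mul_Qm (hab : a ≠ b) : Rm Z a b * Qm a b = Rm Z a b := by
  rw [Rm, Matrix.mul_assoc, Qm_mul_Qm hab]

/-- congruence form of the product of two updated matrices:
`Z' W' = Q + R_Zᵀ (Z W - 1) R_W` -/
theorem upd_mul_upd_eq (hab : a ≠ b) (hZ : Z.IsSymm) (h : al Z a b ≠ 0)
    (hW : W.IsSymm) (h' : al W a b ≠ 0) :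
    upd Z a b * upd W a b = Qm a b + (Rm Z a b)ᵀ * (Z * W - 1) * Rm W a b := by
  have hQ := Qm_mul_Qm (ι := ι) hab
  have hQE := Qm_mul_Em (ι := ι) hab
  have hEQ := EmT_mul_Qm (ι := ι) hab
  have hEE := EmT_mul_Em (ι := ι) hab
  have hPZ := Bm_mul_Pm hZ h
  have hPW := Pm_mul_Bm hW h'
  have hBZ : (Bm Z a b)ᵀ = Bm Z a b := Bm_transpose
  have hZt : Zᵀ = Z := hZ
  rw [upd_eq_Q hab, upd_eq_Q hab]
  -- the middle product
  have hmid : (Z + Z * Em a b * Bm Z a b * ((Em a b)ᵀ * Z)) * Qm a b *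
      (W + W * Em a b * Bm W a b * ((Em a b)ᵀ * W)) =
      Z * W + Z * (W * Em a b * Bm W a b * ((Em a b)ᵀ * W)) +
        Z * Em a b * Bm Z a b * ((Em a b)ᵀ * Z) * W +
        Z * Em a b * Bm Z a b * ((Em a b)ᵀ * Z) * (W * Em a b * Bm W a b * ((Em a b)ᵀ * W)) -
        Z * Em a b * Bm Z a b * (Bm W a b * ((Em a b)ᵀ * W)) := by
    have e1 : (Z + Z * Em a b * Bm Z a b * ((Em a b)ᵀ * Z)) * Em a b =
        Z * Em a b * Bm Z a b * Pm := by
      rw [Matrix.add_mul, Matrix.mul_assoc (Z * Em a b) (Bm Z a b) Pm, hPZ, Matrix.mul_add,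
        Matrix.mul_one, ← EmT_mul_mul_Em]
      simp only [Matrix.mul_assoc]
    have e2 : (Em a b)ᵀ * (W + W * Em a b * Bm W a b * ((Em a b)ᵀ * W)) =
        Pm * Bm W a b * ((Em a b)ᵀ * W) := by
      rw [Matrix.mul_add, hPW, Matrix.add_mul, Matrix.one_mul, ← EmT_mul_mul_Em]
      simp only [Matrix.mul_assoc]
    have e3 : (Z + Z * Em a b * Bm Z a b * ((Em a b)ᵀ * Z)) * (Em a b * (Em a b)ᵀ) *
      (W + W * Em a b * Bm W a b * ((Em a b)ᵀ * W)) =
        Z * Em a b * Bm Z a b * (Bm W a b * ((Em a b)ᵀ * W)) := by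
      rw [← Matrix.mul_assoc, e1, Matrix.mul_assoc _ (Em a b)ᵀ, e2]
      simp only [Matrix.mul_assoc]
      rw [← Matrix.mul_assoc Pm Pm, Pm_mul_Pm, Matrix.one_mul]
    rw [← e3]
    unfold Qm
    simp only [Matrix.mul_sub, Matrix.mul_add, Matrix.sub_mul, Matrix.add_mul, Matrix.mul_one]
    abel
  have hR : (Rm Z a b)ᵀ = Qm a b * (1 + Z * Em a b * Bm Z a b * (Em a b)ᵀ) := by
    rw [Rm, Matrix.transpose_mul, Qm_transpose, Matrix.transpose_add, Matrix.transpose_one,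
      Matrix.transpose_mul, Matrix.transpose_mul, Matrix.transpose_mul, Matrix.transpose_transpose,
      hBZ, hZt]
    simp only [Matrix.mul_assoc]
  rw [hR, Rm]
  have hl : Qm a b * (Z + Z * Em a b * Bm Z a b * ((Em a b)ᵀ * Z)) * Qm a b *
      (Qm a b * (W + W * Em a b * Bm W a b * ((Em a b)ᵀ * W)) * Qm a b) =
      Qm a b * ((Z + Z * Em a b * Bm Z a b * ((Em a b)ᵀ * Z)) * Qm a b *
      (W + W * Em a b * Bm W a b * ((Em a b)ᵀ * W))) * Qm a b := by
    have : Qm a b * (Z + Z * Em a b * Bm Z a b * ((Em a b)ᵀ * Z)) * Qm a b *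
      (Qm a b * (W + W * Em a b * Bm W a b * ((Em a b)ᵀ * W)) * Qm a b) =
      Qm a b * (Z + Z * Em a b * Bm Z a b * ((Em a b)ᵀ * Z)) * (Qm a b * Qm a b) *
      (W + W * Em a b * Bm W a b * ((Em a b)ᵀ * W)) * Qm a b := by
      simp only [Matrix.mul_assoc]
    rw [this, hQ]
    simp only [Matrix.mul_assoc]
  rw [hl, hmid]
  have hr : Qm a b * (1 + Z * Em a b * Bm Z a b * (Em a b)ᵀ) * (Z * W - 1) *
      ((1 + Em a b * Bm W a b * ((Em a b)ᵀ * W)) * Qm a b) =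
      Qm a b * ((1 + Z * Em a b * Bm Z a b * (Em a b)ᵀ) * (Z * W - 1) *
      (1 + Em a b * Bm W a b * ((Em a b)ᵀ * W))) * Qm a b := by
    simp only [Matrix.mul_assoc]
  rw [hr]
  have hx : (1 + Z * Em a b * Bm Z a b * (Em a b)ᵀ) * (Z * W - 1) *
      (1 + Em a b * Bm W a b * ((Em a b)ᵀ * W)) =
      Z * W + Z * (W * Em a b * Bm W a b * ((Em a b)ᵀ * W)) +
        Z * Em a b * Bm Z a b * ((Em a b)ᵀ * Z) * W +
        Z * Em a b * Bm Z a b * ((Em a b)ᵀ * Z) * (W * Em a b * Bm W a b * ((Em a b)ᵀ * W)) -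
        Z * Em a b * Bm Z a b * (Bm W a b * ((Em a b)ᵀ * W)) - 1 -
        Z * Em a b * Bm Z a b * (Em a b)ᵀ - Em a b * Bm W a b * ((Em a b)ᵀ * W) := by
    have e4 : Z * Em a b * Bm Z a b * ((Em a b)ᵀ * (Em a b * Bm W a b * ((Em a b)ᵀ * W))) =
        Z * Em a b * Bm Z a b * (Bm W a b * ((Em a b)ᵀ * W)) := by
      rw [← Matrix.mul_assoc (Em a b)ᵀ, ← Matrix.mul_assoc (Em a b)ᵀ, hEE, Matrix.one_mul]
    rw [← e4]
    simp only [Matrix.mul_sub, Matrix.mul_add, Matrix.sub_mul, Matrix.add_mul, Matrix.mul_one,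
      Matrix.one_mul, Matrix.mul_assoc]
    abel
  rw [hx]
  have z1 : Qm a b * (Z * Em a b * Bm Z a b * (Em a b)ᵀ) * Qm a b = 0 := by
    rw [Matrix.mul_assoc, Matrix.mul_assoc _ (Em a b)ᵀ, hEQ, Matrix.mul_zero, Matrix.mul_zero]
  have z2 : Qm a b * (Em a b * Bm W a b * ((Em a b)ᵀ * W)) * Qm a b = 0 := by
    have e5 : Qm a b * (Em a b * Bm W a b * ((Em a b)ᵀ * W)) =
        (Qm a b * Em a b) * (Bm W a b * ((Em a b)ᵀ * W)) := by simp only [Matrix.mul_assoc]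
    rw [e5, hQE, Matrix.zero_mul, Matrix.zero_mul]
  set X := Z * W + Z * (W * Em a b * Bm W a b * ((Em a b)ᵀ * W)) +
        Z * Em a b * Bm Z a b * ((Em a b)ᵀ * Z) * W +
        Z * Em a b * Bm Z a b * ((Em a b)ᵀ * Z) * (W * Em a b * Bm W a b * ((Em a b)ᵀ * W)) -
        Z * Em a b * Bm Z a b * (Bm W a b * ((Em a b)ᵀ * W))
  clear_value X
  rw [Matrix.mul_sub, Matrix.mul_sub, Matrix.mul_sub, Matrix.sub_mul, Matrix.sub_mul,
    Matrix.sub_mul, z1, z2, Matrix.mul_one, hQ]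
  abel

/-- `Z'² = Q + Rᵀ (Z² - 1) R` -/
theorem upd_sq (hab : a ≠ b) (hZ : Z.IsSymm) (h : al Z a b ≠ 0) :
    upd Z a b ^ 2 = Qm a b + (Rm Z a b)ᵀ * (Z ^ 2 - 1) * Rm Z a b := by
  rw [sq, sq, upd_mul_upd_eq hab hZ h hZ h]

/-- `R_{k i} = δ_{k i} + [k = a] ca_i + [k = b] cb_i` for `i ∉ {a, b}` -/
theorem Rm_apply (hab : a ≠ b) (k i : ι) (hia : i ≠ a) (hib : i ≠ b) :
    Rm Z a b k i = (if k = i then 1 else 0) + (if k = a then ca Z a b i else 0) +
      (if k = b then cb Z a b i else 0) := by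
  have h2 : ∀ j, ∀ k : Fin 2, ((Em a b)ᵀ * Z) k j = Z (![a, b] k) j := by
    intro j k
    simp [Matrix.mul_apply, Em]
  rw [Rm, Qm_eq hab, Matrix.mul_diagonal, if_pos ⟨hia, hib⟩, mul_one, Matrix.add_apply,
    Matrix.mul_assoc, Em_mul_apply _ hab, Matrix.one_apply]
  have e0 : (Bm Z a b * ((Em a b)ᵀ * Z)) 0 i = ca Z a b i := by
    rw [Matrix.mul_apply, Fin.sum_univ_two, h2, h2]
    simp [Bm, ca]
    ring
  have e1 : (Bm Z a b * ((Em a b)ᵀ * Z)) 1 i = cb Z a b i := by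
    rw [Matrix.mul_apply, Fin.sum_univ_two, h2, h2]
    simp [Bm, cb]
    ring
  rw [e0, e1]
  by_cases h1 : k = a
  · subst h1; simp [hab]
  · by_cases h3 : k = b
    · subst h3; simp [h1]
    · simp [h1, h3]

theorem Rm_apply_a (hab : a ≠ b) (k i : ι) (hi : i = a ∨ i = b) : Rm Z a b k i = 0 := by
  rw [Rm, Qm_eq hab, Matrix.mul_diagonal, if_neg (by tauto), mul_zero]

/-- the entries of the product of two updated matrices (`M = Z W - 1`) -/
theorem upd_mul_upd_apply (hab : a ≠ b) (hZ : Z.IsSymm) (h : al Z a b ≠ 0)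
    (hW : W.IsSymm) (h' : al W a b ≠ 0) (i j : ι) (hia : i ≠ a) (hib : i ≠ b)
    (hja : j ≠ a) (hjb : j ≠ b) :
    (upd Z a b * upd W a b) i j = (Z * W) i j +
      (ca Z a b i * (Z * W - 1) a j + cb Z a b i * (Z * W - 1) b j) +
      (ca W a b j * (Z * W - 1) i a + cb W a b j * (Z * W - 1) i b) +
      (ca Z a b i * (ca W a b j * (Z * W - 1) a a + cb W a b j * (Z * W - 1) a b) +
        cb Z a b i * (ca W a b j * (Z * W - 1) b a + cb W a b j * (Z * W - 1) b b)) := by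
  set M := Z * W - 1 with hM
  have hQ : Qm a b i j = if i = j then 1 else 0 := by
    rw [Qm_apply hab]; simp [hia, hib]
  have hZW : (Z * W) i j = M i j + if i = j then 1 else 0 := by
    rw [hM, Matrix.sub_apply, Matrix.one_apply]; ring
  rw [upd_mul_upd_eq hab hZ h hW h', Matrix.add_apply, hQ, hZW, ← hM, Matrix.mul_apply]
  have hr : ∀ k, ((Rm Z a b)ᵀ * M) i k = M i k + ca Z a b i * M a k + cb Z a b i * M b k := by
    intro k
    rw [Matrix.mul_apply]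
    simp only [Matrix.transpose_apply, Rm_apply hab _ i hia hib, add_mul, ite_mul, one_mul,
      zero_mul, Finset.sum_add_distrib, Finset.sum_ite_eq', Finset.mem_univ, if_true]
  simp only [hr, Rm_apply hab _ j hja hjb, mul_add, mul_ite, mul_one, mul_zero, add_mul,
    Finset.sum_add_distrib, Finset.sum_ite_eq', Finset.mem_univ, if_true]
  ring

/-- the row norms of the updated matrix -/
theorem upd_sq_diag (hab : a ≠ b) (hZ : Z.IsSymm) (h : al Z a b ≠ 0) (i : ι) (hia : i ≠ a)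
    (hib : i ≠ b) :
    (upd Z a b ^ 2) i i = (Z ^ 2) i i +
      2 * (ca Z a b i * (Z ^ 2) a i + cb Z a b i * (Z ^ 2) b i) +
      (ca Z a b i ^ 2 * ((Z ^ 2) a a - 1) + 2 * (ca Z a b i * cb Z a b i) * (Z ^ 2) a b +
        cb Z a b i ^ 2 * ((Z ^ 2) b b - 1)) := by
  have hs : ∀ x y, (Z ^ 2) x y = (Z ^ 2) y x := by
    intro x y
    have : (Z ^ 2).IsSymm := by rw [Matrix.IsSymm, Matrix.transpose_pow, hZ.eq]
    exact this.apply y x
  rw [sq, upd_mul_upd_apply hab hZ h hZ h i i hia hib hia hib]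
  simp only [← sq Z, Matrix.sub_apply, Matrix.one_apply_eq]
  rw [Matrix.one_apply_ne (Ne.symm hia), Matrix.one_apply_ne (Ne.symm hib),
    Matrix.one_apply_ne hia, Matrix.one_apply_ne hib, Matrix.one_apply_ne hab,
    Matrix.one_apply_ne hab.symm, hs i a, hs i b, hs b a]
  ring

theorem upd_sq_apply (hab : a ≠ b) (hZ : Z.IsSymm) (h : al Z a b ≠ 0) (i j : ι) (hia : i ≠ a)
    (hib : i ≠ b) (hja : j ≠ a) (hjb : j ≠ b) :
    (upd Z a b ^ 2) i j = (Z ^ 2) i j +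
      (ca Z a b i * (Z ^ 2) a j + cb Z a b i * (Z ^ 2) b j) +
      (ca Z a b j * (Z ^ 2) a i + cb Z a b j * (Z ^ 2) b i) +
      (ca Z a b i * ca Z a b j * ((Z ^ 2) a a - 1) +
        (ca Z a b i * cb Z a b j + cb Z a b i * ca Z a b j) * (Z ^ 2) a b +
        cb Z a b i * cb Z a b j * ((Z ^ 2) b b - 1)) := by
  have hs : ∀ x y, (Z ^ 2) x y = (Z ^ 2) y x := by
    intro x y
    have : (Z ^ 2).IsSymm := by rw [Matrix.IsSymm, Matrix.transpose_pow, hZ.eq]
    exact this.apply y x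
  rw [sq, upd_mul_upd_apply hab hZ h hZ h i j hia hib hja hjb]
  simp only [← sq Z, Matrix.sub_apply, Matrix.one_apply_eq]
  rw [Matrix.one_apply_ne (Ne.symm hja), Matrix.one_apply_ne (Ne.symm hjb),
    Matrix.one_apply_ne hia, Matrix.one_apply_ne hib, Matrix.one_apply_ne hab,
    Matrix.one_apply_ne hab.symm, hs i a, hs i b, hs b a]
  ring

theorem upd_apply (i j : ι) (hia : i ≠ a) (hib : i ≠ b) (hja : j ≠ a) (hjb : j ≠ b) :
    upd Z a b i j = Z i j + (ca Z a b i * Z a j + cb Z a b i * Z b j) +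
      (al Z a b)⁻¹ * (Z b b * ((Z i a - Z a i) * Z a j) +
      (1 - Z a b) * ((Z i a - Z a i) * Z b j + (Z i b - Z b i) * Z a j) +
      Z a a * ((Z i b - Z b i) * Z b j)) := by
  simp only [upd, Matrix.of_apply, hia, hib, hja, hjb, or_self, if_false, ca, cb]
  ring

/-- entries of the updated matrix -/
theorem upd_apply' (hZ : Z.IsSymm) (i j : ι) (hia : i ≠ a) (hib : i ≠ b) (hja : j ≠ a)
    (hjb : j ≠ b) :
    upd Z a b i j = Z i j + ca Z a b i * Z a j + cb Z a b i * Z b j := by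
  rw [upd_apply i j hia hib hja hjb, hZ.apply i a, hZ.apply i b]
  ring

end Vale.Agent.P049.TS
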