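import Vale.Agent.P049.TS.Shell.Join2

/-!
Exact one-step algebra, part 3: traces of powers in terms of `Ω = Z² - 1`, cross traces, the
all-ones vector.
-/

set_option linter.unusedSectionVars false

namespace Vale.Agent.P049.TS

open Matrix Finset

variable {ι : Type*} [Fintype ι] [DecidableEq ι]

/-- `O_{j+1} = B (Z^j (Z² - 1))₂` -/
noncomputable def Om (Z : Matrix ι ι ℝ) (a b : ι) (j : ℕ) : Matrix (Fin 2) (Fin 2) ℝ :=
  Bm Z a b * blk (Z ^ j * (Z ^ 2 - 1)) a b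

variable {Z W : Matrix ι ι ℝ} {a b : ι}

theorem blk_add (X Y : Matrix ι ι ℝ) : blk (X + Y) a b = blk X a b + blk Y a b := by
  ext i j; fin_cases i <;> fin_cases j <;> simp [blk]

theorem blk_sub (X Y : Matrix ι ι ℝ) : blk (X - Y) a b = blk X a b - blk Y a b := by
  ext i j; fin_cases i <;> fin_cases j <;> simp [blk]

theorem blk_one (hab : a ≠ b) : blk (1 : Matrix ι ι ℝ) a b = 1 := by
  ext i j; fin_cases i <;> fin_cases j <;> simp [blk, hab, hab.symm]

/-- increment of `tr Z⁴` (raw form) -/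
theorem trace_upd_four_eq (hab : a ≠ b) (hZ : Z.IsSymm) (h : al Z a b ≠ 0) :
    (upd Z a b ^ 4).trace =
      (Z ^ 4).trace + 4 * (Nm Z a b 4).trace + 4 * (Nm Z a b 1 * Nm Z a b 3).trace +
        2 * (Nm Z a b 2 ^ 2).trace + 4 * (Nm Z a b 1 ^ 2 * Nm Z a b 2).trace +
        (Nm Z a b 1 ^ 4).trace := by
  have h1 := trace_word1 (Z := Z) (a := a) (b := b) 3
  have h2 := trace_word2 (Z := Z) (a := a) (b := b) 0 2
  have h2' := trace_word2 (Z := Z) (a := a) (b := b) 1 1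
  have h3 := trace_word3 (Z := Z) (a := a) (b := b) 0 0 1
  have h4 := trace_word4 (Z := Z) (a := a) (b := b) 0 0 0 0
  rw [trace_upd_pow hab hZ h 3, Zt]
  set W := (Z * Em a b - Em a b * Pm) * Bm Z a b * ((Em a b)ᵀ * Z)
  simp only [pow_zero, Matrix.one_mul, zero_add, pow_one] at h1 h2 h2' h3 h4
  simp only [Nat.reduceAdd] at h1 h2 h2' h3 h4 ⊢
  have e : (Z + W) ^ 4 = Z ^ 4 + (Z ^ 3 * W + Z ^ 2 * W * Z + Z * W * Z ^ 2 + W * Z ^ 3) +
      (W * (Z ^ 2 * W) + Z * W * W * Z + Z ^ 2 * W * W + W * W * Z ^ 2) +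
      (Z * W * (Z * W) + W * Z * W * Z) +
      (W * W * (Z * W) + W * Z * W * W + Z * W * W * W + W * W * W * Z) + W * W * W * W := by
    simp only [pow_succ, pow_zero, one_mul, add_mul, mul_add, mul_assoc]; abel
  have t1 : (Z ^ 2 * W * Z).trace = (Z ^ 3 * W).trace := by
    rw [Matrix.trace_mul_comm, ← Matrix.mul_assoc, pow_succ' Z 2]
  have t2 : (Z * W * Z ^ 2).trace = (Z ^ 3 * W).trace := by
    rw [Matrix.trace_mul_comm, ← Matrix.mul_assoc, pow_succ Z 2]
  have t3 : (W * Z ^ 3).trace = (Z ^ 3 * W).trace := Matrix.trace_mul_comm _ _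
  have t4 : (Z * W * W * Z).trace = (W * (Z ^ 2 * W)).trace := by
    rw [Matrix.trace_mul_comm, show Z * (Z * W * W) = (Z ^ 2 * W) * W by
      simp only [sq, Matrix.mul_assoc], Matrix.trace_mul_comm]
  have t5 : (Z ^ 2 * W * W).trace = (W * (Z ^ 2 * W)).trace := Matrix.trace_mul_comm _ _
  have t6 : (W * W * Z ^ 2).trace = (W * (Z ^ 2 * W)).trace := by
    rw [Matrix.trace_mul_comm, show Z ^ 2 * (W * W) = (Z ^ 2 * W) * W by
      simp only [Matrix.mul_assoc], Matrix.trace_mul_comm]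
  have t7 : (W * Z * W * Z).trace = (Z * W * (Z * W)).trace := by
    rw [Matrix.trace_mul_comm]; simp only [Matrix.mul_assoc]
  have t8 : (W * Z * W * W).trace = (W * W * (Z * W)).trace := by
    rw [Matrix.trace_mul_comm]; simp only [Matrix.mul_assoc]
  have t9 : (Z * W * W * W).trace = (W * W * (Z * W)).trace := by
    rw [Matrix.mul_assoc, Matrix.trace_mul_comm]
  have t10 : (W * W * W * Z).trace = (W * W * (Z * W)).trace := by
    rw [Matrix.trace_mul_comm, Matrix.mul_assoc W W W, ← Matrix.mul_assoc,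
      Matrix.trace_mul_comm]
  rw [e]
  simp only [Matrix.trace_add]
  rw [t1, t2, t3, t4, t5, t6, t7, t8, t9, t10, h1, h2, h2', h3, h4]
  simp only [pow_succ, pow_zero, one_mul]
  ring

/-! ### The `Ω` form -/

theorem Nm_one' (hab : a ≠ b) (hZ : Z.IsSymm) (h : al Z a b ≠ 0) :
    Nm Z a b 1 = Om Z a b 0 + Pm := by
  rw [Nm_one hab hZ h, Om, pow_zero, Matrix.one_mul, add_comm]

theorem Nm_two (hab : a ≠ b) (hZ : Z.IsSymm) (h : al Z a b ≠ 0) :
    Nm Z a b 2 = Om Z a b 1 - Om Z a b 0 * Pm - 1 := by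
  have h2 := Bm_mul_Pm hZ h
  have e1 : blk (Z ^ 3) a b = blk (Z ^ 1 * (Z ^ 2 - 1)) a b + blk Z a b := by
    rw [← blk_add]; congr 1
    simp only [pow_succ, pow_zero, one_mul, mul_sub, mul_one, mul_assoc]; abel
  have e2 : blk (Z ^ 2) a b = blk (Z ^ 0 * (Z ^ 2 - 1)) a b + 1 := by
    rw [← blk_one hab, ← blk_add]; congr 1
    simp
  unfold Nm Om
  rw [show 2 + 1 = 3 from rfl, e1, e2, Matrix.add_mul, Matrix.one_mul, Matrix.mul_sub,
    Matrix.mul_add, Matrix.mul_add, h2, Matrix.mul_assoc]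
  abel

theorem Nm_three (hab : a ≠ b) (hZ : Z.IsSymm) (h : al Z a b ≠ 0) :
    Nm Z a b 3 = Om Z a b 2 + Om Z a b 0 - Om Z a b 1 * Pm + Pm := by
  have h2 := Bm_mul_Pm hZ h
  have e1 : blk (Z ^ 4) a b = blk (Z ^ 2 * (Z ^ 2 - 1)) a b + blk (Z ^ 0 * (Z ^ 2 - 1)) a b + 1 := by
    rw [← blk_one hab, ← blk_add, ← blk_add]; congr 1
    simp only [pow_succ, pow_zero, one_mul, mul_sub, mul_one, mul_assoc]; abel
  have e2 : blk (Z ^ 3) a b = blk (Z ^ 1 * (Z ^ 2 - 1)) a b + blk Z a b := by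
    rw [← blk_add]; congr 1
    simp only [pow_succ, pow_zero, one_mul, mul_sub, mul_one, mul_assoc]; abel
  have h3 : Bm Z a b * (blk Z a b * Pm) = Bm Z a b - Pm := by
    have : Bm Z a b * blk Z a b = Bm Z a b * Pm - 1 := by rw [h2]; abel
    rw [← Matrix.mul_assoc, this, Matrix.sub_mul, Matrix.mul_assoc, Pm_mul_Pm, Matrix.mul_one,
      Matrix.one_mul]
  unfold Nm Om
  rw [show 3 + 1 = 4 from rfl, e1, e2, Matrix.add_mul, Matrix.mul_sub, Matrix.mul_add,
    Matrix.mul_add, Matrix.mul_add, h3, Matrix.mul_one, Matrix.mul_assoc]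
  abel

theorem Nm_four (hab : a ≠ b) (hZ : Z.IsSymm) (h : al Z a b ≠ 0) :
    Nm Z a b 4 = Om Z a b 3 + Om Z a b 1 - Om Z a b 2 * Pm - Om Z a b 0 * Pm - 1 := by
  have h2 := Bm_mul_Pm hZ h
  have e1 : blk (Z ^ 5) a b = blk (Z ^ 3 * (Z ^ 2 - 1)) a b + blk (Z ^ 1 * (Z ^ 2 - 1)) a b +
      blk Z a b := by
    rw [← blk_add, ← blk_add]; congr 1
    simp only [pow_succ, pow_zero, one_mul, mul_sub, mul_one, mul_assoc]; abel
  have e2 : blk (Z ^ 4) a b = blk (Z ^ 2 * (Z ^ 2 - 1)) a b + blk (Z ^ 0 * (Z ^ 2 - 1)) a b + 1 := by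
    rw [← blk_one hab, ← blk_add, ← blk_add]; congr 1
    simp only [pow_succ, pow_zero, one_mul, mul_sub, mul_one, mul_assoc]; abel
  unfold Nm Om
  rw [show 4 + 1 = 5 from rfl, e1, e2, Matrix.add_mul, Matrix.add_mul, Matrix.one_mul,
    Matrix.mul_sub, Matrix.mul_add, Matrix.mul_add, Matrix.mul_add, Matrix.mul_add, h2,
    Matrix.mul_assoc, Matrix.mul_assoc]
  abel

theorem tr_aux2 (M X : Matrix (Fin 2) (Fin 2) ℝ) :
    2 * (X - M * Pm - 1).trace + ((M + Pm) ^ 2).trace = -2 + 2 * X.trace + (M ^ 2).trace := by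
  simp only [Matrix.trace, Matrix.diag, Fin.sum_univ_two, pow_succ, pow_zero, one_mul,
    Matrix.mul_apply, Matrix.sub_apply, Matrix.add_apply, Pm, Matrix.of_apply, Matrix.cons_val_zero,
    Matrix.cons_val_one, Matrix.one_apply]
  norm_num
  ring

theorem tr_aux3 (M X Y : Matrix (Fin 2) (Fin 2) ℝ) :
    3 * (Y + M - X * Pm + Pm).trace + 3 * ((M + Pm) * (X - M * Pm - 1)).trace +
      ((M + Pm) ^ 3).trace =
    3 * Y.trace + 3 * (M * X).trace + (M ^ 3).trace := by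
  simp only [Matrix.trace, Matrix.diag, Fin.sum_univ_two, pow_succ, pow_zero, one_mul,
    Matrix.mul_apply, Matrix.sub_apply, Matrix.add_apply, Pm, Matrix.of_apply, Matrix.cons_val_zero,
    Matrix.cons_val_one, Matrix.one_apply]
  norm_num
  ring

theorem tr_aux4 (M X Y U : Matrix (Fin 2) (Fin 2) ℝ) :
    4 * (U + X - Y * Pm - M * Pm - 1).trace + 4 * ((M + Pm) * (Y + M - X * Pm + Pm)).trace +
      2 * ((X - M * Pm - 1) ^ 2).trace + 4 * ((M + Pm) ^ 2 * (X - M * Pm - 1)).trace +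
      ((M + Pm) ^ 4).trace =
    -2 + 4 * U.trace + 4 * (M * Y).trace + 2 * (X ^ 2).trace + 4 * (M ^ 2 * X).trace +
      (M ^ 4).trace := by
  simp only [Matrix.trace, Matrix.diag, Fin.sum_univ_two, pow_succ, pow_zero, one_mul,
    Matrix.mul_apply, Matrix.sub_apply, Matrix.add_apply, Pm, Matrix.of_apply, Matrix.cons_val_zero,
    Matrix.cons_val_one, Matrix.one_apply]
  norm_num
  ring

/-- `T₁' = T₁ + tr O₁` -/
theorem trace_upd_Om (hab : a ≠ b) (hZ : Z.IsSymm) (h : al Z a b ≠ 0) :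
    (upd Z a b).trace = Z.trace + (Om Z a b 0).trace := by
  rw [trace_upd_eq hab hZ h, Nm_one' hab hZ h, Matrix.trace_add]
  simp [Pm, Matrix.trace, Fin.sum_univ_two]

/-- `T₂' = T₂ - 2 + 2 tr O₂ + tr O₁²` -/
theorem trace_upd_sq_Om (hab : a ≠ b) (hZ : Z.IsSymm) (h : al Z a b ≠ 0) :
    (upd Z a b ^ 2).trace =
      (Z ^ 2).trace - 2 + 2 * (Om Z a b 1).trace + (Om Z a b 0 ^ 2).trace := by
  have := tr_aux2 (Om Z a b 0) (Om Z a b 1)
  rw [trace_upd_sq_eq hab hZ h, Nm_one' hab hZ h, Nm_two hab hZ h]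
  linarith

/-- `T₃' = T₃ + 3 tr O₃ + 3 tr (O₁ O₂) + tr O₁³` -/
theorem trace_upd_cube_Om (hab : a ≠ b) (hZ : Z.IsSymm) (h : al Z a b ≠ 0) :
    (upd Z a b ^ 3).trace =
      (Z ^ 3).trace + 3 * (Om Z a b 2).trace + 3 * (Om Z a b 0 * Om Z a b 1).trace +
        (Om Z a b 0 ^ 3).trace := by
  have := tr_aux3 (Om Z a b 0) (Om Z a b 1) (Om Z a b 2)
  rw [trace_upd_cube_eq hab hZ h, Nm_one' hab hZ h, Nm_two hab hZ h, Nm_three hab hZ h]
  linarith

/-- `T₄' = T₄ - 2 + 4 tr O₄ + 4 tr (O₁ O₃) + 2 tr O₂² + 4 tr (O₁² O₂) + tr O₁⁴` -/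
theorem trace_upd_four_Om (hab : a ≠ b) (hZ : Z.IsSymm) (h : al Z a b ≠ 0) :
    (upd Z a b ^ 4).trace =
      (Z ^ 4).trace - 2 + 4 * (Om Z a b 3).trace + 4 * (Om Z a b 0 * Om Z a b 2).trace +
        2 * (Om Z a b 1 ^ 2).trace + 4 * (Om Z a b 0 ^ 2 * Om Z a b 1).trace +
        (Om Z a b 0 ^ 4).trace := by
  have := tr_aux4 (Om Z a b 0) (Om Z a b 1) (Om Z a b 2) (Om Z a b 3)
  rw [trace_upd_four_eq hab hZ h, Nm_one' hab hZ h, Nm_two hab hZ h, Nm_three hab hZ h,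
    Nm_four hab hZ h]
  linarith

/-! ### Words in several updated matrices -/

/-- `B_X ((X u Y)₂ - (X u)₂ P)` -/
noncomputable def Nw (X u Y : Matrix ι ι ℝ) (a b : ι) : Matrix (Fin 2) (Fin 2) ℝ :=
  Bm X a b * (blk (X * u * Y) a b - blk (X * u) a b * Pm)

theorem BVuL (X u Y : Matrix ι ι ℝ) :
    Bm X a b * ((Em a b)ᵀ * X) * u * (Y * Em a b - Em a b * Pm) = Nw X u Y a b := by
  unfold Nw
  rw [← EmT_mul_mul_Em, ← EmT_mul_mul_Em, Matrix.mul_sub, Matrix.mul_sub]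
  simp only [Matrix.mul_assoc]

theorem trace_two (X Y : Matrix ι ι ℝ) :
    (Zt X a b * Zt Y a b).trace = (X * Y).trace + (Nw X Y X a b).trace + (Nw Y X Y a b).trace +
      (Nw X 1 Y a b * Nw Y 1 X a b).trace := by
  unfold Zt
  have e1 := BVuL (a := a) (b := b) X Y X
  have e2 := BVuL (a := a) (b := b) Y X Y
  have e3 := BVuL (a := a) (b := b) X 1 Y
  have e4 := BVuL (a := a) (b := b) Y 1 X
  rw [← e1, ← e2, ← e3, ← e4]
  set LX := X * Em a b - Em a b * Pm
  set LY := Y * Em a b - Em a b * Pm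
  set BX := Bm X a b
  set BY := Bm Y a b
  set VX := (Em a b)ᵀ * X
  set VY := (Em a b)ᵀ * Y
  clear_value LX LY BX BY VX VY
  have h1 : (LX * BX * VX * Y).trace = (BX * VX * Y * LX).trace := by
    rw [show LX * BX * VX * Y = LX * (BX * VX * Y) by simp only [Matrix.mul_assoc],
      Matrix.trace_mul_comm]
  have h2 : (X * (LY * BY * VY)).trace = (BY * VY * X * LY).trace := by
    rw [show X * (LY * BY * VY) = (X * LY) * (BY * VY) by simp only [Matrix.mul_assoc],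
      Matrix.trace_mul_comm]
    simp only [Matrix.mul_assoc]
  have h3 : (LX * BX * VX * (LY * BY * VY)).trace =
      (BX * VX * (1 : Matrix ι ι ℝ) * LY * (BY * VY * (1 : Matrix ι ι ℝ) * LX)).trace := by
    rw [show LX * BX * VX * (LY * BY * VY) = LX * (BX * VX * LY * (BY * VY)) by
      simp only [Matrix.mul_assoc], Matrix.trace_mul_comm]
    simp only [Matrix.mul_assoc, Matrix.one_mul]
  rw [Matrix.add_mul, Matrix.mul_add, Matrix.mul_add, Matrix.trace_add, Matrix.trace_add,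
    Matrix.trace_add, h1, h2, h3]
  ring

theorem trace_three (X Y U : Matrix ι ι ℝ) :
    (Zt X a b * Zt Y a b * Zt U a b).trace = (X * Y * U).trace +
      ((Nw X (Y * U) X a b).trace + (Nw Y (U * X) Y a b).trace + (Nw U (X * Y) U a b).trace) +
      ((Nw X 1 Y a b * Nw Y U X a b).trace + (Nw Y 1 U a b * Nw U X Y a b).trace +
        (Nw U 1 X a b * Nw X Y U a b).trace) +
      (Nw X 1 Y a b * Nw Y 1 U a b * Nw U 1 X a b).trace := by
  unfold Zt
  simp only [← BVuL]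
  set LX := X * Em a b - Em a b * Pm
  set LY := Y * Em a b - Em a b * Pm
  set LU := U * Em a b - Em a b * Pm
  set BX := Bm X a b
  set BY := Bm Y a b
  set BU := Bm U a b
  set VX := (Em a b)ᵀ * X
  set VY := (Em a b)ᵀ * Y
  set VU := (Em a b)ᵀ * U
  clear_value LX LY LU BX BY BU VX VY VU
  have h1 : (LX * BX * VX * Y * U).trace = (BX * VX * (Y * U) * LX).trace := by
    rw [show LX * BX * VX * Y * U = LX * (BX * VX * (Y * U)) by simp only [Matrix.mul_assoc],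
      Matrix.trace_mul_comm]
  have h2 : (X * (LY * BY * VY) * U).trace = (BY * VY * (U * X) * LY).trace := by
    rw [show X * (LY * BY * VY) * U = (X * LY) * (BY * VY * U) by simp only [Matrix.mul_assoc],
      Matrix.trace_mul_comm]
    simp only [Matrix.mul_assoc]
  have h3 : (X * Y * (LU * BU * VU)).trace = (BU * VU * (X * Y) * LU).trace := by
    rw [show X * Y * (LU * BU * VU) = (X * Y * LU) * (BU * VU) by simp only [Matrix.mul_assoc],
      Matrix.trace_mul_comm]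
    simp only [Matrix.mul_assoc]
  have h4 : (LX * BX * VX * (LY * BY * VY) * U).trace =
      (BX * VX * (1 : Matrix ι ι ℝ) * LY * (BY * VY * U * LX)).trace := by
    rw [show LX * BX * VX * (LY * BY * VY) * U = LX * (BX * VX * LY * (BY * VY * U)) by
      simp only [Matrix.mul_assoc], Matrix.trace_mul_comm]
    simp only [Matrix.mul_assoc, Matrix.one_mul]
  have h5 : (X * (LY * BY * VY) * (LU * BU * VU)).trace =
      (BY * VY * (1 : Matrix ι ι ℝ) * LU * (BU * VU * X * LY)).trace := by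
    rw [show X * (LY * BY * VY) * (LU * BU * VU) = (X * LY) * (BY * VY * LU * (BU * VU)) by
      simp only [Matrix.mul_assoc], Matrix.trace_mul_comm]
    simp only [Matrix.mul_assoc, Matrix.one_mul]
  have h6 : (LX * BX * VX * Y * (LU * BU * VU)).trace =
      (BU * VU * (1 : Matrix ι ι ℝ) * LX * (BX * VX * Y * LU)).trace := by
    rw [show LX * BX * VX * Y * (LU * BU * VU) = (LX * (BX * VX * Y * LU)) * (BU * VU) by
      simp only [Matrix.mul_assoc], Matrix.trace_mul_comm]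
    simp only [Matrix.mul_assoc, Matrix.one_mul]
  have h7 : (LX * BX * VX * (LY * BY * VY) * (LU * BU * VU)).trace =
      (BX * VX * (1 : Matrix ι ι ℝ) * LY * (BY * VY * (1 : Matrix ι ι ℝ) * LU) * (BU * VU * (1 : Matrix ι ι ℝ) * LX)).trace := by
    rw [show LX * BX * VX * (LY * BY * VY) * (LU * BU * VU) =
      LX * (BX * VX * LY * (BY * VY * LU) * (BU * VU)) by
      simp only [Matrix.mul_assoc], Matrix.trace_mul_comm]
    simp only [Matrix.mul_assoc, Matrix.one_mul]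
  rw [← h1, ← h2, ← h3, ← h4, ← h5, ← h6, ← h7]
  simp only [← Matrix.trace_add]
  congr 1
  simp only [Matrix.add_mul, Matrix.mul_add]
  abel

end Vale.Agent.P049.TS
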