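import Vale.Agent.P049.TS.Shell.Join3

/-!
Exact one-step algebra, part 4: traces of words of length four, row sums.
-/

set_option linter.unusedSectionVars false
set_option linter.unusedSimpArgs false
set_option linter.unusedVariables false

namespace Vale.Agent.P049.TS

open Matrix Finset

variable {ι : Type*} [Fintype ι] [DecidableEq ι] {a b : ι}

theorem trace_four (X Y U T : Matrix ι ι ℝ) :
    (Zt X a b * Zt Y a b * Zt U a b * Zt T a b).trace = (X * Y * U * T).trace +
      ((Nw X (Y * U * T) X a b).trace +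
        (Nw Y (U * T * X) Y a b).trace +
        (Nw U (T * X * Y) U a b).trace +
        (Nw T (X * Y * U) T a b).trace) +
      ((Nw X (1 : Matrix ι ι ℝ) Y a b * Nw Y (U * T) X a b).trace +
        (Nw X Y U a b * Nw U T X a b).trace +
        (Nw X (Y * U) T a b * Nw T (1 : Matrix ι ι ℝ) X a b).trace +
        (Nw Y (1 : Matrix ι ι ℝ) U a b * Nw U (T * X) Y a b).trace +
        (Nw Y U T a b * Nw T X Y a b).trace +
        (Nw U (1 : Matrix ι ι ℝ) T a b * Nw T (X * Y) U a b).trace) +
      ((Nw X (1 : Matrix ι ι ℝ) Y a b * Nw Y (1 : Matrix ι ι ℝ) U a b * Nw U T X a b).trace +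
        (Nw X (1 : Matrix ι ι ℝ) Y a b * Nw Y U T a b * Nw T (1 : Matrix ι ι ℝ) X a b).trace +
        (Nw X Y U a b * Nw U (1 : Matrix ι ι ℝ) T a b * Nw T (1 : Matrix ι ι ℝ) X a b).trace +
        (Nw Y (1 : Matrix ι ι ℝ) U a b * Nw U (1 : Matrix ι ι ℝ) T a b * Nw T X Y a b).trace) +
      ((Nw X (1 : Matrix ι ι ℝ) Y a b * Nw Y (1 : Matrix ι ι ℝ) U a b * Nw U (1 : Matrix ι ι ℝ) T a b * Nw T (1 : Matrix ι ι ℝ) X a b).trace) := by
  unfold Zt
  simp only [← BVuL]
  set LX := X * Em a b - Em a b * Pm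
  set LY := Y * Em a b - Em a b * Pm
  set LU := U * Em a b - Em a b * Pm
  set LT := T * Em a b - Em a b * Pm
  set BX := Bm X a b
  set BY := Bm Y a b
  set BU := Bm U a b
  set BT := Bm T a b
  set VX := (Em a b)ᵀ * X
  set VY := (Em a b)ᵀ * Y
  set VU := (Em a b)ᵀ * U
  set VT := (Em a b)ᵀ * T
  clear_value LX BX VX LY BY VY LU BU VU LT BT VT
  have h0 : ((LX * BX * VX) * Y * U * T).trace =
      ((BX * VX * (Y * U * T) * LX)).trace := by
    rw [show (LX * BX * VX) * Y * U * T = (LX) * (BX * VX * Y * U * T) by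
      simp only [Matrix.mul_assoc], Matrix.trace_mul_comm]
    simp only [Matrix.mul_assoc, Matrix.one_mul]
  have h1 : (X * (LY * BY * VY) * U * T).trace =
      ((BY * VY * (U * T * X) * LY)).trace := by
    rw [show X * (LY * BY * VY) * U * T = (X * LY) * (BY * VY * U * T) by
      simp only [Matrix.mul_assoc], Matrix.trace_mul_comm]
    simp only [Matrix.mul_assoc, Matrix.one_mul]
  have h2 : (X * Y * (LU * BU * VU) * T).trace =
      ((BU * VU * (T * X * Y) * LU)).trace := by
    rw [show X * Y * (LU * BU * VU) * T = (X * Y * LU) * (BU * VU * T) by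
      simp only [Matrix.mul_assoc], Matrix.trace_mul_comm]
    simp only [Matrix.mul_assoc, Matrix.one_mul]
  have h3 : (X * Y * U * (LT * BT * VT)).trace =
      ((BT * VT * (X * Y * U) * LT)).trace := by
    rw [show X * Y * U * (LT * BT * VT) = (X * Y * U * LT) * (BT * VT) by
      simp only [Matrix.mul_assoc], Matrix.trace_mul_comm]
    simp only [Matrix.mul_assoc, Matrix.one_mul]
  have h4 : ((LX * BX * VX) * (LY * BY * VY) * U * T).trace =
      ((BX * VX * (1 : Matrix ι ι ℝ) * LY) * (BY * VY * (U * T) * LX)).trace := by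
    rw [show (LX * BX * VX) * (LY * BY * VY) * U * T = (LX) * (BX * VX * LY * BY * VY * U * T) by
      simp only [Matrix.mul_assoc], Matrix.trace_mul_comm]
    simp only [Matrix.mul_assoc, Matrix.one_mul]
  have h5 : ((LX * BX * VX) * Y * (LU * BU * VU) * T).trace =
      ((BX * VX * Y * LU) * (BU * VU * T * LX)).trace := by
    rw [show (LX * BX * VX) * Y * (LU * BU * VU) * T = (LX) * (BX * VX * Y * LU * BU * VU * T) by
      simp only [Matrix.mul_assoc], Matrix.trace_mul_comm]
    simp only [Matrix.mul_assoc, Matrix.one_mul]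
  have h6 : ((LX * BX * VX) * Y * U * (LT * BT * VT)).trace =
      ((BX * VX * (Y * U) * LT) * (BT * VT * (1 : Matrix ι ι ℝ) * LX)).trace := by
    rw [show (LX * BX * VX) * Y * U * (LT * BT * VT) = (LX) * (BX * VX * Y * U * LT * BT * VT) by
      simp only [Matrix.mul_assoc], Matrix.trace_mul_comm]
    simp only [Matrix.mul_assoc, Matrix.one_mul]
  have h7 : (X * (LY * BY * VY) * (LU * BU * VU) * T).trace =
      ((BY * VY * (1 : Matrix ι ι ℝ) * LU) * (BU * VU * (T * X) * LY)).trace := by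
    rw [show X * (LY * BY * VY) * (LU * BU * VU) * T = (X * LY) * (BY * VY * LU * BU * VU * T) by
      simp only [Matrix.mul_assoc], Matrix.trace_mul_comm]
    simp only [Matrix.mul_assoc, Matrix.one_mul]
  have h8 : (X * (LY * BY * VY) * U * (LT * BT * VT)).trace =
      ((BY * VY * U * LT) * (BT * VT * X * LY)).trace := by
    rw [show X * (LY * BY * VY) * U * (LT * BT * VT) = (X * LY) * (BY * VY * U * LT * BT * VT) by
      simp only [Matrix.mul_assoc], Matrix.trace_mul_comm]
    simp only [Matrix.mul_assoc, Matrix.one_mul]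
  have h9 : (X * Y * (LU * BU * VU) * (LT * BT * VT)).trace =
      ((BU * VU * (1 : Matrix ι ι ℝ) * LT) * (BT * VT * (X * Y) * LU)).trace := by
    rw [show X * Y * (LU * BU * VU) * (LT * BT * VT) = (X * Y * LU) * (BU * VU * LT * BT * VT) by
      simp only [Matrix.mul_assoc], Matrix.trace_mul_comm]
    simp only [Matrix.mul_assoc, Matrix.one_mul]
  have h10 : ((LX * BX * VX) * (LY * BY * VY) * (LU * BU * VU) * T).trace =
      ((BX * VX * (1 : Matrix ι ι ℝ) * LY) * (BY * VY * (1 : Matrix ι ι ℝ) * LU) * (BU * VU * T * LX)).trace := by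
    rw [show (LX * BX * VX) * (LY * BY * VY) * (LU * BU * VU) * T = (LX) * (BX * VX * LY * BY * VY * LU * BU * VU * T) by
      simp only [Matrix.mul_assoc], Matrix.trace_mul_comm]
    simp only [Matrix.mul_assoc, Matrix.one_mul]
  have h11 : ((LX * BX * VX) * (LY * BY * VY) * U * (LT * BT * VT)).trace =
      ((BX * VX * (1 : Matrix ι ι ℝ) * LY) * (BY * VY * U * LT) * (BT * VT * (1 : Matrix ι ι ℝ) * LX)).trace := by
    rw [show (LX * BX * VX) * (LY * BY * VY) * U * (LT * BT * VT) = (LX) * (BX * VX * LY * BY * VY * U * LT * BT * VT) by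
      simp only [Matrix.mul_assoc], Matrix.trace_mul_comm]
    simp only [Matrix.mul_assoc, Matrix.one_mul]
  have h12 : ((LX * BX * VX) * Y * (LU * BU * VU) * (LT * BT * VT)).trace =
      ((BX * VX * Y * LU) * (BU * VU * (1 : Matrix ι ι ℝ) * LT) * (BT * VT * (1 : Matrix ι ι ℝ) * LX)).trace := by
    rw [show (LX * BX * VX) * Y * (LU * BU * VU) * (LT * BT * VT) = (LX) * (BX * VX * Y * LU * BU * VU * LT * BT * VT) by
      simp only [Matrix.mul_assoc], Matrix.trace_mul_comm]
    simp only [Matrix.mul_assoc, Matrix.one_mul]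
  have h13 : (X * (LY * BY * VY) * (LU * BU * VU) * (LT * BT * VT)).trace =
      ((BY * VY * (1 : Matrix ι ι ℝ) * LU) * (BU * VU * (1 : Matrix ι ι ℝ) * LT) * (BT * VT * X * LY)).trace := by
    rw [show X * (LY * BY * VY) * (LU * BU * VU) * (LT * BT * VT) = (X * LY) * (BY * VY * LU * BU * VU * LT * BT * VT) by
      simp only [Matrix.mul_assoc], Matrix.trace_mul_comm]
    simp only [Matrix.mul_assoc, Matrix.one_mul]
  have h14 : ((LX * BX * VX) * (LY * BY * VY) * (LU * BU * VU) * (LT * BT * VT)).trace =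
      ((BX * VX * (1 : Matrix ι ι ℝ) * LY) * (BY * VY * (1 : Matrix ι ι ℝ) * LU) * (BU * VU * (1 : Matrix ι ι ℝ) * LT) * (BT * VT * (1 : Matrix ι ι ℝ) * LX)).trace := by
    rw [show (LX * BX * VX) * (LY * BY * VY) * (LU * BU * VU) * (LT * BT * VT) = (LX) * (BX * VX * LY * BY * VY * LU * BU * VU * LT * BT * VT) by
      simp only [Matrix.mul_assoc], Matrix.trace_mul_comm]
    simp only [Matrix.mul_assoc, Matrix.one_mul]
  rw [← h0, ← h1, ← h2, ← h3, ← h4, ← h5, ← h6, ← h7, ← h8, ← h9, ← h10, ← h11, ← h12, ← h13, ← h14]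
  simp only [← Matrix.trace_add]
  congr 1
  simp only [Matrix.add_mul, Matrix.mul_add]
  abel

variable {Z W : Matrix ι ι ℝ}

/-- the trace of a word of length three in updated matrices -/
theorem trace_upd_three (hab : a ≠ b) {X Y U : Matrix ι ι ℝ} (hX : X.IsSymm) (h : al X a b ≠ 0)
    (hY : Y.IsSymm) (h' : al Y a b ≠ 0) (hU : U.IsSymm) (h'' : al U a b ≠ 0) :
    (upd X a b * upd Y a b * upd U a b).trace = (Zt X a b * Zt Y a b * Zt U a b).trace := by
  rw [upd_mul_upd hab hX h hY h', upd_eq hab hU h'']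
  have : Zt X a b * Zt Y a b * Qm a b * (Zt U a b * Qm a b) =
      Zt X a b * Zt Y a b * (Qm a b * Zt U a b) * Qm a b := by simp only [Matrix.mul_assoc]
  rw [this, Qm_mul_Zt hab hU h'', Matrix.trace_mul_comm]
  have : Qm a b * (Zt X a b * Zt Y a b * Zt U a b) =
      (Qm a b * Zt X a b) * Zt Y a b * Zt U a b := by simp only [Matrix.mul_assoc]
  rw [this, Qm_mul_Zt hab hX h]

/-- the trace of a word of length four in updated matrices -/
theorem trace_upd_four (hab : a ≠ b) {X Y U T : Matrix ι ι ℝ} (hX : X.IsSymm)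
    (h : al X a b ≠ 0) (hY : Y.IsSymm) (h' : al Y a b ≠ 0) (hU : U.IsSymm) (h'' : al U a b ≠ 0)
    (hT : T.IsSymm) (h3 : al T a b ≠ 0) :
    (upd X a b * upd Y a b * upd U a b * upd T a b).trace =
      (Zt X a b * Zt Y a b * Zt U a b * Zt T a b).trace := by
  rw [Matrix.mul_assoc (upd X a b * upd Y a b), upd_mul_upd hab hX h hY h',
    upd_mul_upd hab hU h'' hT h3]
  have : Zt X a b * Zt Y a b * Qm a b * (Zt U a b * Zt T a b * Qm a b) =
      Zt X a b * Zt Y a b * (Qm a b * Zt U a b) * Zt T a b * Qm a b := by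
    simp only [Matrix.mul_assoc]
  rw [this, Qm_mul_Zt hab hU h'', Matrix.trace_mul_comm]
  have : Qm a b * (Zt X a b * Zt Y a b * Zt U a b * Zt T a b) =
      (Qm a b * Zt X a b) * Zt Y a b * Zt U a b * Zt T a b := by simp only [Matrix.mul_assoc]
  rw [this, Qm_mul_Zt hab hX h]

/-! ### Row sums -/

theorem ca_cb_left (hZ : Z.IsSymm) (h : al Z a b ≠ 0) (i : ι) :
    ca Z a b i * Z a a + cb Z a b i * Z a b = cb Z a b i - Z a i := by
  unfold ca cb
  field_simp
  simp only [al]
  ring

theorem ca_cb_right (hZ : Z.IsSymm) (h : al Z a b ≠ 0) (i : ι) :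
    ca Z a b i * Z a b + cb Z a b i * Z b b = ca Z a b i - Z b i := by
  unfold ca cb
  field_simp
  simp only [al]
  ring

theorem sum_erase_two (hab : a ≠ b) (f : ι → ℝ) :
    ∑ i, (if i = a ∨ i = b then 0 else f i) = ∑ i, f i - f a - f b := by
  have : ∀ i, (if i = a ∨ i = b then 0 else f i) =
      f i - (if i = a then f a else 0) - (if i = b then f b else 0) := by
    intro i
    by_cases h1 : i = a
    · subst h1; simp [hab]
    · by_cases h2 : i = b
      · subst h2; simp [h1]
      · simp [h1, h2]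
  simp only [this, Finset.sum_sub_distrib, Finset.sum_ite_eq', Finset.mem_univ, if_true]

/-- row sums of the updated matrix -/
theorem upd_rowsum (hab : a ≠ b) (hZ : Z.IsSymm) (h : al Z a b ≠ 0) (i : ι) (hia : i ≠ a)
    (hib : i ≠ b) :
    ∑ j, upd Z a b i j = ∑ j, Z i j + ca Z a b i * (∑ j, Z a j - 1) +
      cb Z a b i * (∑ j, Z b j - 1) := by
  have h1 : ∀ j, upd Z a b i j = if j = a ∨ j = b then 0 else
      Z i j + ca Z a b i * Z a j + cb Z a b i * Z b j := by
    intro j
    by_cases hj : j = a ∨ j = b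
    · rw [if_pos hj]; simp only [upd, Matrix.of_apply]; rw [if_pos (by tauto)]
    · rw [if_neg hj]; push Not at hj; exact upd_apply' hZ i j hia hib hj.1 hj.2
  have h2 := ca_cb_left (a := a) (b := b) hZ h i
  have h3 := ca_cb_right (a := a) (b := b) hZ h i
  have hs : Z b a = Z a b := hZ.apply a b
  simp only [h1]
  rw [sum_erase_two hab, Finset.sum_add_distrib, Finset.sum_add_distrib, ← Finset.mul_sum,
    ← Finset.mul_sum, hs, hZ.apply a i, hZ.apply b i]
  linarith

theorem upd_rowsum_zero (i : ι) (hi : i = a ∨ i = b) : ∑ j, upd Z a b i j = 0 := by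
  apply Finset.sum_eq_zero
  intro j _
  simp only [upd, Matrix.of_apply]
  rw [if_pos (by tauto)]

/-- first component of `θ = B (V 1 - P 1)` -/
noncomputable def tha (Z : Matrix ι ι ℝ) (a b : ι) : ℝ :=
  (al Z a b)⁻¹ * (Z b b * (∑ j, Z a j - 1) + (1 - Z a b) * (∑ j, Z b j - 1))

/-- second component of `θ = B (V 1 - P 1)` -/
noncomputable def thb (Z : Matrix ι ι ℝ) (a b : ι) : ℝ :=
  (al Z a b)⁻¹ * ((1 - Z a b) * (∑ j, Z a j - 1) + Z a a * (∑ j, Z b j - 1))

theorem sum_ca (Z : Matrix ι ι ℝ) : ∑ i, ca Z a b i =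
    (al Z a b)⁻¹ * (Z b b * ∑ j, Z a j + (1 - Z a b) * ∑ j, Z b j) := by
  simp only [ca, ← Finset.mul_sum, Finset.sum_add_distrib]

theorem sum_cb (Z : Matrix ι ι ℝ) : ∑ i, cb Z a b i =
    (al Z a b)⁻¹ * ((1 - Z a b) * ∑ j, Z a j + Z a a * ∑ j, Z b j) := by
  simp only [cb, ← Finset.mul_sum, Finset.sum_add_distrib]

/-- row sums of `R`: `R 1 = 1 + E θ` -/
theorem Rm_rowsum (hab : a ≠ b) (hZ : Z.IsSymm) (h : al Z a b ≠ 0) (k : ι) :
    ∑ i, Rm Z a b k i = 1 + (if k = a then tha Z a b else 0) + (if k = b then thb Z a b else 0) := by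
  have h1 : ∀ i, Rm Z a b k i = if i = a ∨ i = b then 0 else
      ((if k = i then 1 else 0) + (if k = a then ca Z a b i else 0) +
      (if k = b then cb Z a b i else 0)) := by
    intro i
    by_cases hi : i = a ∨ i = b
    · rw [if_pos hi, Rm_apply_a hab k i hi]
    · rw [if_neg hi]; push Not at hi; exact Rm_apply hab k i hi.1 hi.2
  have hs : Z b a = Z a b := hZ.apply a b
  have e1 : ∑ i, ca Z a b i - ca Z a b a - ca Z a b b = 1 + tha Z a b := by
    rw [sum_ca, ca, ca, tha, hs]
    field_simp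
    simp only [al]
    ring
  have e2 : ∑ i, cb Z a b i - cb Z a b a - cb Z a b b = 1 + thb Z a b := by
    rw [sum_cb, cb, cb, thb, hs]
    field_simp
    simp only [al]
    ring
  simp only [h1]
  rw [sum_erase_two hab]
  by_cases hka : k = a
  · subst hka
    simp only [if_true, hab, if_false, add_zero, Finset.sum_add_distrib, Finset.sum_ite_eq,
      Finset.mem_univ]
    linarith
  · by_cases hkb : k = b
    · subst hkb
      simp only [if_true, hab.symm, if_false, add_zero, Finset.sum_add_distrib, Finset.sum_ite_eq,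
        Finset.mem_univ]
      linarith
    · simp [hka, hkb]

/-- the sum of all entries of the updated matrix -/
theorem upd_sum (hab : a ≠ b) (hZ : Z.IsSymm) (h : al Z a b ≠ 0) :
    ∑ i, ∑ j, upd Z a b i j = ∑ i, ∑ j, Z i j - 2 +
      (tha Z a b * (∑ j, Z a j - 1) + thb Z a b * (∑ j, Z b j - 1)) := by
  have h1 : ∀ i, ∑ j, upd Z a b i j = if i = a ∨ i = b then 0 else
      (∑ j, Z i j + ca Z a b i * (∑ j, Z a j - 1) + cb Z a b i * (∑ j, Z b j - 1)) := by
    intro i
    by_cases hi : i = a ∨ i = b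
    · rw [if_pos hi, upd_rowsum_zero i hi]
    · rw [if_neg hi]; push Not at hi; exact upd_rowsum hab hZ h i hi.1 hi.2
  have hs : Z b a = Z a b := hZ.apply a b
  simp only [h1]
  rw [sum_erase_two hab, Finset.sum_add_distrib, Finset.sum_add_distrib, ← Finset.sum_mul,
    ← Finset.sum_mul, sum_ca, sum_cb, ca, ca, cb, cb, tha, thb, hs]
  field_simp
  simp only [al]
  ring

theorem quad_two (hab : a ≠ b) (M : Matrix ι ι ℝ) (x y u v : ℝ) :
    ∑ i, ∑ j, (1 + (if i = a then x else 0) + (if i = b then y else 0)) * M i j *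
      (1 + (if j = a then u else 0) + (if j = b then v else 0)) =
    ∑ i, ∑ j, M i j + (x * ∑ j, M a j + y * ∑ j, M b j) +
      (u * ∑ i, M i a + v * ∑ i, M i b) +
      (x * (u * M a a + v * M a b) + y * (u * M b a + v * M b b)) := by
  have h1 : ∀ i, ∑ j, (1 + (if i = a then x else 0) + (if i = b then y else 0)) * M i j *
      (1 + (if j = a then u else 0) + (if j = b then v else 0)) =
      (1 + (if i = a then x else 0) + (if i = b then y else 0)) *
        (∑ j, M i j + u * M i a + v * M i b) := by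
    intro i
    simp only [mul_assoc]
    rw [← Finset.mul_sum]
    congr 1
    simp only [mul_add, mul_one, mul_ite, mul_zero, Finset.sum_add_distrib, Finset.sum_ite_eq',
      Finset.mem_univ, if_true]
    ring
  simp only [h1]
  simp only [add_mul, one_mul, ite_mul, zero_mul, Finset.sum_add_distrib, Finset.sum_ite_eq',
    Finset.mem_univ, if_true, ← Finset.mul_sum]
  ring

/-- the sum of all entries of the product of two updated matrices -/
theorem upd_mul_upd_sum (hab : a ≠ b) (hZ : Z.IsSymm) (h : al Z a b ≠ 0)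
    (hW : W.IsSymm) (h' : al W a b ≠ 0) :
    ∑ i, ∑ j, (upd Z a b * upd W a b) i j = ∑ i, ∑ j, (Z * W) i j - 2 +
      (tha Z a b * (∑ j, (Z * W) a j - 1) + thb Z a b * (∑ j, (Z * W) b j - 1)) +
      (tha W a b * (∑ i, (Z * W) i a - 1) + thb W a b * (∑ i, (Z * W) i b - 1)) +
      (tha Z a b * (tha W a b * ((Z * W) a a - 1) + thb W a b * (Z * W) a b) +
        thb Z a b * (tha W a b * (Z * W) b a + thb W a b * ((Z * W) b b - 1))) := by
  rw [upd_mul_upd_eq hab hZ h hW h']
  set M := Z * W - 1 with hM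
  have hQ : ∑ i, ∑ j, Qm a b i j = (Fintype.card ι : ℝ) - 2 := by
    have : ∀ i, ∑ j, Qm a b i j = if i = a ∨ i = b then 0 else 1 := by
      intro i
      simp only [Qm_apply hab]
      by_cases hi : i = a ∨ i = b
      · rw [if_pos hi]
        apply Finset.sum_eq_zero
        intro j _
        rw [if_neg (by tauto)]
      · rw [if_neg hi]
        push Not at hi
        simp [hi.1, hi.2]
    simp only [this]
    rw [sum_erase_two hab]
    simp
    ring
  have hR : ∑ i, ∑ j, ((Rm Z a b)ᵀ * M * Rm W a b) i j =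
      ∑ i, ∑ j, (1 + (if i = a then tha Z a b else 0) + (if i = b then thb Z a b else 0)) * M i j *
      (1 + (if j = a then tha W a b else 0) + (if j = b then thb W a b else 0)) := by
    have e1 : ∀ i j, ((Rm Z a b)ᵀ * M * Rm W a b) i j =
        ∑ k, ∑ l, Rm Z a b k i * M k l * Rm W a b l j := by
      intro i j
      rw [Matrix.mul_apply]
      simp only [Matrix.mul_apply, Matrix.transpose_apply, Finset.sum_mul]
      rw [Finset.sum_comm]
    simp only [e1]
    have e2 : ∀ i, ∑ j, ∑ k, ∑ l, Rm Z a b k i * M k l * Rm W a b l j =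
        ∑ k, ∑ l, Rm Z a b k i * M k l * ∑ j, Rm W a b l j := by
      intro i
      rw [Finset.sum_comm]
      apply Finset.sum_congr rfl
      intro k _
      rw [Finset.sum_comm]
      apply Finset.sum_congr rfl
      intro l _
      rw [Finset.mul_sum]
    simp only [e2]
    rw [Finset.sum_comm]
    apply Finset.sum_congr rfl
    intro k _
    rw [Finset.sum_comm]
    apply Finset.sum_congr rfl
    intro l _
    rw [← Finset.sum_mul, ← Finset.sum_mul, Rm_rowsum hab hZ h, Rm_rowsum hab hW h']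
  have hM1 : ∑ i, ∑ j, M i j = ∑ i, ∑ j, (Z * W) i j - Fintype.card ι := by
    simp [hM, Matrix.sub_apply, Matrix.one_apply, Finset.sum_sub_distrib]
  have hMr : ∀ i, ∑ j, M i j = ∑ j, (Z * W) i j - 1 := by
    intro i
    simp [hM, Matrix.sub_apply, Matrix.one_apply, Finset.sum_sub_distrib]
  have hMc : ∀ j, ∑ i, M i j = ∑ i, (Z * W) i j - 1 := by
    intro i
    simp [hM, Matrix.sub_apply, Matrix.one_apply, Finset.sum_sub_distrib]
  have hMaa : M a a = (Z * W) a a - 1 := by simp [hM]
  have hMbb : M b b = (Z * W) b b - 1 := by simp [hM]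
  have hMab : M a b = (Z * W) a b := by simp [hM, hab]
  have hMba : M b a = (Z * W) b a := by simp [hM, hab.symm]
  simp only [Matrix.add_apply, Finset.sum_add_distrib]
  rw [hQ, hR, quad_two hab, hM1, hMr, hMr, hMc, hMc, hMaa, hMbb, hMab, hMba]
  ring

/-- the sum of the squares of the row sums -/
theorem upd_sum_sq (hab : a ≠ b) (hZ : Z.IsSymm) (h : al Z a b ≠ 0) :
    ∑ i, (∑ j, upd Z a b i j) ^ 2 = ∑ i, (∑ j, Z i j) ^ 2 - 2 +
      2 * (tha Z a b * (∑ j, (Z ^ 2) a j - 1) + thb Z a b * (∑ j, (Z ^ 2) b j - 1)) +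
      (tha Z a b ^ 2 * ((Z ^ 2) a a - 1) + 2 * (tha Z a b * thb Z a b) * (Z ^ 2) a b +
        thb Z a b ^ 2 * ((Z ^ 2) b b - 1)) := by
  have key : ∀ X : Matrix ι ι ℝ, X.IsSymm → ∑ i, (∑ j, X i j) ^ 2 = ∑ i, ∑ j, (X * X) i j := by
    intro X hX
    have : ∀ i, ∑ j, (X * X) i j = ∑ k, X i k * ∑ j, X k j := by
      intro i
      simp only [Matrix.mul_apply, Finset.mul_sum]
      rw [Finset.sum_comm]
    simp only [this]
    rw [Finset.sum_comm]
    apply Finset.sum_congr rfl
    intro k _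
    rw [← Finset.sum_mul, sq]
    congr 1
    exact Finset.sum_congr rfl fun i _ => (hX.apply i k)
  have hs : (Z ^ 2).IsSymm := by rw [Matrix.IsSymm, Matrix.transpose_pow, hZ.eq]
  have h1 : ∀ x, ∑ i, (Z ^ 2) i x = ∑ j, (Z ^ 2) x j := fun x =>
    Finset.sum_congr rfl fun i _ => hs.apply x i
  have h2 : (Z ^ 2) b a = (Z ^ 2) a b := hs.apply a b
  rw [key _ (upd_isSymm hZ), key _ hZ, upd_mul_upd_sum hab hZ h hZ h, ← sq Z, h1, h1, h2]
  ring

end Vale.Agent.P049.TS
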