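import Vale.Agent.P049.TS.Shell.Final

/-!
From the quadratic form bound on `1^⊥` to the Ramanujan property.
-/

set_option linter.unusedSectionVars false

namespace Vale.Agent.P049.TS

open Matrix Finset

variable {V : Type*} [Fintype V] [DecidableEq V]

theorem roots_of_quad {A : Matrix V V ℝ} (hA : A.IsSymm) (d r : ℝ) (hdr : r < d)
    [Nonempty V] (h1 : A *ᵥ (fun _ => 1) = d • (fun _ => 1))
    (hq : ∀ x : V → ℝ, ∑ v, x v = 0 → x ⬝ᵥ (A *ᵥ x) ≤ r * (x ⬝ᵥ x) ∧
      -(r * (x ⬝ᵥ x)) ≤ x ⬝ᵥ (A *ᵥ x)) :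
    ∃ s : Multiset ℝ, A.charpoly.roots = d ::ₘ s ∧ ∀ t ∈ s, t ≤ r ∧ -r ≤ t := by
  have hH : A.IsHermitian := by
    rw [Matrix.IsHermitian, Matrix.conjTranspose_eq_transpose_of_trivial]; exact hA
  set b := hH.eigenvectorBasis with hb
  have hbe : ∀ j, A *ᵥ (b j).ofLp = hH.eigenvalues j • (b j).ofLp := fun j =>
    hH.mulVec_eigenvectorBasis j
  have hroots := hH.roots_charpoly_eq_eigenvalues
  have hdot : ∀ i j, (b i).ofLp ⬝ᵥ (b j).ofLp = if i = j then 1 else 0 := by
    intro i j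
    have := b.inner_eq_ite i j
    rw [EuclideanSpace.inner_eq_star_dotProduct] at this
    simp only [star_trivial] at this
    rw [dotProduct_comm]
    exact_mod_cast this
  have hsym : ∀ x y : V → ℝ, x ⬝ᵥ (A *ᵥ y) = y ⬝ᵥ (A *ᵥ x) := quad_symm hA
  -- eigenvectors for eigenvalues `≠ d` are orthogonal to `1`
  have horth : ∀ j, hH.eigenvalues j ≠ d → ∑ v, (b j).ofLp v = 0 := by
    intro j hj
    have e1 := hsym (fun _ => (1 : ℝ)) (b j).ofLp
    rw [hbe, h1, dotProduct_smul, dotProduct_smul, dotProduct_comm (b j).ofLp, smul_eq_mul,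
      smul_eq_mul] at e1
    have e2 : (fun _ : V => (1 : ℝ)) ⬝ᵥ (b j).ofLp = ∑ v, (b j).ofLp v := by
      simp [dotProduct]
    rw [e2] at e1
    have e3 : (hH.eigenvalues j - d) * ∑ v, (b j).ofLp v = 0 := by linarith
    exact (mul_eq_zero.1 e3).resolve_left (sub_ne_zero.2 hj)
  have hne : ∀ j, hH.eigenvalues j ≠ d → hH.eigenvalues j ≤ r ∧ -r ≤ hH.eigenvalues j := by
    intro j hj
    have h2 := hq _ (horth j hj)
    rw [hbe, dotProduct_smul, hdot, if_pos rfl, smul_eq_mul, mul_one, mul_one] at h2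
    exact h2
  -- at most one eigenvalue equal to `d`
  have huniq : ∀ i j, hH.eigenvalues i = d → hH.eigenvalues j = d → i = j := by
    intro i j hi hj
    by_contra hij
    set ci := ∑ v, (b i).ofLp v with hci
    set cj := ∑ v, (b j).ofLp v with hcj
    have hx : ∀ α β : ℝ, α * ci + β * cj = 0 → α = 0 ∧ β = 0 := by
      intro α β h0
      have hs : ∑ v, (α • (b i).ofLp + β • (b j).ofLp) v = 0 := by
        simp only [Pi.add_apply, Pi.smul_apply, smul_eq_mul, Finset.sum_add_distrib,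
          ← Finset.mul_sum]
        exact h0
      have h2 := (hq _ hs).1
      have hAx : A *ᵥ (α • (b i).ofLp + β • (b j).ofLp) =
          d • (α • (b i).ofLp + β • (b j).ofLp) := by
        rw [Matrix.mulVec_add, Matrix.mulVec_smul, Matrix.mulVec_smul, hbe, hbe, hi, hj, smul_add,
          smul_comm d α, smul_comm d β]
      have hn : (α • (b i).ofLp + β • (b j).ofLp) ⬝ᵥ (α • (b i).ofLp + β • (b j).ofLp) =
          α ^ 2 + β ^ 2 := by
        simp only [dotProduct_add, add_dotProduct, dotProduct_smul, smul_dotProduct, hdot, hij,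
          Ne.symm hij, smul_eq_mul, if_true, if_false]
        ring
      rw [hAx, dotProduct_smul, hn, smul_eq_mul] at h2
      have h3 : 0 < d - r := by linarith
      have h4 : (d - r) * (α ^ 2 + β ^ 2) ≤ 0 := by linarith
      have h5 : α ^ 2 + β ^ 2 ≤ 0 := by
        by_contra h6
        push Not at h6
        have := mul_pos h3 h6
        linarith
      constructor <;> nlinarith [sq_nonneg α, sq_nonneg β]
    have h6 := hx cj (-ci) (by ring)
    have hcj0 : cj = 0 := h6.1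
    have h7 := hx 0 1 (by rw [hcj0]; ring)
    exact one_ne_zero h7.2
  -- `d` is an eigenvalue
  have hex : ∃ j, hH.eigenvalues j = d := by
    by_contra hcon
    push Not at hcon
    have h2 : ∀ j, (fun _ : V => (1 : ℝ)) ⬝ᵥ (b j).ofLp = 0 := by
      intro j
      have := horth j (hcon j)
      simp only [dotProduct, one_mul]
      exact this
    have h3 : (WithLp.toLp 2 (fun _ : V => (1 : ℝ)) : EuclideanSpace ℝ V) = 0 := by
      rw [← b.sum_repr' (WithLp.toLp 2 (fun _ : V => (1 : ℝ)))]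
      apply Finset.sum_eq_zero
      intro j _
      rw [EuclideanSpace.inner_eq_star_dotProduct]
      simp only [star_trivial]
      rw [h2 j, zero_smul]
    obtain ⟨v⟩ := (inferInstance : Nonempty V)
    have h4 := congrArg (fun x : EuclideanSpace ℝ V => x v) h3
    simp at h4
  obtain ⟨j0, hj0⟩ := hex
  refine ⟨(Finset.univ.erase j0).val.map hH.eigenvalues, ?_, ?_⟩
  · rw [hroots]
    have : (Finset.univ : Finset V) = insert j0 (Finset.univ.erase j0) :=
      (Finset.insert_erase (Finset.mem_univ j0)).symm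
    conv_lhs => rw [this]
    rw [Finset.insert_val_of_notMem (Finset.notMem_erase _ _), Multiset.map_cons]
    congr 1
  · intro t ht
    rw [Multiset.mem_map] at ht
    obtain ⟨j, hj, rfl⟩ := ht
    have hj' : j ≠ j0 := (Finset.mem_erase.1 hj).1
    exact hne j fun h => hj' (huniq j j0 h hj0)

/-- **Termination.** If the stub matrices `Z_± = ± Y_±` of a partial graph satisfy `Y_+ ≤ 1` and
`Y_- ≤ 1` on the vectors of sum `0`, every simple `d`-regular graph containing the partial graph is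
Ramanujan. -/
theorem isRamanujan_of_inv {ι : Type*} [Fintype ι] [DecidableEq ι] [Nonempty V]
    {vx : ι → V} {J : List (ι × ι)} {Zp Zm : Matrix ι ι ℝ} {d : ℕ} (hd : 3 ≤ d) {cp cm : ℝ}
    (hcp : cp * Fintype.card V = (√((d : ℝ) - 1))⁻¹ * d - 2)
    (hcm : cm * Fintype.card V = -((√((d : ℝ) - 1))⁻¹) * d - 2)
    (hgp : StubInv vx ((√((d : ℝ) - 1))⁻¹) 1 cp J Zp)
    (hgm : StubInv vx ((√((d : ℝ) - 1))⁻¹) (-1) cm J Zm)
    (hp : ∀ v : ι → ℝ, ∑ i ∈ free J, v i = 0 → v ⬝ᵥ (Zp *ᵥ v) ≤ ∑ i ∈ free J, v i ^ 2)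
    (hm : ∀ v : ι → ℝ, ∑ i ∈ free J, v i = 0 → -(v ⬝ᵥ (Zm *ᵥ v)) ≤ ∑ i ∈ free J, v i ^ 2)
    (hN : 0 < (free J).card)
    (hfib : ∀ v, (Finset.univ.filter fun i => vx i = v).card = d)
    (hJ : Joins J) (Gr : SimpleGraph V) [DecidableRel Gr.Adj] (hreg : Gr.IsRegularOfDegree d)
    (hsub : ∀ p ∈ J, Gr.Adj (vx p.1) (vx p.2))
    (hdist : (J.map fun p => s(vx p.1, vx p.2)).Nodup) :
    IsRamanujanUpTo d 0 Gr := by
  have hd' : (3 : ℝ) ≤ d := by exact_mod_cast hd
  have hs0 : 0 < √((d : ℝ) - 1) := Real.sqrt_pos.2 (by linarith)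
  have hs1 : 1 < √((d : ℝ) - 1) := by
    rw [Real.lt_sqrt (by norm_num)]; linarith
  have hsq : √((d : ℝ) - 1) ^ 2 = d - 1 := Real.sq_sqrt (by linarith)
  set q := √((d : ℝ) - 1) with hq
  have hm0 : 0 < q⁻¹ := by positivity
  have hm1 : q⁻¹ < 1 := inv_lt_one_of_one_lt₀ hs1
  have hmd : (q⁻¹) ^ 2 * ((d : ℝ) - 1) = 1 := by rw [← hsq]; field_simp
  have key1 := fun x hx => quad_le_of_graph hm0 hm1 (Or.inl rfl) d (by rw [hcp]; ring) hN hgp
    (fun v hv => by rw [one_mul]; exact hp v hv) hmd hfib hJ Gr hreg hsub hdist x hx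
  have key2 := fun x hx => quad_le_of_graph hm0 hm1 (Or.inr rfl) d (by rw [hcm]; ring) hN hgm
    (fun v hv => by rw [neg_one_mul]; exact hm v hv) hmd hfib hJ Gr hreg hsub hdist x hx
  have h2q : 2 / q⁻¹ = 2 * q := by field_simp
  rw [h2q] at key1 key2
  have hA : (Gr.adjMatrix ℝ).IsSymm := Gr.isSymm_adjMatrix
  have hlt : 2 * q < d := by nlinarith [sq_nonneg (q - 1)]
  obtain ⟨s, hs, hs'⟩ := roots_of_quad hA (d : ℝ) (2 * q) hlt
    (by
      ext v
      have := Gr.adjMatrix_mulVec_const_apply_of_regular (α := ℝ) (a := 1) hreg (v := v)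
      simp only [Pi.smul_apply, smul_eq_mul]
      rw [← this]
      rfl)
    (fun x hx => by
      have e1 := key1 x hx
      have e2 := key2 x hx
      have e3 : x ⬝ᵥ x = ∑ v, x v ^ 2 := by
        simp only [dotProduct, sq]
      rw [e3]
      constructor <;> linarith)
  refine ⟨hreg, s, hs, fun t ht => (hs' t ht).1, ?_⟩
  rw [Nat.le_zero, Multiset.card_eq_zero, Multiset.filter_eq_nil]
  intro t ht
  have := (hs' t ht).2
  linarith

end Vale.Agent.P049.TS
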